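import Vale.Agent.P354BF.Defs

/-!
The symbol lemma of the black box. At the frequency (om, m) the scalar operator is
P u = (De u')' - 2 i K u' - i K' u - L u, the multiplier is X u = 2 b u' - 2 i ch u + h u, and
- Re (P u conj (X u)) = Bk - Qf' up to terms of order zero, where x stands for u' / (i u).
En is the density of the energy on the slices v - F(r) = const, F' = f, with the Lagrangian
multiplier mu; there s = a om sin - m / sin.
-/

open scoped ContDiff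
open Set

namespace Vale.Agent.P354XH

open Vale.Agent.P354BF (De rp)

/-- Functions of (M, a, r, om, m). -/
abbrev Fm := ℝ → ℝ → ℝ → ℝ → ℝ → ℝ

def K (a r om m : ℝ) : ℝ := om * (r ^ 2 + a ^ 2) - a * m

/-- The lower bound of the angular operator. -/
noncomputable def el (a om m : ℝ) : ℝ := max (|m| - |a * om|) 0 ^ 2

/-- K' De - K (r - M); its zero is the critical point of K ^ 2 / De. -/
def ka (M a r om m : ℝ) : ℝ :=
  om * (r ^ 3 - 3 * M * r ^ 2 + a ^ 2 * r + a ^ 2 * M) + a * m * (r - M)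

/-- Homogeneous polynomials of degree d in (om, m) with smooth coefficients in (M, a, r). -/
def HP (d : ℕ) (F : Fm) : Prop :=
  ∃ c : ℕ → ℝ × ℝ × ℝ → ℝ, (∀ i, ContDiff ℝ ∞ (c i)) ∧ ∀ M a r om m,
    F M a r om m = ∑ i ∈ Finset.range (d + 1), c i (M, a, r) * om ^ i * m ^ (d - i)

/-- The radial derivative. -/
noncomputable def dr (F : Fm) : Fm := fun M a r om m => deriv (fun s => F M a s om m) r

/-- The bulk term. -/
noncomputable def Bk (b ch h : Fm) (M a r om m x L : ℝ) : ℝ :=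
  (dr b M a r om m * De M a r - b M a r om m * (2 * r - 2 * M) + h M a r om m * De M a r) * x ^ 2 +
    2 * (b M a r om m * (2 * r * om) - h M a r om m * K a r om m -
      dr ch M a r om m * De M a r) * x +
    (h M a r om m - dr b M a r om m) * L + 2 * dr ch M a r om m * K a r om m

/-- The radial flux. -/
def Qf (b ch : Fm) (M a r om m x L : ℝ) : ℝ :=
  b M a r om m * De M a r * x ^ 2 - b M a r om m * L -
    2 * ch M a r om m * (De M a r * x - K a r om m)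

/-- The density of the energy. -/
def En (f : ℝ × ℝ × ℝ → ℝ) (b ch mu : Fm) (M a r om m x s L : ℝ) : ℝ :=
  (ch M a r om m - b M a r om m * x) *
      ((r ^ 2 + a ^ 2) * x - a * s - f (M, a, r) * (De M a r * x - K a r om m)) +
    mu M a r om m * (De M a r * x ^ 2 - 2 * K a r om m * x + L)

/-- The data which are given: the far multiplier b = De be, ch = be K + om, h = g + b', good on
[R1 - 2, R2], and the slope f of spacelike slices. -/
structure Far (M a : ℝ) (be g f : ℝ × ℝ × ℝ → ℝ) (R1 R2 : ℝ) : Prop where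
  sb : ContDiff ℝ ∞ be
  sg : ContDiff ℝ ∞ g
  cf : Continuous f
  big : 10 * M + 3 ≤ R1
  le : R1 ≤ R2
  slope : ∀ r ∈ Icc (rp M a) R2, 0 < f (M, a, r) ∧
    a ^ 2 < f (M, a, r) * (2 * (r ^ 2 + a ^ 2) - De M a r * f (M, a, r))
  pos : ∀ r ∈ Icc (R1 - 2) R2, 0 < be (M, a, r) ∧ 0 < g (M, a, r) ∧
    0 < g (M, a, r) + 2 * De M a r * deriv (fun s => be (M, a, s)) r +
      be (M, a, r) * (2 * r - 2 * M)
  dir : ∀ r ∈ Icc (R1 - 2) R2, ∀ om m : ℝ, om ^ 2 + m ^ 2 = 1 →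
    0 < g (M, a, r) * (De M a r * el a om m - K a r om m ^ 2) +
      2 * be (M, a, r) * K a r om m * ka M a r om m ∧
    (De M a r * el a om m ≤ K a r om m ^ 2 → be (M, a, r) * K a r om m ^ 2 < om * K a r om m)

/-- The output: one multiplier, polynomial in (om, m), for all Kerr parameters near (M0, a0). -/
structure Out (M0 a0 : ℝ) (be g f : ℝ × ℝ × ℝ → ℝ) (R1 R2 : ℝ) (N : ℕ) (b ch h mu : Fm)
    (S : ℝ → ℝ → ℝ) (r0 ra rb c δ : ℝ) : Prop where
  hb : HP (2 * N + 2) b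
  hch : HP (2 * N + 3) ch
  hh : HP (2 * N + 2) h
  hmu : HP (2 * N + 2) mu
  hS : ∃ s : ℕ → ℝ, ∀ om m,
    S om m = ∑ i ∈ Finset.range (2 * N + 2 + 1), s i * om ^ i * m ^ (2 * N + 2 - i)
  cpos : 0 < c
  dpos : 0 < δ
  ord : M0 < r0 ∧ r0 < rp M0 a0 ∧ rp M0 a0 < ra ∧ ra ≤ rb ∧ rb < R1
  low : ∀ om m, c * (om ^ 2 + m ^ 2) ^ (N + 1) ≤ S om m
  far : ∀ M a r om m, R1 ≤ r → b M a r om m = S om m * (De M a r * be (M, a, r)) ∧
    ch M a r om m = S om m * (be (M, a, r) * K a r om m + om) ∧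
    h M a r om m = S om m * (g (M, a, r) + deriv (fun s => De M a s * be (M, a, s)) r)
  bulk : ∀ M a, |M - M0| < δ → |a - a0| < δ → ∀ om m, ∃ rs ∈ Icc ra rb, ∀ r ∈ Icc r0 R2,
    ∀ x L, el a om m ≤ L → c * (om ^ 2 + m ^ 2) ^ (N + 1) *
      ((De M a r * x - K a r om m) ^ 2 + (r - rs) ^ 2 * (x ^ 2 + (om ^ 2 + m ^ 2) + L)) ≤
        Bk b ch h M a r om m x L
  flux : ∀ M a, |M - M0| < δ → |a - a0| < δ → ∀ om m, ∀ r ∈ Icc r0 R2, De M a r ≤ 0 →
    ∀ x L, el a om m ≤ L → c * (om ^ 2 + m ^ 2) ^ (N + 1) *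
      (-De M a r * x ^ 2 + (om ^ 2 + m ^ 2) + L) ≤ Qf b ch M a r om m x L
  energy : ∀ M a, |M - M0| < δ → |a - a0| < δ → ∀ om m, ∀ r ∈ Icc r0 R2,
    ∀ x s L, el a om m ≤ L → s ^ 2 ≤ L → c * (om ^ 2 + m ^ 2) ^ (N + 1) *
      (x ^ 2 + (om ^ 2 + m ^ 2) + L) ≤ En f b ch mu M a r om m x s L

/-- The symbol lemma. -/
def SYM : Prop :=
  ∀ M0 a0 : ℝ, a0 ≠ 0 → |a0| < M0 → ∀ (be g f : ℝ × ℝ × ℝ → ℝ) (R1 R2 : ℝ),
    Far M0 a0 be g f R1 R2 → ∃ N b ch h mu S r0 ra rb c δ,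
      Out M0 a0 be g f R1 R2 N b ch h mu S r0 ra rb c δ

end Vale.Agent.P354XH
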