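import Vale.Agent.P354XH.Pack

/-! The symbol lemma. -/

open Set Filter Topology
open scoped ContDiff

namespace Vale.Agent.P354XH

open Vale.Agent.P354BF (De rp)

/-- The bulk also controls ka times all derivatives. -/
def Out2 (M0 a0 R2 : ℝ) (N : ℕ) (b ch h : Fm) (r0 c δ : ℝ) : Prop :=
  ∀ M a, |M - M0| < δ → |a - a0| < δ → ∀ om m, ∀ r ∈ Icc r0 R2, ∀ x L, el a om m ≤ L →
    c * (om ^ 2 + m ^ 2) ^ N * ((om ^ 2 + m ^ 2) * (De M a r * x - K a r om m) ^ 2 +
      ka M a r om m ^ 2 * (x ^ 2 + (om ^ 2 + m ^ 2) + L)) ≤ Bk b ch h M a r om m x L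

/-- The bulk controls the coefficient of L: there is room in the lower bound of L. -/
def Out3 (M0 a0 R2 : ℝ) (b ch h : Fm) (r0 c δ : ℝ) : Prop :=
  ∀ M a, |M - M0| < δ → |a - a0| < δ → ∀ om m, ∀ r ∈ Icc r0 R2, ∀ x L, el a om m ≤ L →
    c * ((om ^ 2 + m ^ 2) * (h M a r om m - dr b M a r om m)) ≤ Bk b ch h M a r om m x L

theorem sym3 {M0 a0 : ℝ} (ha : a0 ≠ 0) (h : |a0| < M0) {be gF f : ℝ × ℝ × ℝ → ℝ} {R1 R2 : ℝ}
    (hF : Far M0 a0 be gF f R1 R2) : ∃ N b ch h mu S r0 ra rb c δ,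
      Out M0 a0 be gF f R1 R2 N b ch h mu S r0 ra rb c δ ∧ Out2 M0 a0 R2 N b ch h r0 c δ ∧
        1 ≤ N ∧ Out3 M0 a0 R2 b ch h r0 c δ := by
  obtain ⟨ra, hra, hr2, near⟩ := crit_near h ha
  obtain ⟨N, b, ch, hh, mu, S, c, ε, hb, hch, hh', hmu, hS, hc, hε, S1, far, H, hN, H3⟩ :=
    unit (exists_pack h ha hF hra near hr2)
  obtain ⟨CS, hCS, S2⟩ := upper Ci_compact (f := fun d => S d.1 d.2)
    (hS.cont.comp (f := fun d : ℝ × ℝ => (((0, 0, 0), d) : Z)) (by fun_prop)).continuousOn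
  have h1 := rp_gt h
  have hbig := hF.big
  have hle := hF.le
  obtain ⟨r0, r1, r2, r3⟩ : ∃ r0, M0 < r0 ∧ r0 < rp M0 a0 ∧ rp M0 a0 - ε ≤ r0 :=
    ⟨max (rp M0 a0 - ε) ((M0 + rp M0 a0) / 2), lt_max_of_lt_right (by linarith),
      max_lt (by linarith) (by linarith), le_max_left _ _⟩
  obtain ⟨w, hw, W⟩ := weight (x := (rp M0 a0 + ra) / 2) (y := 10 * M0 + 1) (R := R2) h ha r1
    (by linarith) (show _ < ra by linarith) hr2 (by linarith) (by linarith)
  obtain ⟨δ, hδ, hb'⟩ := Metric.eventually_nhds_iff.mp (H.and (W.and H3))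
  have key : ∀ M a, |M - M0| < δ → |a - a0| < δ → _ := fun M a h2 h3 => hb' (y := (M, a)) (by
    rw [Prod.dist_eq, max_lt_iff, Real.dist_eq, Real.dist_eq]; exact ⟨h2, h3⟩)
  obtain ⟨k, hk, k1, k2, k3, k4⟩ : ∃ k : ℝ, 0 < k ∧ k ≤ 1 ∧ k ≤ c ∧ k ≤ c * w ∧ k ≤ c ^ 2 / CS :=
    ⟨min (min 1 c) (min (c * w) (c ^ 2 / CS)),
      lt_min (lt_min one_pos hc) (lt_min (mul_pos hc hw) (by positivity)),
      (min_le_left _ _).trans (min_le_left _ _), (min_le_left _ _).trans (min_le_right _ _),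
      (min_le_right _ _).trans (min_le_left _ _), (min_le_right _ _).trans (min_le_right _ _)⟩
  have lam : ∀ t o n : ℝ, o ^ 2 + n ^ 2 = 1 → (t * o) ^ 2 + (t * n) ^ 2 = t ^ 2 := fun t o n hu => by
    linear_combination t ^ 2 * hu
  have sc : ∀ {t a o n L : ℝ}, 0 < t → el a (t * o) (t * n) ≤ L → el a o n ≤ L / t ^ 2 :=
    fun ht hL => by rw [le_div_iff₀ (by positivity), mul_comm, ← el_hom]; exact hL
  refine ⟨N, b, ch, hh, mu, S, r0, (rp M0 a0 + ra) / 2, 10 * M0 + 1, k, δ, ⟨hb, hch, hh', hmu, ?_,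
    hk, hδ, ⟨r1, r2, by linarith, by linarith, by linarith⟩, fun om m => ?_, far,
    fun M a h2 h3 om m => ?_, fun M a h2 h3 om m r hr hD x L hL => ?_,
    fun M a h2 h3 om m r hr x s L hL hs => ?_⟩, fun M a h2 h3 om m r hr x L hL => ?_, hN,
    fun M a h2 h3 om m r hr x L hL => ?_⟩
  · obtain ⟨s, -, e⟩ := hS
    exact ⟨fun i => s i (0, 0, 0), fun om m => e 0 0 0 om m⟩
  · obtain ⟨t, o, n, ht, hu, rfl, rfl⟩ := polar om m
    have e : S (t * o) (t * n) = t ^ (2 * N + 2) * S o n := hS.hom 0 0 0 o n t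
    rw [e, lam t o n hu, ← pow_mul, mul_comm k]
    exact mul_le_mul_of_nonneg_left (k1.trans (S1 (o, n) hu)) (by positivity)
  · obtain ⟨t, o, n, ht, hu, rfl, rfl⟩ := polar om m
    obtain ⟨rs, hrs, W'⟩ := (key M a h2 h3).2.1 o n hu
    refine ⟨rs, hrs, fun r hr x L hL => ?_⟩
    rcases eq_or_lt_of_le ht with rfl | ht'
    · simp only [Bk, hb.hom, hb.dr.hom, hch.dr.hom, hh'.hom]; simp
    · have hL' := sc ht' hL
      have hL0 := (el_nonneg _ _ _).trans hL'
      have a1 := ((key M a h2 h3).1 r ⟨r3.trans hr.1, hr.2⟩ (o, n) hu).1 (x / t) (L / t ^ 2) hL'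
      have a2 := Bk_hom hb hch hh' M a r o n (x / t) (L / t ^ 2) t
      rw [mul_div_cancel₀ _ ht'.ne', mul_div_cancel₀ _ (by positivity)] at a2
      have a3 : k * ((De M a r * (x / t) - K a r o n) ^ 2 +
          (r - rs) ^ 2 * ((x / t) ^ 2 + 1 + L / t ^ 2)) ≤ Bk b ch hh M a r o n (x / t) (L / t ^ 2) := by
        refine le_trans ?_ a1
        have b1 := mul_le_mul_of_nonneg_right k2 (sq_nonneg (De M a r * (x / t) - K a r o n))
        have b2 : k * (r - rs) ^ 2 ≤ c * (ka M a r o n ^ 2 + th ra (10 * M0) r) :=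
          (mul_le_mul_of_nonneg_right k3 (sq_nonneg _)).trans (by
            rw [mul_assoc]; exact mul_le_mul_of_nonneg_left (W' r hr) hc.le)
        have b3 := mul_le_mul_of_nonneg_right b2
          (show 0 ≤ (x / t) ^ 2 + 1 + L / t ^ 2 by positivity)
        simp only [NB, zW, zD, zK, zk]
        linarith
      rw [a2, lam t o n hu, K_hom]
      refine le_trans (le_of_eq ?_) (mul_le_mul_of_nonneg_left a3 (by positivity))
      field_simp
      ring
  · obtain ⟨t, o, n, ht, hu, rfl, rfl⟩ := polar om m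
    rcases eq_or_lt_of_le ht with rfl | ht'
    · simp only [Qf, hb.hom, hch.hom]; simp
    · have hL' := sc ht' hL
      have hL0 := (el_nonneg _ _ _).trans hL'
      have a1 := (((key M a h2 h3).1 r ⟨r3.trans hr.1, hr.2⟩ (o, n) hu).mono k2).2.1 hD (x / t)
        (L / t ^ 2) hL'
      have a2 := Qf_hom hb hch M a r o n (x / t) (L / t ^ 2) t
      rw [mul_div_cancel₀ _ ht'.ne', mul_div_cancel₀ _ (by positivity)] at a2
      rw [a2, lam t o n hu]
      refine le_trans (le_of_eq ?_) (mul_le_mul_of_nonneg_left a1 (by positivity))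
      simp only [zD]
      field_simp
      ring
  · obtain ⟨t, o, n, ht, hu, rfl, rfl⟩ := polar om m
    rcases eq_or_lt_of_le ht with rfl | ht'
    · simp only [En, hb.hom, hch.hom, hmu.hom]; simp
    · have hL' := sc ht' hL
      have a1 := (((key M a h2 h3).1 r ⟨r3.trans hr.1, hr.2⟩ (o, n) hu).mono k2).2.2 (x / t) (s / t)
        (L / t ^ 2) hL' (by rw [div_pow]; gcongr)
      have a2 := En_hom f hb hch hmu M a r o n (x / t) (s / t) (L / t ^ 2) t
      rw [mul_div_cancel₀ _ ht'.ne', mul_div_cancel₀ _ ht'.ne',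
        mul_div_cancel₀ _ (by positivity)] at a2
      rw [a2, lam t o n hu]
      refine le_trans (le_of_eq ?_) (mul_le_mul_of_nonneg_left a1 (by positivity))
      field_simp
      ring
  · obtain ⟨t, o, n, ht, hu, rfl, rfl⟩ := polar om m
    rcases eq_or_lt_of_le ht with rfl | ht'
    · simp only [Bk, hb.hom, hb.dr.hom, hch.dr.hom, hh'.hom, ka_hom]; simp
    · have hL' := sc ht' hL
      have hL0 := (el_nonneg _ _ _).trans hL'
      have a1 := (((key M a h2 h3).1 r ⟨r3.trans hr.1, hr.2⟩ (o, n) hu).mono k2).1 (x / t)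
        (L / t ^ 2) hL'
      have a2 := Bk_hom hb hch hh' M a r o n (x / t) (L / t ^ 2) t
      rw [mul_div_cancel₀ _ ht'.ne', mul_div_cancel₀ _ (by positivity)] at a2
      have a3 : k * ((De M a r * (x / t) - K a r o n) ^ 2 +
          ka M a r o n ^ 2 * ((x / t) ^ 2 + 1 + L / t ^ 2)) ≤
          Bk b ch hh M a r o n (x / t) (L / t ^ 2) := by
        refine le_trans (mul_le_mul_of_nonneg_left ?_ hk.le) a1
        have := mul_nonneg (th_nonneg ra (10 * M0) r)
          (show 0 ≤ (x / t) ^ 2 + 1 + L / t ^ 2 by positivity)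
        simp only [NB, zW, zD, zK, zk]
        linarith
      rw [a2, lam t o n hu, K_hom, ka_hom]
      refine le_trans (le_of_eq ?_) (mul_le_mul_of_nonneg_left a3 (by positivity))
      field_simp
      ring
  · obtain ⟨t, o, n, ht, hu, rfl, rfl⟩ := polar om m
    rcases eq_or_lt_of_le ht with rfl | ht'
    · simp only [Bk, hb.hom, hb.dr.hom, hch.dr.hom, hh'.hom]; simp
    · have hL' := sc ht' hL
      have hL0 := (el_nonneg _ _ _).trans hL'
      have a1 := ((key M a h2 h3).1 r ⟨r3.trans hr.1, hr.2⟩ (o, n) hu).1 (x / t) (L / t ^ 2) hL'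
      have a2 := Bk_hom hb hch hh' M a r o n (x / t) (L / t ^ 2) t
      rw [mul_div_cancel₀ _ ht'.ne', mul_div_cancel₀ _ (by positivity)] at a2
      have a3 : k * (hh M a r o n - dr b M a r o n) ≤ Bk b ch hh M a r o n (x / t) (L / t ^ 2) := by
        have b0 := zW_nonneg ra (10 * M0) ((M, a, r), o, n)
        have b1 := (key M a h2 h3).2.2 r ⟨r3.trans hr.1, hr.2⟩ (o, n) hu
        have b2 := mul_le_mul_of_nonneg_right ((le_abs_self _).trans (S2 (o, n) hu)) b0
        have b3 : zW ra (10 * M0) ((M, a, r), o, n) ≤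
            NB ra (10 * M0) ((M, a, r), o, n) (x / t) (L / t ^ 2) := by
          have := mul_nonneg b0 (show 0 ≤ (x / t) ^ 2 + L / t ^ 2 by positivity)
          unfold NB
          linarith [sq_nonneg (zD ((M, a, r), o, n) * (x / t) - zK ((M, a, r), o, n))]
        have b4 := mul_le_mul_of_nonneg_left b3 hc.le
        have b5 := off_mono (c := c ^ 2 / CS) (B := dr b M a r o n - hh M a r o n) hk k4
          (mul_nonneg hc.le b0) (by
            rw [div_mul_eq_mul_div, le_div_iff₀ hCS]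
            simp only at b1 b2
            nlinarith [mul_le_mul_of_nonneg_left b1 hc.le, mul_le_mul_of_nonneg_left b2 hc.le])
        simp only [zB] at a1
        linarith
      rw [a2, lam t o n hu, hh'.hom, hb.dr.hom]
      refine le_trans (le_of_eq ?_) (mul_le_mul_of_nonneg_left a3 (by positivity))
      ring

theorem sym2 {M0 a0 : ℝ} (ha : a0 ≠ 0) (h : |a0| < M0) {be gF f : ℝ × ℝ × ℝ → ℝ} {R1 R2 : ℝ}
    (hF : Far M0 a0 be gF f R1 R2) : ∃ N b ch h mu S r0 ra rb c δ,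
      Out M0 a0 be gF f R1 R2 N b ch h mu S r0 ra rb c δ ∧ Out2 M0 a0 R2 N b ch h r0 c δ :=
  have ⟨N, b, ch, h', mu, S, r0, ra, rb, c, δ, H, H', _⟩ := sym3 ha h hF
  ⟨N, b, ch, h', mu, S, r0, ra, rb, c, δ, H, H'⟩

theorem sym : SYM := fun _ _ ha h _ _ _ _ _ hF =>
  have ⟨N, b, ch, h', mu, S, r0, ra, rb, c, δ, H, _⟩ := sym2 ha h hF
  ⟨N, b, ch, h', mu, S, r0, ra, rb, c, δ, H⟩

end Vale.Agent.P354XH
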