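import Vale.Agent.P354XH.Red

/-! The polynomial family attached to one direction. -/

open Set Filter Topology
open scoped ContDiff

namespace Vale.Agent.P354XH

open Vale.Agent.P354BF (De rp)

structure Arc (M0 a0 om0 m0 ra rb t2 R1 : ℝ) (be gF : ℝ × ℝ × ℝ → ℝ) (β g e G gt g1 q : ℝ → ℝ)
    (βf gf ef : Fm) : Prop where
  hβ : HP 2 βf
  hg : HP 2 gf
  he : HP 3 ef
  c1 : ∀ r, βf M0 a0 r om0 m0 = β r
  c2 : ∀ r, gf M0 a0 r om0 m0 = g r
  c3 : ∀ r, ef M0 a0 r om0 m0 = e r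
  t1 : ∀ M a r om m, r ∈ Ioo t2 (rb + 1 / 3) →
    βf M a r om m = G r * ((om0 * om + m0 * m) * ka M a r om m) ∧
    gf M a r om m = gt r * ka M a r om m ^ 2 + g1 r * th ra rb r * (om ^ 2 + m ^ 2) ∧
    dr ef M a r om m = (om ^ 2 + m ^ 2) * (q r * ka M a r om m)
  far : ∀ M a r om m, R1 - 1 / 2 ≤ r → βf M a r om m = (om ^ 2 + m ^ 2) * be (M, a, r) ∧
    gf M a r om m = (om ^ 2 + m ^ 2) * gF (M, a, r) ∧ ef M a r om m = (om ^ 2 + m ^ 2) * om

theorem sr {f : ℝ → ℝ} (hf : ContDiff ℝ ∞ f) : ContDiff ℝ ∞ fun z : ℝ × ℝ × ℝ => f z.2.2 :=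
  hf.comp (by fun_prop)

theorem prim_ka {q : ℝ → ℝ} (hq : ContDiff ℝ ∞ q) : ∃ I : Fm, HP 1 I ∧ (∀ M a om m, I M a 0 om m = 0) ∧
    ∀ M a r om m, HasDerivAt (fun s => I M a s om m) (q r * ka M a r om m) r := by
  have key : ∀ k : ℕ, ∃ Q : ℝ → ℝ, ContDiff ℝ ∞ Q ∧ Q 0 = 0 ∧ ∀ r, HasDerivAt Q (q r * r ^ k) r :=
    fun k => by
      obtain ⟨Q, sQ, hQ⟩ := prim (q := fun r => q r * r ^ k) (hq.mul (by fun_prop))
      exact ⟨fun r => Q r - Q 0, sQ.sub contDiff_const, sub_self _, fun r => (hQ r).sub_const _⟩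
  choose Q sQ Q0 dQ using key
  have s0 := sr (sQ 0)
  have s1 := sr (sQ 1)
  have s2 := sr (sQ 2)
  have s3 := sr (sQ 3)
  refine ⟨fun M a r om m => (Q 3 r - 3 * M * Q 2 r + a ^ 2 * Q 1 r + a ^ 2 * M * Q 0 r) * om +
    a * (Q 1 r - M * Q 0 r) * m,
    (HP.om.smul (k := fun z => Q 3 z.2.2 - 3 * z.1 * Q 2 z.2.2 + z.2.1 ^ 2 * Q 1 z.2.2 +
      z.2.1 ^ 2 * z.1 * Q 0 z.2.2) ?_).add
    (HP.m.smul (k := fun z => z.2.1 * (Q 1 z.2.2 - z.1 * Q 0 z.2.2)) ?_),
    fun M a om m => by simp [Q0], fun M a r om m => ?_⟩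
  · exact ((s3.sub (ContDiff.mul (by fun_prop) s2)).add (ContDiff.mul (by fun_prop) s1)).add
      (ContDiff.mul (by fun_prop) s0)
  · exact ContDiff.mul (by fun_prop) (s1.sub (ContDiff.mul (by fun_prop) s0))
  · refine ((((((dQ 3 r).sub ((dQ 2 r).const_mul (3 * M))).add ((dQ 1 r).const_mul (a ^ 2))).add
      ((dQ 0 r).const_mul (a ^ 2 * M))).mul_const om).add
      ((((dQ 1 r).sub ((dQ 0 r).const_mul M)).const_mul a).mul_const m)).congr_deriv ?_
    unfold ka; ring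

theorem exists_arc {M0 a0 om0 m0 ra ta t2 R1 R2 : ℝ} {be gF f : ℝ × ℝ × ℝ → ℝ}
    {β g e G gt g1 q : ℝ → ℝ} (hu : om0 ^ 2 + m0 ^ 2 = 1) (hF : Far M0 a0 be gF f R1 R2)
    (ht : ta < t2) (C : Core M0 a0 om0 m0 ra (10 * M0) ta R2 β g e G gt g1 q)
    (hf : ∀ r, R1 - 1 ≤ r → β r = be (M0, a0, r) ∧ g r = gF (M0, a0, r)) :
    ∃ βf gf ef, Arc M0 a0 om0 m0 ra (10 * M0) t2 R1 be gF β g e G gt g1 q βf gf ef := by
  have hbig := hF.big
  obtain ⟨k1, s1, x0, x1, -⟩ := step ht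
  obtain ⟨k2, s2, y0, y1, -⟩ := step (x := 10 * M0 + 1 / 3) (y := 10 * M0 + 2 / 3) (by linarith)
  obtain ⟨kF, sF, z0, z1, -⟩ := step (x := R1 - 1) (y := R1 - 1 / 2) (by linarith)
  obtain ⟨kT, hT⟩ : ∃ kT : ℝ → ℝ, kT = fun r => k1 r * (1 - k2 r) := ⟨_, rfl⟩
  have sT : ContDiff ℝ ∞ kT := by rw [hT]; exact s1.mul (contDiff_const.sub s2)
  have T0 : ∀ r, r ∉ Ioo ta (10 * M0 + 1) → kT r = 0 := fun r hr => by
    rcases not_and_or.mp hr with h | h
    · simp [hT, x0 r (not_lt.mp h)]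
    · simp [hT, y1 r (by linarith [not_lt.mp h])]
  have T1 : ∀ r ∈ Ioo t2 (10 * M0 + 1 / 3), kT r = 1 := fun r hr => by
    simp [hT, x1 r hr.1.le, y0 r hr.2.le]
  obtain ⟨I, hI, I0, dI⟩ := prim_ka C.sq
  have sH : ContDiff ℝ ∞ fun r => 1 - kT r - kF r := (contDiff_const.sub sT).sub sF
  have hl := HP.lin om0 m0
  have u' : om0 * om0 + m0 * m0 = 1 := by linarith
  have he : ∀ r, e 0 + I M0 a0 r om0 m0 = e r := fun r => by
    have d : ∀ r, HasDerivAt (fun r => I M0 a0 r om0 m0 - e r) 0 r := fun r =>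
      ((dI M0 a0 r om0 m0).sub (hd C.se r)).congr_deriv (by rw [C.de, sub_self])
    have := is_const_of_deriv_eq_zero (fun r => (d r).differentiableAt) (fun r => (d r).deriv) r 0
    rw [I0] at this; linarith
  refine ⟨fun M a r om m => (1 - kT r - kF r) * β r * (om ^ 2 + m ^ 2) +
      kT r * G r * ((om0 * om + m0 * m) * ka M a r om m) + kF r * be (M, a, r) * (om ^ 2 + m ^ 2),
    fun M a r om m => (1 - kT r - kF r) * g r * (om ^ 2 + m ^ 2) +
      kT r * (gt r * ka M a r om m ^ 2 + g1 r * th ra (10 * M0) r * (om ^ 2 + m ^ 2)) +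
      kF r * gF (M, a, r) * (om ^ 2 + m ^ 2),
    fun M a r om m => (om ^ 2 + m ^ 2) * ((1 - kF r) * (e 0 * (om0 * om + m0 * m) + I M a r om m) +
      kF r * om), ?_, ?_, ?_, fun r => ?_, fun r => ?_, fun r => ?_, fun M a r om m hr => ?_,
    fun M a r om m hr => ?_⟩
  · exact ((HP.lam.smul (sr (sH.mul C.sβ))).add ((hl.mul HP.ka).smul (sr (sT.mul C.sG)))).add
      (HP.lam.smul ((sr sF).mul hF.sb))
  · exact ((HP.lam.smul (sr (sH.mul C.sg))).add ((((HP.ka.pow 2).smul (sr C.sgt)).add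
      (HP.lam.smul (sr (C.sg1.mul (th_smooth _ _))))).smul (sr sT))).add
      (HP.lam.smul ((sr sF).mul hF.sg))
  · exact HP.lam.mul ((((hl.smul (k := fun _ => e 0) contDiff_const).add hI).smul
      (sr (contDiff_const.sub sF))).add (HP.om.smul (sr sF)))
  · have a1 : kT r * G r * ka M0 a0 r om0 m0 = kT r * β r := by
      by_cases hr : r ∈ Ioo ta (10 * M0 + 1)
      · rw [(C.str r hr).1, mul_assoc]
      · simp [T0 r hr]
    have a2 : kF r * be (M0, a0, r) = kF r * β r := by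
      rcases le_total r (R1 - 1) with hr | hr
      · simp [z0 r hr]
      · rw [(hf r hr).1]
    simp only [hu, u', one_mul, mul_one, a1, a2]; ring
  · have a1 : kT r * (gt r * ka M0 a0 r om0 m0 ^ 2 + g1 r * th ra (10 * M0) r) = kT r * g r := by
      by_cases hr : r ∈ Ioo ta (10 * M0 + 1)
      · rw [(C.str r hr).2]
      · simp [T0 r hr]
    have a2 : kF r * gF (M0, a0, r) = kF r * g r := by
      rcases le_total r (R1 - 1) with hr | hr
      · simp [z0 r hr]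
      · rw [(hf r hr).2]
    simp only [hu, mul_one, a1, a2]; ring
  · have a2 : kF r * om0 = kF r * e r := by
      rcases le_total r (R1 - 1) with hr | hr
      · simp [z0 r hr]
      · rw [C.ef r (by linarith)]
    simp only [hu, u', one_mul, mul_one, he, a2]; ring
  · have F0 := z0 r (by linarith [hr.2])
    refine ⟨by simp [T1 r hr, F0], by simp [T1 r hr, F0], ?_⟩
    have : (fun s => (om ^ 2 + m ^ 2) * ((1 - kF s) * (e 0 * (om0 * om + m0 * m) + I M a s om m) +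
        kF s * om)) =ᶠ[𝓝 r] fun s => (om ^ 2 + m ^ 2) * (e 0 * (om0 * om + m0 * m) + I M a s om m) := by
      filter_upwards [Iio_mem_nhds (show r < R1 - 1 by linarith [hr.2])] with s hs
      simp [z0 s hs.le]
    exact this.deriv_eq.trans (((dI M a r om m).const_add _).const_mul _).deriv
  · have a1 := T0 r fun h => by linarith [h.2]
    have a2 := z1 r hr
    refine ⟨?_, ?_, ?_⟩ <;> simp only [a1, a2] <;> ring

/-- The multiplier made from the family. -/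
def fb (βf : Fm) (n : ℝ → ℝ) : Fm := fun M a r om m =>
  De M a r * βf M a r om m - n r * (om ^ 2 + m ^ 2)

def fc (βf ef : Fm) : Fm := fun M a r om m => βf M a r om m * K a r om m + ef M a r om m

noncomputable def fh (βf gf : Fm) : Fm := fun M a r om m =>
  gf M a r om m + ((2 * r - 2 * M) * βf M a r om m + De M a r * dr βf M a r om m)

def fm (μ : ℝ → ℝ) : Fm := fun _ _ r om m => μ r * (om ^ 2 + m ^ 2)

variable {βf gf ef : Fm} {n μ : ℝ → ℝ}

theorem hp_fb (h : HP 2 βf) (hn : ContDiff ℝ ∞ n) : HP 2 (fb βf n) :=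
  (h.smul smooth_De).sub (HP.lam.smul (sr hn))

theorem hp_fc (h : HP 2 βf) (h' : HP 3 ef) : HP 3 (fc βf ef) := (h.mul HP.K).add h'

theorem hp_fh (h : HP 2 βf) (h' : HP 2 gf) : HP 2 (fh βf gf) :=
  h'.add ((h.smul (k := fun z => 2 * z.2.2 - 2 * z.1) (by fun_prop)).add (h.dr.smul smooth_De))

theorem hp_fm (h : ContDiff ℝ ∞ μ) : HP 2 (fm μ) := HP.lam.smul (sr h)

theorem dr_fb (h : HP 2 βf) (hn : ContDiff ℝ ∞ n) (M a r om m : ℝ) : dr (fb βf n) M a r om m =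
    (2 * r - 2 * M) * βf M a r om m + De M a r * dr βf M a r om m -
      deriv n r * (om ^ 2 + m ^ 2) :=
  (((hdDe M a r).mul (h.hd M a r om m)).sub ((hd hn r).mul_const _)).deriv

theorem dr_fc (h : HP 2 βf) (h' : HP 3 ef) (M a r om m : ℝ) : dr (fc βf ef) M a r om m =
    dr βf M a r om m * K a r om m + βf M a r om m * (2 * r * om) + dr ef M a r om m :=
  (((h.hd M a r om m).mul (hdK a om m r)).add (h'.hd M a r om m)).deriv

end Vale.Agent.P354XH
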