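import Vale.Agent.P354XH.Kerr

/-! The data in one direction, and the passage to the far multiplier. -/

open Set Filter Topology
open scoped ContDiff

namespace Vale.Agent.P354XH

open Vale.Agent.P354BF (De rp)

/-- The coefficient of eta ^ 2 in De times the bulk. -/
noncomputable def cA (M a : ℝ) (β g : ℝ → ℝ) (r : ℝ) : ℝ :=
  g r + 2 * De M a r * deriv β r + β r * (2 * r - 2 * M)

/-- Strict positivity at a radius outside the hole. -/
def Mid (M a om m : ℝ) (β g e : ℝ → ℝ) (r : ℝ) : Prop :=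
  ∃ c, 0 < c ∧ Pos c (cA M a β g r) (-(De M a r * deriv e r))
    (-(g r * K a r om m ^ 2) + 2 * β r * K a r om m * ka M a r om m) (g r * De M a r) 0 0
    (el a om m)

/-- Degenerate positivity. -/
def Deg (M a om m ra rb : ℝ) (β g G gt g1 q : ℝ → ℝ) (r : ℝ) : Prop :=
  r ∈ Icc ra rb ∧ (∀ s, q s = 0) ∧ 0 < cA M a β g r ∧ 0 < gt r ∧ 0 < g1 r ∧
    0 < gt r * (De M a r * el a om m - K a r om m ^ 2) + 2 * G r * K a r om m ∧
    (r ∈ Ioo ra rb ∨ K a r om m ^ 2 < De M a r * el a om m)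

/-- Positivity at the horizon. -/
def Hor (M a om m : ℝ) (β g e : ℝ → ℝ) : Prop :=
  ∃ A : ℝ → ℝ, ContinuousAt A (rp M a) ∧ (∀ᶠ r in 𝓝 (rp M a), De M a r * A r = cA M a β g r) ∧
    ∃ c, 0 < c ∧ Pos c (A (rp M a)) (-deriv e (rp M a))
      (2 * K a (rp M a) om m * (deriv β (rp M a) * K a (rp M a) om m +
        β (rp M a) * (2 * rp M a * om)) - A (rp M a) * K a (rp M a) om m ^ 2)
      (g (rp M a)) 0 0 (el a om m)

structure Core (M a om m ra rb ta R : ℝ) (β g e G gt g1 q : ℝ → ℝ) : Prop where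
  sβ : ContDiff ℝ ∞ β
  sg : ContDiff ℝ ∞ g
  se : ContDiff ℝ ∞ e
  sG : ContDiff ℝ ∞ G
  sgt : ContDiff ℝ ∞ gt
  sg1 : ContDiff ℝ ∞ g1
  sq : ContDiff ℝ ∞ q
  hor : Hor M a om m β g e
  mid : ∀ r ∈ Ioc (rp M a) R, Mid M a om m β g e r ∨ Deg M a om m ra rb β g G gt g1 q r
  tl : ∀ r ∈ Icc (rp M a) R, De M a r * el a om m ≤ K a r om m ^ 2 → K a r om m ≠ 0 →
    |β r| * K a r om m ^ 2 < e r * K a r om m
  str : ∀ r ∈ Ioo ta (rb + 1), β r = G r * ka M a r om m ∧
    g r = gt r * ka M a r om m ^ 2 + g1 r * th ra rb r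
  de : ∀ r, deriv e r = q r * ka M a r om m
  ef : ∀ r, rb + 1 / 2 ≤ r → e r = om

theorem glue {M a om m ra ta R1 R2 : ℝ} {β g e G gt g1 q : ℝ → ℝ} {be gF f : ℝ × ℝ × ℝ → ℝ}
    (h : |a| < M) (hu : om ^ 2 + m ^ 2 = 1) (hF : Far M a be gF f R1 R2)
    (C : Core M a om m ra (10 * M) ta (R1 - 1) β g e G gt g1 q)
    (hb : ∀ r ∈ Icc (R1 - 2) (R1 - 1), β r ≤ be (M, a, r)) :
    ∃ β' g', Core M a om m ra (10 * M) ta R2 β' g' e G gt g1 q ∧
      ∀ r, R1 - 1 ≤ r → β' r = be (M, a, r) ∧ g' r = gF (M, a, r) := by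
  obtain ⟨k, sk, k0, k1, kn, kl, kd, -⟩ := step (x := R1 - 2) (y := R1 - 1) (by linarith)
  have hM := M_pos h
  have hrp := rp_le h
  have hbig := hF.big
  have sb : ContDiff ℝ ∞ fun r => be (M, a, r) := hF.sb.comp (by fun_prop)
  have sgF : ContDiff ℝ ∞ fun r => gF (M, a, r) := hF.sg.comp (by fun_prop)
  obtain ⟨β', hβ'⟩ : ∃ β' : ℝ → ℝ, β' = fun r => (1 - k r) * β r + k r * be (M, a, r) := ⟨_, rfl⟩
  obtain ⟨g', hg'⟩ : ∃ g' : ℝ → ℝ, g' = fun r => (1 - k r) * g r + k r * gF (M, a, r) := ⟨_, rfl⟩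
  have e1 : ∀ r, r ≤ R1 - 2 → β' r = β r := fun r hr => by simp [hβ', k0 r hr]
  have e2 : ∀ r, r ≤ R1 - 2 → g' r = g r := fun r hr => by simp [hg', k0 r hr]
  have e3 : ∀ r, r < R1 - 2 → deriv β' r = deriv β r := fun r hr =>
    Filter.EventuallyEq.deriv_eq (by
      filter_upwards [Iio_mem_nhds hr] with s hs using e1 s hs.le)
  have e4 : ∀ r, r < R1 - 2 → cA M a β' g' r = cA M a β g r := fun r hr => by
    simp only [cA, e1 r hr.le, e2 r hr.le, e3 r hr]
  have e5 : ∀ r, deriv β' r = (1 - k r) * deriv β r + k r * deriv (fun s => be (M, a, s)) r +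
      deriv k r * (be (M, a, r) - β r) := fun r => by
    have := (((hasDerivAt_const r (1 : ℝ)).sub (hd sk r)).mul (hd C.sβ r)).add
      ((hd sk r).mul (hd sb r))
    rw [hβ']
    refine (this.congr_deriv ?_).deriv
    simp only [Pi.sub_apply]; ring
  have e6 : ∀ r, R1 - 2 ≤ r → deriv e r = 0 := fun r hr => by
    have : e =ᶠ[𝓝 r] fun _ => om := by
      filter_upwards [Ioi_mem_nhds (show 10 * M + 1 / 2 < r by linarith)] with s hs
        using C.ef s hs.le
    rw [this.deriv_eq, deriv_const]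
  have far : ∀ r ∈ Icc (R1 - 2) R2, Mid M a om m (fun s => be (M, a, s)) (fun s => gF (M, a, s)) e r :=
    fun r hr => by
      obtain ⟨p1, p2, p3⟩ := hF.pos r hr
      have hD := De_pos h (r := r) (by linarith [hr.1])
      refine posdef p3 (mul_pos p2 hD) ?_ (el_nonneg _ _ _)
      rw [e6 r hr.1]
      have := mul_pos p3 (hF.dir r hr om m hu).1
      simp only [cA]
      linarith
  refine ⟨β', g', ⟨by rw [hβ']; exact ((contDiff_const.sub sk).mul C.sβ).add (sk.mul sb),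
    by rw [hg']; exact ((contDiff_const.sub sk).mul C.sg).add (sk.mul sgF),
    C.se, C.sG, C.sgt, C.sg1, C.sq, ?_, fun r hr => ?_, fun r hr h1 h2 => ?_, fun r hr => ?_,
    C.de, C.ef⟩, fun r hr => by simp [hβ', hg', k1 r hr]⟩
  · obtain ⟨A, a1, a2, a3⟩ := C.hor
    have hr : rp M a < R1 - 2 := by linarith
    refine ⟨A, a1, ?_, ?_⟩
    · filter_upwards [a2, Iio_mem_nhds hr] with r h1 h2
      rw [h1, e4 r h2]
    · rw [e1 _ hr.le, e2 _ hr.le, e3 _ hr]; exact a3
  · rcases lt_or_ge r (R1 - 2) with h1 | h1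
    · rcases C.mid r ⟨hr.1, by linarith⟩ with h2 | h2
      · left; unfold Mid; rw [e4 r h1, e1 r h1.le, e2 r h1.le]; exact h2
      · right; unfold Deg; rw [e4 r h1]; exact h2
    · left
      obtain ⟨c', hc', P'⟩ := far r ⟨h1, hr.2⟩
      have hD := De_pos h hr.1
      rcases le_or_gt r (R1 - 1) with h2 | h2
      · rcases C.mid r ⟨hr.1, h2⟩ with ⟨c, hc, P⟩ | h3
        · refine ⟨min c c', lt_min hc hc', (P.comb P' (x := 1 - k r) (y := k r)
            (by linarith [kl r]) (kn r) (by ring)).of_eq ?_ (by ring) ?_ ?_ (by ring) (by ring)⟩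
          · have := mul_nonneg hD.le (mul_nonneg (kd r) (sub_nonneg.mpr (hb r ⟨h1, h2⟩)))
            simp only [cA, e5]
            simp only [hβ', hg']
            linarith
          · simp only [hβ', hg']; ring
          · simp only [hg']; ring
        · linarith [h3.1.2]
      · have d0 : deriv k r = 0 := by
          have : k =ᶠ[𝓝 r] fun _ => 1 := by
            filter_upwards [Ioi_mem_nhds h2] with s hs using k1 s hs.le
          rw [this.deriv_eq, deriv_const]
        refine ⟨c', hc', P'.of_eq (le_of_eq ?_) rfl ?_ ?_ rfl rfl⟩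
        · simp only [cA, e5, d0]
          simp only [hβ', hg', k1 r h2.le]; ring
        · simp only [hβ', hg', k1 r h2.le]; ring
        · simp only [hg', k1 r h2.le]; ring
  · rcases le_or_gt r (R1 - 2) with h3 | h3
    · rw [e1 r h3]; exact C.tl r ⟨hr.1, by linarith⟩ h1 h2
    · have p1 := (hF.pos r ⟨h3.le, hr.2⟩).1
      have p2 := (hF.dir r ⟨h3.le, hr.2⟩ om m hu).2 h1
      have p3 := C.ef r (by linarith)
      rcases le_or_gt r (R1 - 1) with h4 | h4
      · have p4 := C.tl r ⟨hr.1, h4⟩ h1 h2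
        have p5 : |β' r| ≤ (1 - k r) * |β r| + k r * be (M, a, r) := by
          rw [hβ']
          refine (abs_add_le _ _).trans (le_of_eq ?_)
          rw [abs_mul, abs_mul, abs_of_nonneg (kn r), abs_of_pos p1,
            abs_of_nonneg (sub_nonneg.mpr (kl r))]
        rw [p3] at p4 ⊢
        have p6 := mul_le_mul_of_nonneg_right p5 (sq_nonneg (K a r om m))
        rcases eq_or_lt_of_le (kn r) with p7 | p7
        · rw [← p7] at p6; linarith
        · nlinarith [mul_lt_mul_of_pos_left p2 p7,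
            mul_le_mul_of_nonneg_left p4.le (sub_nonneg.mpr (kl r))]
      · have : β' r = be (M, a, r) := by simp [hβ', k1 r h4.le]
        rw [this, abs_of_pos p1, p3]; exact p2
  · rw [e1 r (by linarith [hr.2]), e2 r (by linarith [hr.2])]; exact C.str r hr

end Vale.Agent.P354XH
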