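import Vale.Agent.P354XH.DirS

/-! The directions with om K > 0 at the horizon. -/

open Set Filter Topology
open scoped ContDiff

namespace Vale.Agent.P354XH

open Vale.Agent.P354BF (De rp)

variable {M a om m : ℝ}

theorem small {C b : ℝ} (hC : 0 < C) (hb : 0 < b) : ∃ t, 0 < t ∧ t * C < b :=
  ⟨b / (2 * C), by positivity, by
    have : b / (2 * C) * C = b / 2 := by field_simp
    linarith⟩

/-- The constants of the construction. -/
structure N1 (M a om m ra R y t g1 s : ℝ) (Y Y' : ℝ → ℝ) : Prop where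
  y2 : y < rp M a
  t0 : 0 < t
  g10 : 0 < g1
  s0 : 0 < s
  oK : ∀ r ∈ Ioi y, 0 < om * K a r om m
  xp : ∀ r ∈ Ioi y, 0 < r - M
  sY : ContDiffOn ℝ ∞ Y (Ioi y)
  sY' : ContDiffOn ℝ ∞ Y' (Ioi y)
  dY : ∀ r ∈ Ioi y, HasDerivAt Y (Y' r) r
  kY : ∀ r ∈ Ioi y, ka M a r om m = (r - M) * Y r
  pY : ∀ r ∈ Ioi y, 0 < Y' r * K a r om m
  ta1 : ∀ r ∈ Icc (rp M a) R, t * Y r ^ 2 < 1
  ta2 : ∀ r ∈ Icc (rp M a) R, t * (De M a r * Y' r * K a r om m) < r - M
  forb : ∀ r, rp M a < r → r ∉ Ioo ra (10 * M) → ka M a r om m = 0 →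
    K a r om m ^ 2 < De M a r * el a om m
  pW : ∀ r ∈ Icc (rp M a) R, r ∉ Ioo ra (10 * M) → De M a r * el a om m ≤ K a r om m ^ 2 →
    g1 * (th ra (10 * M) r * K a r om m ^ 2) < t * Y r ^ 2 * (Y' r * K a r om m)
  tl : ∀ r ∈ Icc (rp M a) R, s * |Y r| < |om|

theorem n1 {ra R1 R2 : ℝ} {be gF f : ℝ × ℝ × ℝ → ℝ} (h : |a| < M) (ha : a ≠ 0)
    (hu : om ^ 2 + m ^ 2 = 1) (hF : Far M a be gF f R1 R2)
    (near : ∀ r ∈ Ioc (rp M a) ra, ka M a r om m = 0 → K a r om m ^ 2 < De M a r * el a om m)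
    (hN : 0 < om * K a (rp M a) om m) : ∃ y t g1 s Y Y', N1 M a om m ra (R1 - 1) y t g1 s Y Y' ∧
      ∀ r ∈ Icc (R1 - 2) (R1 - 1), s * (Y r / K a r om m) ≤ be (M, a, r) := by
  have h1 := rp_gt h
  have hM := M_pos h
  have h2 := sub_pos.mpr (sq_lt h)
  have hbig := hF.big
  have hle := hF.le
  have hrp := rp_le h
  have h0 : om ≠ 0 := left_ne_zero_of_mul hN.ne'
  have sK := cK a om m
  have sD := cDe M a
  have sk := cka M a om m
  have sth := th_smooth ra (10 * M)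
  obtain ⟨y, y1, y2, y3⟩ : ∃ y, M < y ∧ y < rp M a ∧ 0 < om * K a y om m := by
    have := (continuous_const.continuousAt (x := rp M a)).eventually_lt
      (continuous_const.mul sK.continuous).continuousAt hN
    obtain ⟨y, hy⟩ := (((this.and (Ioi_mem_nhds h1)).filter_mono
      (nhdsWithin_le_nhds (s := Iio (rp M a)))).and self_mem_nhdsWithin).exists
    exact ⟨y, hy.1.2, hy.2, hy.1.1⟩
  have oK : ∀ r ∈ Ioi y, 0 < om * K a r om m := fun r hr =>
    y3.trans_le (omK_mono (by linarith) (le_of_lt hr))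
  have Kne : ∀ r ∈ Ioi y, K a r om m ≠ 0 := fun r hr => right_ne_zero_of_mul (oK r hr).ne'
  have xp : ∀ r ∈ Ioi y, 0 < r - M := fun r hr => by linarith [show y < r from hr]
  obtain ⟨Y, hY⟩ : ∃ Y : ℝ → ℝ, Y = fun r => ka M a r om m / (r - M) := ⟨_, rfl⟩
  obtain ⟨Y', hY'⟩ : ∃ Y' : ℝ → ℝ,
    Y' = fun r => om * (2 * (r - M) + 2 * M * (M ^ 2 - a ^ 2) / (r - M) ^ 2) := ⟨_, rfl⟩
  have sx : ContDiffOn ℝ ∞ (fun r : ℝ => r - M) (Ioi y) := by fun_prop
  have sY : ContDiffOn ℝ ∞ Y (Ioi y) := by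
    rw [hY]; exact sk.contDiffOn.div sx fun r hr => (xp r hr).ne'
  have sY' : ContDiffOn ℝ ∞ Y' (Ioi y) := by
    rw [hY']
    exact contDiffOn_const.mul ((contDiffOn_const.mul sx).add
      (contDiffOn_const.div (sx.pow 2) fun r hr => pow_ne_zero 2 (xp r hr).ne'))
  have dY : ∀ r ∈ Ioi y, HasDerivAt Y (Y' r) r := fun r hr => by
    rw [hY, hY']; exact hdA (by linarith [xp r hr])
  have kY : ∀ r ∈ Ioi y, ka M a r om m = (r - M) * Y r := fun r hr => by
    have := (xp r hr).ne'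
    rw [hY]; field_simp
  have pY : ∀ r ∈ Ioi y, 0 < Y' r * K a r om m := fun r hr => by
    have := xp r hr
    have a1 : 0 < 2 * (r - M) + 2 * M * (M ^ 2 - a ^ 2) / (r - M) ^ 2 := by positivity
    have := mul_pos (oK r hr) a1
    rw [hY']; linarith
  have sub : Icc (rp M a) (R1 - 1) ⊆ Ioi y := fun r hr => y2.trans_le hr.1
  have cI := isCompact_Icc (a := rp M a) (b := R1 - 1)
  have cY := sY.continuousOn.mono sub
  have cY' := sY'.continuousOn.mono sub
  have cK' := sK.continuous.continuousOn (s := Icc (rp M a) (R1 - 1))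
  have cD := sD.continuous.continuousOn (s := Icc (rp M a) (R1 - 1))
  obtain ⟨C1, hC1, b1⟩ := upper cI (cY.pow 2)
  obtain ⟨C2, hC2, b2⟩ := upper cI ((cD.mul cY').mul cK')
  obtain ⟨t1, t10, t11⟩ := small hC1 one_pos
  obtain ⟨t2, t20, t21⟩ := small hC2 (sub_pos.mpr h1)
  obtain ⟨t, t0, ta1, ta2⟩ : ∃ t : ℝ, 0 < t ∧ (∀ r ∈ Icc (rp M a) (R1 - 1), t * Y r ^ 2 < 1) ∧
      ∀ r ∈ Icc (rp M a) (R1 - 1), t * (De M a r * Y' r * K a r om m) < r - M := by
    refine ⟨min t1 t2, lt_min t10 t20, fun r hr => ?_, fun r hr => ?_⟩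
    · have := (le_abs_self _).trans (b1 r hr)
      calc min t1 t2 * Y r ^ 2 ≤ t1 * C1 := by gcongr; exacts [min_le_left _ _, this]
        _ < 1 := t11
    · have := (le_abs_self _).trans (b2 r hr)
      have a0 : 0 ≤ De M a r * Y' r * K a r om m := by
        rw [mul_assoc]; exact mul_nonneg (De_nonneg h hr.1) (pY r (sub hr)).le
      calc min t1 t2 * (De M a r * Y' r * K a r om m) ≤ t2 * C2 := by
            gcongr; exacts [min_le_right _ _, this]
        _ < r - M := by linarith [hr.1]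
  have forb : ∀ r, rp M a < r → r ∉ Ioo ra (10 * M) → ka M a r om m = 0 →
      K a r om m ^ 2 < De M a r * el a om m := fun r hr hn hk => by
    rcases not_and_or.mp hn with h3 | h3
    · exact near r ⟨hr, not_lt.mp h3⟩ hk
    · exact crit_far h ha hu (not_lt.mp h3) hk
  obtain ⟨c0, hc0, b0⟩ := lower (A := Icc (rp M a) (R1 - 1) ∩
      ((Ioo ra (10 * M))ᶜ ∩ {r | De M a r * el a om m ≤ K a r om m ^ 2}))
    (cI.inter_right (isOpen_Ioo.isClosed_compl.inter
      (isClosed_le (sD.continuous.mul continuous_const) (sK.continuous.pow 2))))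
    (f := fun r => t * Y r ^ 2 * (Y' r * K a r om m))
    (((continuousOn_const.mul (cY.pow 2)).mul (cY'.mul cK')).mono inter_subset_left)
    (fun r hr => by
      have : Y r ≠ 0 := fun hY0 => by
        have hk : ka M a r om m = 0 := by rw [kY r (sub hr.1), hY0, mul_zero]
        rcases eq_or_lt_of_le hr.1.1 with h3 | h3
        · rw [← h3, ka_rp h, neg_eq_zero] at hk
          exact mul_ne_zero (sub_pos.mpr h1).ne' (Kne _ y2) hk
        · exact absurd (forb r h3 hr.2.1 hk) (not_lt.mpr hr.2.2)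
      exact mul_pos (by positivity) (pY r (sub hr.1)))
  obtain ⟨C3, hC3, b3⟩ := upper cI (sth.continuous.continuousOn.mul (cK'.pow 2))
  obtain ⟨g1, g10, g11⟩ := small hC3 hc0
  obtain ⟨C4, hC4, b4⟩ := upper cI cY
  obtain ⟨C5, hC5, b5⟩ := upper cI (cY.div cK' fun r hr => Kne r (sub hr))
  obtain ⟨bm, hbm, bb⟩ := lower (isCompact_Icc (a := R1 - 2) (b := R1 - 1))
    (f := fun r => be (M, a, r)) (by have := hF.sb.continuous; fun_prop)
    fun r hr => (hF.pos r ⟨hr.1, by linarith [hr.2]⟩).1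
  obtain ⟨s1, s10, s11⟩ := small hC4 (abs_pos.mpr h0)
  obtain ⟨s2, s20, s21⟩ := small hC5 hbm
  obtain ⟨s, s0, sa1, sa2⟩ : ∃ s : ℝ, 0 < s ∧ s * C4 < |om| ∧ s * C5 < bm :=
    ⟨min s1 s2, lt_min s10 s20, lt_of_le_of_lt (by gcongr; exact min_le_left _ _) s11,
      lt_of_le_of_lt (by gcongr; exact min_le_right _ _) s21⟩
  refine ⟨y, t, g1, s, Y, Y', ⟨y2, t0, g10, s0, oK, xp, sY, sY', dY, kY, pY, ta1, ta2, forb,
    fun r hr h3 h4 => ?_, fun r hr => (mul_le_mul_of_nonneg_left (b4 r hr) s0.le).trans_lt sa1⟩,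
    fun r hr => ?_⟩
  · have a1 := (le_abs_self _).trans (b3 r hr)
    exact (mul_le_mul_of_nonneg_left a1 g10.le).trans_lt (g11.trans_le (b0 r ⟨hr, h3, h4⟩))
  · have hr' : r ∈ Icc (rp M a) (R1 - 1) := ⟨by linarith [hr.1], hr.2⟩
    have a1 := (le_abs_self _).trans (b5 r hr')
    exact (mul_le_mul_of_nonneg_left a1 s0.le).trans (sa2.le.trans (bb r hr))

/-- The functions of the construction. -/
structure N2 (M a om m ra R y t g1 s : ℝ) (Y Y' β g A G gt : ℝ → ℝ) : Prop where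
  sβ : ContDiff ℝ ∞ β
  sg : ContDiff ℝ ∞ g
  sG : ContDiff ℝ ∞ G
  sgt : ContDiff ℝ ∞ gt
  cA' : ContinuousAt A (rp M a)
  hg : ∀ r, g r = gt r * ka M a r om m ^ 2 + s * g1 * De M a r * th ra (10 * M) r
  hβ : ∀ r, rp M a ≤ r → β r = s * (Y r / K a r om m)
  hG : ∀ r, rp M a ≤ r → β r = G r * ka M a r om m
  ecA : ∀ r, (y + rp M a) / 2 < r → De M a r * A r = cA M a β g r
  eΓ : ∀ r, rp M a ≤ r → 2 * K a r om m * (deriv β r * K a r om m +
    β r * (2 * r * om)) - A r * K a r om m ^ 2 = s * (t * Y r ^ 2 * (Y' r * K a r om m) -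
      g1 * (th ra (10 * M) r * K a r om m ^ 2))
  eD : ∀ r, rp M a ≤ r → -(gt r * K a r om m ^ 2) + 2 * G r * K a r om m =
    s * t * (De M a r * (Y' r * K a r om m)) / (r - M) ^ 2
  pA : ∀ r ∈ Icc (rp M a) R, 0 < A r
  pgt : ∀ r ∈ Icc (rp M a) R, 0 < gt r

theorem n2 {ra R y t g1 s : ℝ} {Y Y' : ℝ → ℝ} (H : N1 M a om m ra R y t g1 s Y Y') :
    ∃ β g A G gt, N2 M a om m ra R y t g1 s Y Y' β g A G gt := by
  obtain ⟨y2, t0, g10, s0, oK, xp, sY, sY', dY, kY, pY, ta1, ta2, -, -, -⟩ := H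
  have sK := cK a om m
  have sD := cDe M a
  have sk := cka M a om m
  have sth := th_smooth ra (10 * M)
  have Kne : ∀ r ∈ Ioi y, K a r om m ≠ 0 := fun r hr => right_ne_zero_of_mul (oK r hr).ne'
  have sx : ContDiffOn ℝ ∞ (fun r : ℝ => r - M) (Ioi y) := by fun_prop
  have sub : Icc (rp M a) R ⊆ Ioi y := fun r hr => y2.trans_le hr.1
  obtain ⟨gt0, hgt0⟩ : ∃ gt0 : ℝ → ℝ, gt0 = fun r =>
    s * ((2 * (r - M) - t * (De M a r * Y' r * K a r om m)) / ((r - M) * K a r om m) ^ 2) := ⟨_, rfl⟩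
  have sxK : ContDiffOn ℝ ∞ (fun r => (r - M) * K a r om m) (Ioi y) := sx.mul sK.contDiffOn
  have xKne : ∀ r ∈ Ioi y, (r - M) * K a r om m ≠ 0 := fun r hr =>
    mul_ne_zero (xp r hr).ne' (Kne r hr)
  have sgt0 : ContDiffOn ℝ ∞ gt0 (Ioi y) := by
    rw [hgt0]
    exact contDiffOn_const.mul (((contDiffOn_const.mul sx).sub (contDiffOn_const.mul
      ((sD.contDiffOn.mul sY').mul sK.contDiffOn))).div (sxK.pow 2)
      fun r hr => pow_ne_zero 2 (xKne r hr))
  have hyz : y < (y + rp M a) / 2 := by linarith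
  obtain ⟨β, sβ, hβ⟩ := globalize hyz
    (contDiffOn_const (c := s).mul (sY.div sK.contDiffOn Kne))
  obtain ⟨gt, sgt, hgt⟩ := globalize hyz sgt0
  obtain ⟨G, sG, hG⟩ := globalize hyz (contDiffOn_const (c := s).div sxK xKne)
  obtain ⟨g, hg⟩ : ∃ g : ℝ → ℝ, g = fun r =>
    gt r * ka M a r om m ^ 2 + s * g1 * De M a r * th ra (10 * M) r := ⟨_, rfl⟩
  obtain ⟨A, hA⟩ : ∃ A : ℝ → ℝ, A = fun r =>
    s * ((2 - t * Y r ^ 2) * (Y' r / K a r om m) + g1 * th ra (10 * M) r) := ⟨_, rfl⟩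
  have sg : ContDiff ℝ ∞ g := by
    rw [hg]; exact (sgt.mul (sk.pow 2)).add ((contDiff_const.mul sD).mul sth)
  have dβ : ∀ r, (y + rp M a) / 2 < r → deriv β r =
      s * ((Y' r * K a r om m - Y r * (2 * r * om)) / K a r om m ^ 2) := fun r hr => by
    have : β =ᶠ[𝓝 r] fun r => s * (Y r / K a r om m) := by
      filter_upwards [Ioi_mem_nhds hr] with u hu using hβ u hu.le
    rw [this.deriv_eq]
    exact (((dY r (hyz.trans hr)).div (hdK a om m r) (Kne r (hyz.trans hr))).const_mul s).deriv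
  have kk : ∀ r ∈ Ioi y, (r - M) * Y r + (r - M) * K a r om m = 2 * r * om * De M a r :=
    fun r hr => by rw [← kY r hr, ka_K]
  have ecA : ∀ r, (y + rp M a) / 2 < r → De M a r * A r = cA M a β g r := fun r hr => by
    have a1 := Kne r (hyz.trans hr)
    have a2 := (xp r (hyz.trans hr)).ne'
    simp only [cA, dβ r hr, hg, hA, hgt r hr.le, hβ r hr.le, hgt0, kY r (hyz.trans hr),
      Pi.div_apply]
    field_simp
    linear_combination (-2 * Y r) * kk r (hyz.trans hr)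
  have eΓ : ∀ r, (y + rp M a) / 2 < r → 2 * K a r om m * (deriv β r * K a r om m +
      β r * (2 * r * om)) - A r * K a r om m ^ 2 = s * (t * Y r ^ 2 * (Y' r * K a r om m) -
        g1 * (th ra (10 * M) r * K a r om m ^ 2)) := fun r hr => by
    have a1 := Kne r (hyz.trans hr)
    simp only [dβ r hr, hA, hβ r hr.le, Pi.div_apply]
    field_simp
    ring
  have zr : ∀ r, rp M a ≤ r → (y + rp M a) / 2 < r := fun r hr => by linarith
  have pA : ∀ r ∈ Icc (rp M a) R, 0 < A r := fun r hr => by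
    have a1 := Kne r (sub hr)
    have a2 : 0 < Y' r / K a r om m := by
      have : Y' r / K a r om m = Y' r * K a r om m / K a r om m ^ 2 := by field_simp
      rw [this]; exact div_pos (pY r (sub hr)) (by positivity)
    have a3 := th_nonneg ra (10 * M) r
    rw [hA]
    exact mul_pos s0 (add_pos_of_pos_of_nonneg (mul_pos (by linarith [ta1 r hr]) a2) (by positivity))
  have pgt : ∀ r ∈ Icc (rp M a) R, 0 < gt r := fun r hr => by
    have a1 := xKne r (sub hr)
    rw [hgt r (zr r hr.1).le, hgt0]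
    exact mul_pos s0 (div_pos (by linarith [ta2 r hr, xp r (sub hr)]) (by positivity))
  refine ⟨β, g, A, G, gt, sβ, sg, sG, sgt, ?_, fun r => by rw [hg], fun r hr => hβ r (zr r hr).le,
    fun r hr => ?_, ecA, fun r hr => eΓ r (zr r hr), fun r hr => ?_, pA, pgt⟩
  · have n : Ioi y ∈ 𝓝 (rp M a) := Ioi_mem_nhds y2
    rw [hA]
    exact continuousAt_const.mul (((continuousAt_const.sub (continuousAt_const.mul
      ((sY.continuousOn.continuousAt n).pow 2))).mul ((sY'.continuousOn.continuousAt n).div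
      sK.continuous.continuousAt (Kne _ y2))).add
      (continuousAt_const.mul sth.continuous.continuousAt))
  · have hr' := zr r hr
    have a1 := Kne r (hyz.trans hr')
    have a2 := (xp r (hyz.trans hr')).ne'
    simp only [hβ r hr'.le, hG r hr'.le, kY r (hyz.trans hr'), Pi.div_apply]
    field_simp
  · have hr' := zr r hr
    have a1 := Kne r (hyz.trans hr')
    have a2 := (xp r (hyz.trans hr')).ne'
    simp only [hgt r hr'.le, hG r hr'.le, hgt0, Pi.div_apply]
    field_simp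
    ring

theorem n_mid {ra R y t g1 s r : ℝ} {Y Y' β g A G gt : ℝ → ℝ} (h : |a| < M)
    (J : N2 M a om m ra R y t g1 s Y Y' β g A G gt) (y2 : y < rp M a) (s0 : 0 < s)
    (hr : r ∈ Ioc (rp M a) R) (h3 : 0 < g r) (h4 : 0 < t * Y r ^ 2 * (Y' r * K a r om m) +
      g1 * (th ra (10 * M) r * (De M a r * el a om m - K a r om m ^ 2))) :
    Mid M a om m β g (fun _ => om) r := by
  have hl := el_nonneg a om m
  have hD := De_pos h hr.1
  have hr' : r ∈ Icc (rp M a) R := ⟨hr.1.le, hr.2⟩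
  have a1 := mul_pos hD (J.pA r hr')
  have a2 := J.ecA r (by linarith [hr.1])
  have a3 := J.eΓ r hr.1.le
  refine posdef (a2 ▸ a1) (mul_pos h3 hD) ?_ hl
  have a4 : -(g r * K a r om m ^ 2) + 2 * β r * K a r om m * ka M a r om m +
      g r * De M a r * el a om m = De M a r * (s * (t * Y r ^ 2 * (Y' r * K a r om m) +
        g1 * (th ra (10 * M) r * (De M a r * el a om m - K a r om m ^ 2))) +
        gt r * ka M a r om m ^ 2 * el a om m) := by
    unfold cA at a2
    linear_combination (De M a r) * a3 + (K a r om m ^ 2) * a2 +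
      (De M a r * el a om m) * J.hg r + (2 * β r * K a r om m) * ka_K M a r om m
  rw [a4, ← a2, deriv_const, mul_zero, neg_zero, sq, zero_mul]
  have := J.pgt r hr'
  exact mul_pos a1 (mul_pos hD (add_pos_of_pos_of_nonneg (mul_pos s0 h4) (by positivity)))

theorem n_alt {ra R y t g1 s r : ℝ} {Y Y' β g A G gt : ℝ → ℝ} (h : |a| < M)
    (H : N1 M a om m ra R y t g1 s Y Y') (J : N2 M a om m ra R y t g1 s Y Y' β g A G gt)
    (hr : r ∈ Ioc (rp M a) R) : Mid M a om m β g (fun _ => om) r ∨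
      Deg M a om m ra (10 * M) β g G gt (fun r => s * g1 * De M a r) (fun _ => 0) r := by
  have hl := el_nonneg a om m
  have hr' : r ∈ Icc (rp M a) R := ⟨hr.1.le, hr.2⟩
  have hy : r ∈ Ioi y := H.y2.trans hr.1
  have hD := De_pos h hr.1
  have a1 := J.pgt r hr'
  have a2 := th_nonneg ra (10 * M) r
  have a3 := H.pY r hy
  have s0 := H.s0
  have t0 := H.t0
  have g10 := H.g10
  rcases eq_or_ne (ka M a r om m) 0 with hk | hk
  · by_cases h3 : r ∈ Icc ra (10 * M)
    · refine Or.inr ⟨h3, fun _ => rfl, J.ecA r (by linarith [hr.1, H.y2]) ▸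
        mul_pos hD (J.pA r hr'), a1, by positivity, ?_, ?_⟩
      · have a5 := H.xp r hy
        have a6 : 0 < s * t * (De M a r * (Y' r * K a r om m)) / (r - M) ^ 2 := by positivity
        linarith [mul_nonneg a1.le (mul_nonneg hD.le hl), J.eD r hr.1.le]
      · by_cases h4 : r ∈ Ioo ra (10 * M)
        · exact Or.inl h4
        · exact Or.inr (H.forb r hr.1 h4 hk)
    · have a4 := th_pos h3
      have a5 := sub_pos.mpr (H.forb r hr.1 (fun h4 => h3 ⟨h4.1.le, h4.2.le⟩) hk)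
      exact Or.inl (n_mid h J H.y2 s0 hr (by rw [J.hg]; positivity) (by positivity))
  · have hY0 : Y r ≠ 0 := fun h3 => hk (by rw [H.kY r hy, h3, mul_zero])
    refine Or.inl (n_mid h J H.y2 s0 hr (by rw [J.hg]; positivity) ?_)
    by_cases h4 : r ∈ Ioo ra (10 * M)
    · rw [th_zero ⟨h4.1.le, h4.2.le⟩, zero_mul, mul_zero, add_zero]; positivity
    · rcases lt_or_ge (K a r om m ^ 2) (De M a r * el a om m) with h5 | h5
      · have := sub_pos.mpr h5
        positivity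
      · linarith [H.pW r hr' h4 h5, mul_nonneg g10.le (mul_nonneg a2 (mul_nonneg hD.le hl))]

theorem dirN {ra ta R1 R2 : ℝ} {be gF f : ℝ × ℝ × ℝ → ℝ} (h : |a| < M) (ha : a ≠ 0)
    (hu : om ^ 2 + m ^ 2 = 1) (hF : Far M a be gF f R1 R2) (hta : rp M a < ta)
    (hra : rp M a < ra)
    (near : ∀ r ∈ Ioc (rp M a) ra, ka M a r om m = 0 → K a r om m ^ 2 < De M a r * el a om m)
    (hN : 0 < om * K a (rp M a) om m) : ∃ β g e G gt g1 q,
      Core M a om m ra (10 * M) ta (R1 - 1) β g e G gt g1 q ∧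
      ∀ r ∈ Icc (R1 - 2) (R1 - 1), β r ≤ be (M, a, r) := by
  obtain ⟨y, t, g1, s, Y, Y', H, hb⟩ := n1 h ha hu hF near hN
  obtain ⟨β, g, A, G, gt, J⟩ := n2 H
  have hM := M_pos h
  have hbig := hF.big
  have hrp := rp_le h
  have hl := el_nonneg a om m
  have s0 := H.s0
  refine ⟨β, g, fun _ => om, G, gt, fun r => s * g1 * De M a r, fun _ => 0,
    ⟨J.sβ, J.sg, contDiff_const, J.sG, J.sgt, contDiff_const.mul (cDe M a), contDiff_const,
      ⟨A, J.cA', ?_, ?_⟩, fun r hr => n_alt h H J hr, fun r hr _ hK => ?_,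
      fun r hr => ⟨J.hG r (hta.trans hr.1).le, J.hg r⟩, fun r => by simp,
      fun _ _ => rfl⟩, fun r hr => ?_⟩
  · filter_upwards [Ioi_mem_nhds (show (y + rp M a) / 2 < rp M a by linarith [H.y2])] with r hr
      using J.ecA r hr
  · have hr : rp M a ∈ Icc (rp M a) (R1 - 1) := ⟨le_rfl, by linarith⟩
    have a1 : 0 < g (rp M a) := by
      have a2 : ka M a (rp M a) om m ≠ 0 := by
        rw [ka_rp h, neg_ne_zero]
        exact mul_ne_zero (H.xp _ H.y2).ne' (right_ne_zero_of_mul hN.ne')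
      have := J.pgt _ hr
      simp only [J.hg, De_rp h, mul_zero, zero_mul, add_zero]
      positivity
    refine posdef (J.pA _ hr) a1 ?_ hl
    rw [J.eΓ _ le_rfl, deriv_const, neg_zero, sq, zero_mul]
    have := H.pW _ hr (fun h3 => by linarith [h3.1]) (by rw [De_rp h, zero_mul]; positivity)
    exact mul_pos (J.pA _ hr) (add_pos_of_pos_of_nonneg (mul_pos s0 (by linarith)) (by positivity))
  · have a2 := abs_pos.mpr hK
    have : |β r| * K a r om m ^ 2 = s * |Y r| * |K a r om m| := by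
      rw [J.hβ r hr.1, abs_mul, abs_div, abs_of_pos s0, ← sq_abs (K a r om m)]
      field_simp
    rw [this, ← abs_of_pos (H.oK r (H.y2.trans_le hr.1)), abs_mul]
    exact mul_lt_mul_of_pos_right (H.tl r hr) a2
  · rw [J.hβ r (by linarith [hr.1])]; exact hb r hr

end Vale.Agent.P354XH
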