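import Vale.Agent.P354XH.Core

/-! The directions with om K ≤ 0 at the horizon. -/

open Set Filter Topology
open scoped ContDiff

namespace Vale.Agent.P354XH

open Vale.Agent.P354BF (De rp)

variable {M a om m : ℝ}

theorem omK_mono {r s : ℝ} (hr : 0 ≤ r) (h : r ≤ s) : om * K a r om m ≤ om * K a s om m := by
  unfold K
  nlinarith [mul_nonneg (sq_nonneg om) (sub_nonneg.mpr (pow_le_pow_left₀ hr h 2))]

theorem ka_rp (h : |a| < M) : ka M a (rp M a) om m = -((rp M a - M) * K a (rp M a) om m) := by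
  have := ka_K M a (rp M a) om m
  rw [De_rp h] at this; linarith

theorem om_ka (h : |a| < M) (hS : om * K a (rp M a) om m ≤ 0) (h0 : om ≠ 0) {r : ℝ}
    (hr : rp M a < r) : 0 < om * ka M a r om m := by
  have h1 := rp_gt h
  have hM := M_pos h
  have h2 := sub_pos.mpr (sq_lt h)
  have hx : 0 < r - M := by linarith
  have hy : 0 < rp M a - M := by linarith
  have e := ka_sub (M := M) (a := a) (om := om) (m := m) (r := r) (s := rp M a)
    (by linarith) (by linarith)
  rw [ka_rp h, neg_div, mul_div_cancel_left₀ _ hy.ne'] at e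
  have hp : 0 < om ^ 2 * (r - rp M a) * ((r - M) + (rp M a - M) +
      2 * M * (M ^ 2 - a ^ 2) / ((r - M) * (rp M a - M))) :=
    mul_pos (mul_pos (by positivity) (by linarith)) (by positivity)
  have : 0 < om * (ka M a r om m / (r - M)) := by
    have := congrArg (om * ·) e
    linarith
  rw [← mul_div_assoc] at this
  exact (div_pos_iff_of_pos_right hx).mp this

theorem zone (h : |a| < M) (hu : om ^ 2 + m ^ 2 = 1) (hS : om * K a (rp M a) om m ≤ 0) :
    ∃ z ε, rp M a ≤ z ∧ z ≤ 10 * M ∧ 0 < ε ∧ ε ≤ 1 / 2 ∧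
      (∀ r ∈ Ioc z (z + ε), K a r om m ^ 2 < De M a r * el a om m) ∧
      (∀ r ∈ Icc (rp M a) z, om * K a r om m ≤ 0) ∧
      ∀ r, z < r → De M a r * el a om m ≤ K a r om m ^ 2 → 0 < om * K a r om m := by
  have h1 := rp_gt h
  have hM := M_pos h
  have h2 := rp_le h
  have cK' := (cK a om m).continuous
  have cD := (cDe M a).continuous
  have key : ∀ z, (∀ᶠ r in 𝓝[>] z, K a r om m ^ 2 < De M a r * el a om m) → ∃ ε, 0 < ε ∧
      ε ≤ 1 / 2 ∧ ∀ r ∈ Ioc z (z + ε), K a r om m ^ 2 < De M a r * el a om m := fun z hz => by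
    obtain ⟨u, hu, hs⟩ := mem_nhdsGT_iff_exists_Ioc_subset.mp hz
    refine ⟨min (u - z) (1 / 2), lt_min (sub_pos.mpr hu) (by norm_num), min_le_right _ _,
      fun r hr => hs ⟨hr.1, ?_⟩⟩
    linarith [hr.2, min_le_left (u - z) (1 / 2)]
  have op : ∀ z, K a z om m ^ 2 < De M a z * el a om m →
      ∀ᶠ r in 𝓝[>] z, K a r om m ^ 2 < De M a r * el a om m := fun z hz =>
    mem_nhdsWithin_of_mem_nhds (((cK'.pow 2).continuousAt (x := z)).eventually_lt
      (cD.mul continuous_const).continuousAt hz)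
  rcases le_or_gt (om * K a (10 * M) om m) 0 with h3 | h3
  · obtain ⟨ε, e1, e2, e3⟩ := key _ (op _ (far_forb h hu le_rfl h3))
    refine ⟨10 * M, ε, by linarith, le_rfl, e1, e2, e3,
      fun r hr => (omK_mono (by linarith [hr.1]) hr.2).trans h3, fun r hr hA => ?_⟩
    by_contra hn
    exact absurd (far_forb h hu hr.le (not_lt.mp hn)) (not_lt.mpr hA)
  · obtain ⟨z, hz, hz0⟩ := intermediate_value_Icc (show rp M a ≤ 10 * M by linarith)
      (f := fun r => om * K a r om m) (continuous_const.mul cK').continuousOn ⟨hS, h3.le⟩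
    have h0 : om ≠ 0 := by rintro rfl; simp at h3
    have hz0' : om * K a z om m = 0 := hz0
    have hK : K a z om m = 0 := (mul_eq_zero.mp hz0').resolve_left h0
    have hzp : 0 < z := by linarith [hz.1]
    have hl := el_pos hu hzp hz0'.le
    have eK : ∀ r, K a r om m = om * (r - z) * (r + z) := fun r => by
      unfold K at hK ⊢; linear_combination hK
    have ev : ∀ᶠ r in 𝓝[>] z, K a r om m ^ 2 < De M a r * el a om m := by
      rcases eq_or_lt_of_le hz.1 with h4 | h4
      · have c1 : Continuous fun r => om ^ 2 * (r - z) * (r + z) ^ 2 := by fun_prop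
        have c2 : Continuous fun r => (r + z - 2 * M) * el a om m := by fun_prop
        have := (c1.continuousAt (x := z)).eventually_lt c2.continuousAt
          (by simp only [sub_self, mul_zero, zero_mul]; exact mul_pos (by linarith) hl)
        filter_upwards [mem_nhdsWithin_of_mem_nhds this, self_mem_nhdsWithin] with r hr hr'
        have := mul_lt_mul_of_pos_left hr (sub_pos.mpr (show z < r from hr'))
        rw [eK, De_eq h, h4]; linarith
      · exact op z (by rw [hK]; simpa using mul_pos (De_pos h h4) hl)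
    obtain ⟨ε, e1, e2, e3⟩ := key _ ev
    refine ⟨z, ε, hz.1, hz.2, e1, e2, e3,
      fun r hr => (omK_mono (by linarith [hr.1]) hr.2).trans hz0'.le, fun r hr _ => ?_⟩
    rw [eK]
    have : 0 < om ^ 2 * ((r - z) * (r + z)) :=
      mul_pos (by positivity) (mul_pos (by linarith) (by linarith))
    linarith

theorem win_forb {D K l c1 Γ e : ℝ} (hD : 0 < D) (hl : 0 ≤ l) (h : K ^ 2 < D * l) :
    ∃ A c, 0 < c ∧ Pos c A e (Γ - A * K ^ 2) (D * A - c1) 0 0 l := by
  have hd := sub_pos.mpr h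
  obtain ⟨x, hx0, hx⟩ : ∃ x : ℝ, 0 ≤ x ∧ x * D = |c1| := ⟨|c1| / D, by positivity, by field_simp⟩
  obtain ⟨y, hy0, hy⟩ : ∃ y : ℝ, 0 ≤ y ∧ y * (D * l - K ^ 2) = |Γ - c1 * l| + e ^ 2 + 1 :=
    ⟨(|Γ - c1 * l| + e ^ 2 + 1) / (D * l - K ^ 2), by positivity, div_mul_cancel₀ _ hd.ne'⟩
  have a1 := le_abs_self c1
  have a2 := neg_abs_le (Γ - c1 * l)
  refine ⟨1 + x + y, posdef (by linarith) (by nlinarith [mul_nonneg hy0 hD.le]) ?_ hl⟩
  have a3 : e ^ 2 + 1 ≤ Γ - (1 + x + y) * K ^ 2 + (D * (1 + x + y) - c1) * l := by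
    nlinarith [mul_nonneg hx0 hd.le]
  nlinarith [mul_nonneg (add_nonneg hx0 hy0) (le_trans (by positivity) a3)]

theorem win_all {D K l c1 Γ : ℝ} (hD : 0 ≤ D) (hl : 0 ≤ l) (hK : K ≠ 0) (hΓ : 0 < Γ)
    (hg : c1 * K ^ 2 < D * Γ) : ∃ A c, 0 < c ∧ Pos c A 0 (Γ - A * K ^ 2) (D * A - c1) 0 0 l := by
  have hK2 : 0 < K ^ 2 := by positivity
  obtain ⟨B, hB0, hB⟩ : ∃ B : ℝ, 0 < B ∧ B * K ^ 2 = Γ := ⟨Γ / K ^ 2, by positivity, by field_simp⟩
  have hg' : 0 < D * B - c1 := by
    by_contra hn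
    nlinarith [mul_nonneg (neg_nonneg.mpr (not_lt.mp hn)) hK2.le]
  obtain ⟨ε, e0, e1, e2⟩ : ∃ ε : ℝ, 0 < ε ∧ ε < B ∧ ε * (D + 1) ≤ D * B - c1 :=
    ⟨min (B / 2) ((D * B - c1) / (D + 1)), lt_min (by positivity) (by positivity),
      (min_le_left _ _).trans_lt (by linarith), (le_div_iff₀ (by linarith)).mp (min_le_right _ _)⟩
  have g0 : 0 < D * (B - ε) - c1 := by nlinarith
  refine ⟨B - ε, posdef (by linarith) g0 ?_ hl⟩
  have : 0 < Γ - (B - ε) * K ^ 2 + (D * (B - ε) - c1) * l := by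
    nlinarith [mul_nonneg g0.le hl, mul_pos e0 hK2]
  simpa using mul_pos (sub_pos.mpr e1) this

theorem dirS {ra ta R1 R2 : ℝ} {be gF f : ℝ × ℝ × ℝ → ℝ} (h : |a| < M) (ha : a ≠ 0)
    (hu : om ^ 2 + m ^ 2 = 1) (hF : Far M a be gF f R1 R2) (hta : rp M a < ta)
    (hS : om * K a (rp M a) om m ≤ 0) : ∃ β g e G gt g1 q,
      Core M a om m ra (10 * M) ta (R1 - 1) β g e G gt g1 q ∧
      ∀ r ∈ Icc (R1 - 2) (R1 - 1), β r ≤ be (M, a, r) := by
  have h1 := rp_gt h
  have hM := M_pos h
  have hbig := hF.big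
  have hle := hF.le
  obtain ⟨z, ε, z1, z2, e1, e2, zf, zl, zr⟩ := zone h hu hS
  have hm := (of_nonpos hu (by linarith) hS).1
  have kne : ∀ r, rp M a < r → ka M a r om m ≠ 0 := fun r hr => by
    rcases eq_or_ne om 0 with rfl | h0
    · have : r - M ≠ 0 := by linarith [sub_pos.mpr (h1.trans hr)] |> fun h : 0 < r - M => h.ne'
      simp [ka, ha, hm, this]
    · exact right_ne_zero_of_mul (om_ka h hS h0 hr).ne'
  have kl : ∀ r ∈ Icc (rp M a) z, K a r om m ≠ 0 → K a r om m * ka M a r om m < 0 :=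
    fun r hr hK => by
      have hK2 : 0 < K a r om m ^ 2 := by positivity
      rcases eq_or_lt_of_le hr.1 with h2 | h2
      · rw [← h2] at hK2 ⊢
        rw [ka_rp h]; nlinarith [mul_pos (sub_pos.mpr h1) hK2]
      · rcases eq_or_ne om 0 with rfl | h0
        · have := congrArg (K a r 0 m * ·) (ka_K M a r 0 m)
          linarith [mul_pos (sub_pos.mpr (h1.trans h2)) hK2]
        · have a1 := om_ka h hS h0 h2
          have a2 : om * K a r om m < 0 := lt_of_le_of_ne (zl r hr) (mul_ne_zero h0 hK)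
          have a3 : 0 < om ^ 2 := by positivity
          by_contra hn
          nlinarith [mul_neg_of_neg_of_pos a2 a1, mul_nonneg a3.le (not_lt.mp hn)]
  obtain ⟨eL, l0, l1, l2⟩ : ∃ eL : ℝ, eL ≠ 0 ∧ (om ≠ 0 → |eL| = |om|) ∧
      ∀ r ∈ Icc (rp M a) z, K a r om m ≠ 0 → 0 < eL * K a r om m := by
    rcases eq_or_ne om 0 with rfl | h0
    · refine ⟨-(a * m), by simp [ha, hm], fun h => absurd rfl h, fun r _ _ => ?_⟩
      have : 0 < (a * m) ^ 2 := by positivity
      unfold K; linarith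
    · refine ⟨-om, neg_ne_zero.mpr h0, fun _ => abs_neg om, fun r hr hK => ?_⟩
      have := lt_of_le_of_ne (zl r hr) (mul_ne_zero h0 hK)
      linarith
  obtain ⟨k, sk, k0, k1, -⟩ := step (x := z + ε / 4) (y := z + 3 * ε / 4) (by linarith)
  obtain ⟨C, hC, bC⟩ := upper (isCompact_Icc (a := rp M a) (b := R1 - 1))
    (f := fun r => (r - (z + ε / 2)) * K a r om m)
    (by have := (cK a om m).continuous; fun_prop)
  obtain ⟨b0, hb0, bb⟩ := lower (isCompact_Icc (a := R1 - 2) (b := R1 - 1))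
    (f := fun r => be (M, a, r)) (by have := hF.sb.continuous; fun_prop)
    fun r hr => (hF.pos r ⟨hr.1, by linarith [hr.2]⟩).1
  have hl0 := abs_pos.mpr l0
  obtain ⟨s, s0, s1, s2⟩ : ∃ s : ℝ, 0 < s ∧ s * C < |eL| ∧ s * R1 ≤ b0 := by
    refine ⟨min (|eL| / (2 * C)) (b0 / R1), lt_min (by positivity) (div_pos hb0 (by linarith)), ?_,
      (le_div_iff₀ (by linarith)).mp (min_le_right _ _)⟩
    have := (le_div_iff₀ (by positivity)).mp (min_le_left (|eL| / (2 * C)) (b0 / R1))
    linarith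
  obtain ⟨β, hβ⟩ : ∃ β : ℝ → ℝ, β = fun r => s * (r - (z + ε / 2)) := ⟨_, rfl⟩
  obtain ⟨e, he⟩ : ∃ e : ℝ → ℝ, e = fun r => eL + (om - eL) * k r := ⟨_, rfl⟩
  have sβ : ContDiff ℝ ∞ β := by rw [hβ]; fun_prop
  have se : ContDiff ℝ ∞ e := by rw [he]; exact contDiff_const.add (contDiff_const.mul sk)
  have dβ : ∀ r, deriv β r = s := fun r => by
    rw [hβ]; simpa using (((hasDerivAt_id r).sub_const (z + ε / 2)).const_mul s).deriv
  have eL1 : ∀ r, r ≤ z + ε / 4 → e r = eL := fun r hr => by simp [he, k0 r hr]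
  have eR1 : ∀ r, z + 3 * ε / 4 ≤ r → e r = om := fun r hr => by simp [he, k1 r hr]
  have eL2 : ∀ r, r < z + ε / 4 → deriv e r = 0 := fun r hr => by
    have : e =ᶠ[𝓝 r] fun _ => eL := by
      filter_upwards [Iio_mem_nhds hr] with s hs using eL1 s hs.le
    rw [this.deriv_eq, deriv_const]
  have eR2 : ∀ r, z + 3 * ε / 4 < r → deriv e r = 0 := fun r hr => by
    have : e =ᶠ[𝓝 r] fun _ => om := by
      filter_upwards [Ioi_mem_nhds hr] with s hs using eR1 s hs.le
    rw [this.deriv_eq, deriv_const]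
  have rt : ∀ r, z < r → De M a r * el a om m ≤ K a r om m ^ 2 → z + ε < r := fun r hr hA => by
    by_contra hn
    exact absurd (zf r ⟨hr, not_lt.mp hn⟩) (not_lt.mpr hA)
  have loc : ∀ r ∈ Icc (rp M a) (R1 - 1), ∃ A c, 0 < c ∧ Pos c A (-deriv e r)
      (2 * K a r om m * (s * K a r om m + β r * (2 * r * om)) - A * K a r om m ^ 2)
      (De M a r * A - (2 * De M a r * s + β r * (2 * r - 2 * M))) 0 0 (el a om m) := by
    intro r hr
    have hl := el_nonneg a om m
    have hD := De_nonneg h hr.1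
    have idn : De M a r * (2 * K a r om m * (s * K a r om m + β r * (2 * r * om))) -
        (2 * De M a r * s + β r * (2 * r - 2 * M)) * K a r om m ^ 2 =
        2 * (β r * (K a r om m * ka M a r om m)) := by
      linear_combination (-2 * β r * K a r om m) * ka_K M a r om m
    rcases le_or_gt r z with h2 | h2
    · have b1 : β r < 0 := by rw [hβ]; exact mul_neg_of_pos_of_neg s0 (by linarith)
      have lp := el_pos hu (show 0 < r by linarith [hr.1]) (zl r ⟨hr.1, h2⟩)
      rcases eq_or_ne (K a r om m) 0 with hK | hK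
      · rcases eq_or_lt_of_le hr.1 with h3 | h3
        · have g0 : 0 < De M a r * 1 - (2 * De M a r * s + β r * (2 * r - 2 * M)) := by
            rw [← h3, De_rp h, h3]
            nlinarith [mul_neg_of_neg_of_pos b1 (show 0 < 2 * r - 2 * M by linarith)]
          refine ⟨1, posdef one_pos g0 ?_ hl⟩
          rw [eL2 r (by linarith), hK]
          simpa using mul_pos g0 lp
        · exact win_forb (De_pos h h3) hl (by rw [hK]; simpa using mul_pos (De_pos h h3) lp)
      · rw [eL2 r (by linarith), neg_zero]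
        have hK2 : 0 < K a r om m ^ 2 := by positivity
        refine win_all hD hl hK ?_ ?_
        · nlinarith [mul_pos s0 hK2, mul_nonneg (show 0 ≤ r by linarith [hr.1])
            (mul_nonneg_of_nonpos_of_nonpos b1.le (zl r ⟨hr.1, h2⟩))]
        · nlinarith [mul_pos_of_neg_of_neg b1 (kl r ⟨hr.1, h2⟩ hK)]
    · have h3 : rp M a < r := by linarith
      rcases lt_or_ge (K a r om m ^ 2) (De M a r * el a om m) with hA | hA
      · exact win_forb (De_pos h h3) hl hA
      · have h4 := rt r h2 hA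
        have h5 := zr r h2 hA
        have hK : K a r om m ≠ 0 := right_ne_zero_of_mul h5.ne'
        have h0 : om ≠ 0 := left_ne_zero_of_mul h5.ne'
        have b1 : 0 < β r := by rw [hβ]; exact mul_pos s0 (by linarith)
        have hK2 : 0 < K a r om m ^ 2 := by positivity
        have a3 : 0 < om ^ 2 := by positivity
        have h6 : 0 < K a r om m * ka M a r om m := by
          by_contra hn
          nlinarith [mul_pos h5 (om_ka h hS h0 h3), mul_nonneg a3.le (neg_nonneg.mpr (not_lt.mp hn))]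
        rw [eR2 r (by linarith), neg_zero]
        refine win_all hD hl hK ?_ ?_
        · nlinarith [mul_pos s0 hK2, mul_pos (show 0 < r by linarith) (mul_pos b1 h5)]
        · nlinarith [mul_pos b1 h6]
  have cK' := (cK a om m).continuous
  have cD := (cDe M a).continuous
  have cβ := sβ.continuous
  have ce := cd se
  obtain ⟨A, sA, hA⟩ := sel (x0 := rp M a) (x1 := R1 - 1)
    (P := fun r A => ∃ c, 0 < c ∧ Pos c A (-deriv e r)
      (2 * K a r om m * (s * K a r om m + β r * (2 * r * om)) - A * K a r om m ^ 2)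
      (De M a r * A - (2 * De M a r * s + β r * (2 * r - 2 * M))) 0 0 (el a om m))
    (fun r => by
      rintro x ⟨c, hc, P⟩ y ⟨c', hc', P'⟩ u v hu hv huv
      refine ⟨_, lt_min hc hc', (P.comb P' hu hv huv).of_eq le_rfl ?_ ?_ ?_ (by ring) (by ring)⟩
      · linear_combination (-deriv e r) * huv
      · simp only [smul_eq_mul]
        linear_combination (2 * K a r om m * (s * K a r om m + β r * (2 * r * om))) * huv
      · simp only [smul_eq_mul]
        linear_combination (-(2 * De M a r * s + β r * (2 * r - 2 * M))) * huv)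
    (fun r hr => by
      obtain ⟨A, c, hc, P⟩ := loc r hr
      refine ⟨A, (Pos.near (y0 := r) (α := fun _ => A) (β := fun r => -deriv e r)
        (γ := fun r => 2 * K a r om m * (s * K a r om m + β r * (2 * r * om)) - A * K a r om m ^ 2)
        (g := fun r => De M a r * A - (2 * De M a r * s + β r * (2 * r - 2 * M)))
        (u := fun _ => 0) (v := fun _ => 0) (l := fun _ => el a om m) hc (by fun_prop)
        (by fun_prop) (by fun_prop) (by fun_prop) (by fun_prop) (by fun_prop) (by fun_prop)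
        P).mono fun r hr => ⟨c / 2, by positivity, hr⟩⟩)
  obtain ⟨g, hg⟩ : ∃ g : ℝ → ℝ,
    g = fun r => De M a r * A r - (2 * De M a r * s + β r * (2 * r - 2 * M)) := ⟨_, rfl⟩
  have sD := cDe M a
  have sg : ContDiff ℝ ∞ g := by
    rw [hg]
    exact (sD.mul sA).sub (((contDiff_const.mul sD).mul contDiff_const).add (sβ.mul (by fun_prop)))
  have ecA : ∀ r, De M a r * A r = cA M a β g r := fun r => by simp only [cA, dβ, hg]; ring
  have ski : ContDiffOn ℝ ∞ (fun r => (ka M a r om m)⁻¹) (Ioi (rp M a)) :=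
    (cka M a om m).contDiffOn.inv kne
  obtain ⟨G, sG, hG⟩ := globalize hta (sβ.contDiffOn.mul ski)
  obtain ⟨gt, sgt, hgt⟩ := globalize hta (sg.contDiffOn.mul (ski.pow 2))
  refine ⟨β, g, e, G, gt, fun _ => 0, fun r => deriv e r * (ka M a r om m)⁻¹,
    ⟨sβ, sg, se, sG, sgt, contDiff_const, smooth_mul (y := rp M a) (z := z + ε / 4) (by linarith)
      (sd se) eL2 ski, ⟨A, sA.continuous.continuousAt, Eventually.of_forall ecA, ?_⟩,
      fun r hr => Or.inl ?_, fun r hr hA hK => ?_, fun r hr => ?_, fun r => ?_,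
      fun r hr => eR1 r (by linarith)⟩, fun r hr => ?_⟩
  · rw [dβ, hg]; exact hA _ ⟨le_rfl, by linarith [rp_le h]⟩
  · obtain ⟨c, hc, P⟩ := hA r ⟨hr.1.le, hr.2⟩
    have hD := De_pos h hr.1
    refine ⟨_, mul_pos hD hc, (P.smul hD.le).of_eq (ecA r).le (by ring) ?_ ?_ (by ring) (by ring)⟩
    · rw [hg]; linear_combination (-2 * β r * K a r om m) * ka_K M a r om m
    · rw [hg]; ring
  · have b1 : |β r| * |K a r om m| < |eL| := by
      have := bC r hr
      rw [hβ, abs_mul, abs_of_pos s0, mul_assoc, ← abs_mul]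
      exact (mul_le_mul_of_nonneg_left this s0.le).trans_lt s1
    have b2 := mul_lt_mul_of_pos_right b1 (abs_pos.mpr hK)
    rw [mul_assoc, abs_mul_abs_self, ← sq] at b2
    rcases le_or_gt r z with h2 | h2
    · rwa [eL1 r (by linarith), ← abs_of_pos (l2 r ⟨hr.1, h2⟩ hK), abs_mul]
    · have h5 := zr r h2 hA
      rwa [eR1 r (by linarith [rt r h2 hA]), ← abs_of_pos h5, abs_mul,
        ← l1 (left_ne_zero_of_mul h5.ne')]
  · have := kne r (hta.trans hr.1)
    rw [hG r hr.1.le, hgt r hr.1.le]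
    constructor <;> field_simp
    simp
  · rcases lt_or_ge (rp M a) r with h2 | h2
    · have := kne r h2
      field_simp
    · rw [eL2 r (by linarith)]; simp
  · refine le_trans ?_ (s2.trans (bb r hr))
    rw [hβ]
    exact mul_le_mul_of_nonneg_left (by linarith [hr.2]) s0.le

end Vale.Agent.P354XH
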