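import Vale.Agent.P354XH.Tool

/-! Positivity of the energy form at one point. -/

namespace Vale.Agent.P354XH

theorem two {p q a : ℝ} (hp : 0 < p) (hq : 0 < q) (h : a ^ 2 < 4 * p * q) :
    ∃ c, 0 < c ∧ ∀ y s L : ℝ, s ^ 2 ≤ L → c * (y ^ 2 + L) ≤ p * y ^ 2 + q * L - a * s * y := by
  obtain ⟨c, hc, e⟩ : ∃ c : ℝ, 0 < c ∧ c * (p + q) = p * q - a ^ 2 / 4 :=
    ⟨(p * q - a ^ 2 / 4) / (p + q), div_pos (by linarith) (by linarith), by field_simp⟩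
  have hcq : c ≤ q := by
    by_contra hn
    nlinarith [mul_pos (sub_pos.mpr (not_le.mp hn)) (add_pos hp hq), sq_nonneg a, sq_nonneg q]
  refine ⟨c, hc, fun y s L hs => ?_⟩
  have a1 : (p + q) * (p * y ^ 2 + q * s ^ 2 - a * s * y - c * (y ^ 2 + s ^ 2)) =
      (p * y - a * s / 2) ^ 2 + (q * s - a * y / 2) ^ 2 := by
    linear_combination (-(y ^ 2 + s ^ 2)) * e
  have a2 : 0 ≤ p * y ^ 2 + q * s ^ 2 - a * s * y - c * (y ^ 2 + s ^ 2) :=
    nonneg_of_mul_nonneg_right (by rw [mul_comm, mul_comm _ (p + q), a1]; positivity)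
      (add_pos hp hq)
  nlinarith [mul_nonneg (sub_nonneg.mpr hcq) (sub_nonneg.mpr hs)]

/-- The multiplier is a future timelike vector at this frequency. -/
theorem ene_time {D K W f a b ch l : ℝ} (hK : K ≠ 0) (hf : 0 < f)
    (hs : a ^ 2 < f * (2 * W - D * f)) (h1 : 0 < ch * K) (h2 : 0 < D * ch * K - 2 * b * K ^ 2) :
    ∃ μ c, 0 < c ∧ Pos c (-(b * (W - f * D)) + μ * D) ((ch * (W - f * D) - b * f * K) / 2 - μ * K)
      (ch * f * K) μ (a * b) (-(a * ch)) l := by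
  have hK2 : 0 < K ^ 2 := by positivity
  obtain ⟨v1, p1, e1⟩ : ∃ v1 : ℝ, 0 < v1 ∧ ch = 2 * v1 * K :=
    ⟨ch * K / (2 * K ^ 2), by positivity, by field_simp⟩
  obtain ⟨v2, e2⟩ : ∃ v2 : ℝ, b = v1 * D - v2 := ⟨v1 * D - b, by ring⟩
  have p2 : 0 < v2 := by
    subst e1 e2
    by_contra hn
    nlinarith [mul_nonneg (neg_nonneg.mpr (not_lt.mp hn)) hK2.le]
  have d2 : 0 < W - D * f / 2 := by
    by_contra hn
    nlinarith [mul_nonneg (neg_nonneg.mpr (not_lt.mp hn)) hf.le, sq_nonneg a]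
  obtain ⟨c1, hc1, t1⟩ := two (p := f / 2) (q := W - D * f / 2) (a := a) (by positivity) d2
    (by linarith)
  obtain ⟨c2, hc2, t2⟩ := two (p := W - D * f / 2) (q := f / 2) (a := a) d2 (by positivity)
    (by linarith)
  obtain ⟨c, hc, a1, a2⟩ : ∃ c : ℝ, 0 < c ∧ c ≤ v1 * c1 * (2 * K ^ 2) ∧
      c * (2 * K ^ 2 + D ^ 2) ≤ v2 * c2 * (2 * K ^ 2) :=
    ⟨min (v1 * c1 * (2 * K ^ 2)) (v2 * c2 * (2 * K ^ 2) / (2 * K ^ 2 + D ^ 2)),
      lt_min (by positivity) (by positivity), min_le_left _ _,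
      (le_div_iff₀ (by positivity)).mp (min_le_right _ _)⟩
  refine ⟨v1 * (W - D * f / 2) + v2 * (f / 2), c, hc, fun x s L _ hL => ?_⟩
  have hL0 : 0 ≤ L := (sq_nonneg s).trans hL
  have b1 := mul_le_mul_of_nonneg_left (t1 (2 * K - D * x) s L hL) p1.le
  have b2 := mul_le_mul_of_nonneg_left (t2 x s L hL) p2.le
  have b3 : c * (x ^ 2 + 1 + L) ≤
      v1 * (c1 * ((2 * K - D * x) ^ 2 + L)) + v2 * (c2 * (x ^ 2 + L)) := by
    refine le_of_mul_le_mul_right ?_ (show 0 < 2 * K ^ 2 by positivity)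
    have k1 : 2 * K ^ 2 ≤ (2 * K - D * x) ^ 2 + D ^ 2 * x ^ 2 := by
      nlinarith [sq_nonneg (K - D * x)]
    have k2 := mul_le_mul_of_nonneg_left k1 hc.le
    have k3 := mul_le_mul_of_nonneg_right a1 (sq_nonneg (2 * K - D * x))
    have k4 := mul_le_mul_of_nonneg_right a2 (add_nonneg (sq_nonneg x) hL0)
    have k5 : 0 ≤ c * D ^ 2 * L := by positivity
    have k6 : 0 ≤ v1 * c1 * L * (2 * K ^ 2) := by positivity
    nlinarith
  subst e1 e2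
  unfold qf
  nlinarith

/-- The forbidden zone. -/
theorem ene_forb {D K l α β γ u v : ℝ} (hD : 0 < D) (hl : 0 ≤ l) (h : K ^ 2 < D * l) :
    ∃ μ c, 0 < c ∧ Pos c (α + μ * D) (β - μ * K) γ μ u v l := by
  obtain ⟨c, hc, P⟩ := posdef (A := D) (e := -K) (Γ := 0) (g := 1) hD one_pos (by linarith) hl
  obtain ⟨A, hA⟩ : ∃ A, A = |α| + |β| + |γ| + |u| + |v| := ⟨_, rfl⟩
  have := abs_nonneg α; have := abs_nonneg β; have := abs_nonneg γ
  have := abs_nonneg u; have := abs_nonneg v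
  obtain ⟨μ, hμ, e⟩ : ∃ μ : ℝ, 0 ≤ μ ∧ μ * c = 3 * A + 1 :=
    ⟨(3 * A + 1) / c, div_nonneg (by linarith) hc.le, by field_simp⟩
  refine ⟨μ, 1, one_pos, fun x s L h1 h2 => ?_⟩
  have a1 := mul_le_mul_of_nonneg_left (P x s L h1 h2) hμ
  have a2 := (abs_le.mp (qf_abs (α := α) (β := β) (γ := γ) (g := 0) (u := u) (v := v) (x := x)
    (A := A) (by linarith) (by linarith) (by linarith) (by rw [abs_zero]; linarith) (by linarith)
    (by linarith) h2)).1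
  rw [← mul_assoc, e] at a1
  unfold qf at *
  linarith

/-- The threshold on the horizon. -/
theorem ene_thr {l α β γ u v : ℝ} (hα : 0 < α) (hl : 0 < l) :
    ∃ μ c, 0 < c ∧ Pos c α β γ μ u v l := by
  obtain ⟨p, hp⟩ : ∃ p, p * α = 4 * β ^ 2 := ⟨4 * β ^ 2 / α, by field_simp⟩
  obtain ⟨q, hq0, hq⟩ : ∃ q, 0 ≤ q ∧ q * α = u ^ 2 := ⟨u ^ 2 / α, by positivity, by field_simp⟩
  obtain ⟨w, hw0, hw⟩ : ∃ w, 0 ≤ w ∧ w * l = |p| + |γ| + v ^ 2 / 2 + α / 2 :=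
    ⟨(|p| + |γ| + v ^ 2 / 2 + α / 2) / l, by positivity, by field_simp⟩
  refine ⟨q + 1 / 2 + α / 2 + w, α / 2, by positivity, fun x s L h1 h2 => ?_⟩
  have a1 : 0 ≤ α / 4 * x ^ 2 + 2 * β * x + p :=
    nonneg_of_mul_nonneg_right (a := α) (by nlinarith [sq_nonneg (α / 2 * x + 2 * β)]) hα
  have a2 : 0 ≤ α / 4 * x ^ 2 + s * (u * x) + q * s ^ 2 := by
    refine nonneg_of_mul_nonneg_right (a := α) ?_ hα
    have : α * (α / 4 * x ^ 2 + s * (u * x) + q * s ^ 2) = (α / 2 * x + u * s) ^ 2 := by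
      linear_combination s ^ 2 * hq
    rw [this]; positivity
  have a3 := mul_le_mul_of_nonneg_left h2 hq0
  have a4 := mul_le_mul_of_nonneg_left h1 hw0
  have a5 := le_abs_self p
  have a6 := neg_abs_le γ
  unfold qf
  nlinarith [sq_nonneg (s + v)]

end Vale.Agent.P354XH
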