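import Vale.Agent.P354XH.Wt

/-! The coefficient of L in the bulk is bounded above by the weight. -/

open Set Filter Topology
open scoped ContDiff

namespace Vale.Agent.P354XH

open Vale.Agent.P354BF (De rp)

def Gb (c ra rb : ℝ) (b h : Fm) (z : Z) : Prop := -zW ra rb z ≤ c * (ev (dr b) z - ev h z)

theorem Gb.mono {c c' ra rb : ℝ} {b h : Fm} {z : Z} (h0 : 0 < c') (hc : c' ≤ c)
    (H : Gb c ra rb b h z) : Gb c' ra rb b h z := off_mono h0 hc (zW_nonneg _ _ _) H

variable {M0 a0 om0 m0 ra rb ta t2 R1 R2 : ℝ} {be gF f : ℝ × ℝ × ℝ → ℝ}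
  {β g e G gt g1 q n μ : ℝ → ℝ} {βf gf ef : Fm}

theorem gb_loc (D : Dat M0 a0 om0 m0 ra rb ta R2 f β g e G gt g1 q n μ)
    (A : Arc M0 a0 om0 m0 ra rb t2 R1 be gF β g e G gt g1 q βf gf ef)
    (ht : ta < t2) (ht' : t2 < ra) (r om m : ℝ) :
    ∃ c, 0 < c ∧ ∀ᶠ z in 𝓝 (((M0, a0, r), om, m) : Z), Gb c ra rb (fb βf n) (fh βf gf) z := by
  have hb := hp_fb A.hβ D.sn
  have hh := hp_fh A.hβ A.hg
  rcases eq_or_lt_of_le (zW_nonneg ra rb ((M0, a0, r), om, m)) with h1 | h1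
  · have p1 : r ∈ Icc ra rb := by
      by_contra hn
      have := th_pos hn
      unfold zW at h1
      linarith [sq_nonneg (zk ((M0, a0, r), om, m))]
    have := D.sgt.continuous; have := D.sg1.continuous
    have v0 : ∀ᶠ z : Z in 𝓝 ((M0, a0, r), om, m), z.1.2.2 ∈ Ioo t2 (rb + 1 / 3) :=
      (by fun_prop : ContinuousAt (fun z : Z => z.1.2.2) _).eventually
        (Ioo_mem_nhds (by linarith [p1.1]) (by linarith [p1.2]))
    have v1 := near (y0 := (((M0, a0, r), om, m) : Z)) (f := fun z => gt z.1.2.2) (by fun_prop)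
      one_pos
    have v2 := near (y0 := (((M0, a0, r), om, m) : Z))
      (f := fun z => g1 z.1.2.2 * (z.2.1 ^ 2 + z.2.2 ^ 2)) (by fun_prop) one_pos
    obtain ⟨C, hC, c1, c2⟩ : ∃ C : ℝ, 0 < C ∧ gt r + 1 ≤ C ∧ g1 r * (om ^ 2 + m ^ 2) + 1 ≤ C :=
      ⟨max 1 (max (gt r + 1) (g1 r * (om ^ 2 + m ^ 2) + 1)), lt_max_of_lt_left one_pos,
        (le_max_left _ _).trans (le_max_right _ _), (le_max_right _ _).trans (le_max_right _ _)⟩
    refine ⟨C⁻¹, by positivity, ?_⟩
    filter_upwards [v0, v1, v2] with z y0 y1 y2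
    obtain ⟨⟨M, a, s⟩, o, k⟩ := z
    have d0 : deriv n s = 0 := by
      have : n =ᶠ[𝓝 s] fun _ => 0 := by
        filter_upwards [Ioi_mem_nhds (ht.trans y0.1)] with s hs using D.n0 s hs.le
      rw [this.deriv_eq, deriv_const]
    have e2 := (A.t1 M a s o k y0).2.1
    have a1 := mul_le_mul_of_nonneg_right (show gt s ≤ C by linarith [(abs_le.mp y1).2])
      (sq_nonneg (ka M a s o k))
    have a2 := mul_le_mul_of_nonneg_right
      (show g1 s * (o ^ 2 + k ^ 2) ≤ C by linarith [(abs_le.mp y2).2]) (th_nonneg ra rb s)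
    rw [Gb, le_inv_mul_iff₀ hC]
    simp only [ev, zW, zk, dr_fb A.hβ D.sn, fh, d0, e2]
    linarith
  · have := hb.dr.cont; have := hh.cont
    have v := near ((c_zW ra rb).continuousAt (x := ((M0, a0, r), om, m))) (half_pos h1)
    have v1 := near (y0 := (((M0, a0, r), om, m) : Z))
      (f := fun z => ev (dr (fb βf n)) z - ev (fh βf gf) z) (by fun_prop) one_pos
    generalize zW ra rb ((M0, a0, r), om, m) = W0 at h1 v
    generalize ev (dr (fb βf n)) ((M0, a0, r), om, m) - ev (fh βf gf) ((M0, a0, r), om, m) = B0 at v1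
    have := abs_nonneg B0
    refine ⟨((|B0| + 1) / (W0 / 2))⁻¹, by positivity, ?_⟩
    filter_upwards [v, v1] with z y1 y2
    refine off_of_abs (by positivity) ?_
    have := abs_sub_abs_le_abs_sub (ev (dr (fb βf n)) z - ev (fh βf gf) z) B0
    calc _ ≤ (|B0| + 1) / (W0 / 2) * (W0 / 2) := by rw [div_mul_cancel₀ _ (by positivity)]; linarith
      _ ≤ _ := by gcongr; linarith [(abs_le.mp y1).1]

end Vale.Agent.P354XH
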