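import Vale.Agent.P354XH.Defs

/-! The calculus of homogeneous polynomials with smooth coefficients. -/

open scoped ContDiff
open Set

namespace Vale.Agent.P354XH

open Vale.Agent.P354BF (De rp)

variable {d e : ℕ} {F G : Fm}

theorem HP.const {c : ℝ × ℝ × ℝ → ℝ} (hc : ContDiff ℝ ∞ c) :
    HP 0 (fun M a r _ _ => c (M, a, r)) :=
  ⟨fun _ => c, fun _ => hc, fun M a r om m => by simp⟩

theorem HP.zero (d : ℕ) : HP d (fun _ _ _ _ _ => 0) :=
  ⟨fun _ _ => 0, fun _ => contDiff_const, fun M a r om m => by simp⟩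

theorem HP.congr (h : HP d F) (hG : ∀ M a r om m, G M a r om m = F M a r om m) : HP d G := by
  obtain ⟨c, hc, e⟩ := h
  exact ⟨c, hc, fun M a r om m => (hG M a r om m).trans (e M a r om m)⟩

theorem HP.cast (h : HP d F) (he : d = e) : HP e F := he ▸ h

theorem HP.add (h : HP d F) (h' : HP d G) :
    HP d (fun M a r om m => F M a r om m + G M a r om m) := by
  obtain ⟨c, hc, e⟩ := h
  obtain ⟨c', hc', e'⟩ := h'
  refine ⟨fun i z => c i z + c' i z, fun i => (hc i).add (hc' i), fun M a r om m => ?_⟩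
  simp only [e, e', ← Finset.sum_add_distrib]
  exact Finset.sum_congr rfl fun i _ => by ring

theorem HP.smul {k : ℝ × ℝ × ℝ → ℝ} (hk : ContDiff ℝ ∞ k) (h : HP d F) :
    HP d (fun M a r om m => k (M, a, r) * F M a r om m) := by
  obtain ⟨c, hc, e⟩ := h
  refine ⟨fun i z => k z * c i z, fun i => hk.mul (hc i), fun M a r om m => ?_⟩
  simp only [e, Finset.mul_sum]
  exact Finset.sum_congr rfl fun i _ => by ring

theorem HP.sub (h : HP d F) (h' : HP d G) :
    HP d (fun M a r om m => F M a r om m - G M a r om m) :=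
  (h.add (h'.smul (k := fun _ => -1) contDiff_const)).congr fun M a r om m => by ring

theorem HP.mul_om (h : HP d F) : HP (d + 1) (fun M a r om m => F M a r om m * om) := by
  obtain ⟨c, hc, e⟩ := h
  refine ⟨fun i => Nat.casesOn i (fun _ => 0) c, fun i => ?_, fun M a r om m => ?_⟩
  · cases i with
    | zero => exact contDiff_const
    | succ i => exact hc i
  · rw [Finset.sum_range_succ']
    simp only [e, Finset.sum_mul, Nat.rec_zero, zero_mul, add_zero, Nat.add_sub_add_right]
    exact Finset.sum_congr rfl fun i _ => by ring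

theorem HP.mul_m (h : HP d F) : HP (d + 1) (fun M a r om m => F M a r om m * m) := by
  obtain ⟨c, hc, e⟩ := h
  refine ⟨fun i z => if i ≤ d then c i z else 0, fun i => ?_, fun M a r om m => ?_⟩
  · by_cases hi : i ≤ d
    · simpa [hi] using hc i
    · simpa [hi] using contDiff_const
  · rw [Finset.sum_range_succ]
    simp only [e, Finset.sum_mul, Nat.add_one_le_iff, lt_irrefl, if_false, zero_mul, add_zero]
    refine Finset.sum_congr rfl fun i hi => ?_
    have hi' : i ≤ d := Nat.lt_succ_iff.mp (Finset.mem_range.mp hi)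
    rw [if_pos hi', Nat.succ_sub hi', pow_succ]
    ring

theorem HP.mul_om_pow (h : HP d F) (n : ℕ) :
    HP (d + n) (fun M a r om m => F M a r om m * om ^ n) := by
  induction n with
  | zero => exact h.congr fun M a r om m => by simp
  | succ n ih => exact ih.mul_om.congr fun M a r om m => by ring

theorem HP.mul_m_pow (h : HP d F) (n : ℕ) :
    HP (d + n) (fun M a r om m => F M a r om m * m ^ n) := by
  induction n with
  | zero => exact h.congr fun M a r om m => by simp
  | succ n ih => exact ih.mul_m.congr fun M a r om m => by ring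

theorem HP.sum {ι : Type} (s : Finset ι) {F : ι → Fm} (h : ∀ i ∈ s, HP d (F i)) :
    HP d (fun M a r om m => ∑ i ∈ s, F i M a r om m) := by
  classical
  induction s using Finset.induction_on with
  | empty => exact (HP.zero d).congr fun M a r om m => by simp
  | insert i s hi ih =>
    exact ((h i (Finset.mem_insert_self _ _)).add
      (ih fun j hj => h j (Finset.mem_insert_of_mem hj))).congr fun M a r om m => by
        rw [Finset.sum_insert hi]

theorem HP.mul (h : HP d F) (h' : HP e G) :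
    HP (d + e) (fun M a r om m => F M a r om m * G M a r om m) := by
  obtain ⟨c, hc, e'⟩ := h'
  refine (HP.sum (Finset.range (e + 1))
    (F := fun i M a r om m => c i (M, a, r) * (F M a r om m * om ^ i * m ^ (e - i)))
    fun i hi => ?_).congr fun M a r om m => ?_
  · have hi' : i ≤ e := Nat.lt_succ_iff.mp (Finset.mem_range.mp hi)
    exact (((h.mul_om_pow i).mul_m_pow (e - i)).smul (hc i)).cast (by omega)
  · simp only [e', Finset.mul_sum]
    exact Finset.sum_congr rfl fun i _ => by ring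

theorem HP.one : HP 0 (fun _ _ _ _ _ => 1) := HP.const (c := fun _ => 1) contDiff_const

theorem HP.pow (h : HP d F) (n : ℕ) : HP (d * n) (fun M a r om m => F M a r om m ^ n) := by
  induction n with
  | zero => exact HP.one.congr fun M a r om m => by simp
  | succ n ih => exact (ih.mul h).congr fun M a r om m => by ring

theorem HP.om : HP 1 (fun _ _ _ om _ => om) := HP.one.mul_om.congr fun M a r om m => by simp

theorem HP.m : HP 1 (fun _ _ _ _ m => m) := HP.one.mul_m.congr fun M a r om m => by simp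

theorem HP.lin (x y : ℝ) : HP 1 (fun _ _ _ om m => x * om + y * m) :=
  (HP.om.smul (k := fun _ => x) contDiff_const).add (HP.m.smul (k := fun _ => y) contDiff_const)

theorem HP.lam : HP 2 (fun _ _ _ om m => om ^ 2 + m ^ 2) :=
  (HP.om.pow 2).add (HP.m.pow 2)

theorem HP.K : HP 1 (fun _ a r om m => K a r om m) :=
  ((HP.om.smul (k := fun z => z.2.2 ^ 2 + z.2.1 ^ 2) (by fun_prop)).sub
    (HP.m.smul (k := fun z => z.2.1) (by fun_prop))).congr fun M a r om m => by
      simp only [P354XH.K]; ring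

theorem HP.ka : HP 1 ka :=
  ((HP.om.smul (k := fun z => z.2.2 ^ 3 - 3 * z.1 * z.2.2 ^ 2 + z.2.1 ^ 2 * z.2.2 + z.2.1 ^ 2 * z.1)
    (by fun_prop)).add
    (HP.m.smul (k := fun z => z.2.1 * (z.2.2 - z.1)) (by fun_prop))).congr fun M a r om m => by
      simp only [P354XH.ka]; ring

theorem smooth_De : ContDiff ℝ ∞ fun z : ℝ × ℝ × ℝ => De z.1 z.2.1 z.2.2 := by
  unfold De; fun_prop

theorem HP.hom (h : HP d F) (M a r om m t : ℝ) :
    F M a r (t * om) (t * m) = t ^ d * F M a r om m := by
  obtain ⟨c, -, e⟩ := h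
  simp only [e, Finset.mul_sum]
  refine Finset.sum_congr rfl fun i hi => ?_
  have hi' : i ≤ d := Nat.lt_succ_iff.mp (Finset.mem_range.mp hi)
  have : t ^ d = t ^ i * t ^ (d - i) := by rw [← pow_add, Nat.add_sub_cancel' hi']
  rw [this, mul_pow, mul_pow]; ring

theorem hasDerivAt_r {c : ℝ × ℝ × ℝ → ℝ} (hc : ContDiff ℝ ∞ c) (M a r : ℝ) :
    HasDerivAt (fun s => c (M, a, s)) (fderiv ℝ c (M, a, r) (0, 0, 1)) r := by
  have h1 : HasDerivAt (fun s : ℝ => ((M, a, s) : ℝ × ℝ × ℝ)) (0, 0, 1) r :=
    (hasDerivAt_const r M).prodMk ((hasDerivAt_const r a).prodMk (hasDerivAt_id r))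
  exact ((hc.differentiable (by simp)) (M, a, r)).hasFDerivAt.comp_hasDerivAt r h1

theorem smooth_r {c : ℝ × ℝ × ℝ → ℝ} (hc : ContDiff ℝ ∞ c) :
    ContDiff ℝ ∞ fun z => fderiv ℝ c z (0, 0, 1) :=
  (hc.fderiv_right (m := ∞) (by simp)).clm_apply contDiff_const

theorem HP.aux (h : HP d F) : ∃ F' : Fm, HP d F' ∧
    ∀ M a r om m, HasDerivAt (fun s => F M a s om m) (F' M a r om m) r := by
  obtain ⟨c, hc, e⟩ := h
  refine ⟨fun M a r om m => ∑ i ∈ Finset.range (d + 1),
    fderiv ℝ (c i) (M, a, r) (0, 0, 1) * om ^ i * m ^ (d - i),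
    ⟨fun i z => fderiv ℝ (c i) z (0, 0, 1), fun i => smooth_r (hc i), fun _ _ _ _ _ => rfl⟩,
    fun M a r om m => ?_⟩
  simp only [e]
  exact HasDerivAt.fun_sum fun i _ =>
    ((hasDerivAt_r (hc i) M a r).mul_const _).mul_const _

theorem HP.hd (h : HP d F) (M a r om m : ℝ) :
    HasDerivAt (fun s => F M a s om m) (dr F M a r om m) r := by
  obtain ⟨F', -, h'⟩ := h.aux
  exact (h' M a r om m).differentiableAt.hasDerivAt

theorem HP.dr (h : HP d F) : HP d (dr F) := by
  obtain ⟨F', h1, h'⟩ := h.aux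
  exact h1.congr fun M a r om m => (h' M a r om m).deriv

/-- The points (M, a, r, om, m). -/
abbrev Z := (ℝ × ℝ × ℝ) × ℝ × ℝ

/-- Evaluation at a point. -/
def ev (F : Fm) (z : Z) : ℝ := F z.1.1 z.1.2.1 z.1.2.2 z.2.1 z.2.2

theorem HP.cont (h : HP d F) : Continuous (ev F) := by
  obtain ⟨c, hc, e⟩ := h
  have : ev F = fun z : Z => ∑ i ∈ Finset.range (d + 1), c i z.1 * z.2.1 ^ i * z.2.2 ^ (d - i) := by
    funext z; simp only [ev, e]
  rw [this]
  refine continuous_finset_sum _ fun i _ => ?_
  have := (hc i).continuous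
  fun_prop

end Vale.Agent.P354XH
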