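import Vale.Agent.P354XH.Tool

/-! Algebraic facts on De, K, ka and el. -/

open Set Filter Topology

namespace Vale.Agent.P354XH

open Vale.Agent.P354BF (De rp)

variable {M a r om m : ℝ}

theorem sq_lt (h : |a| < M) : a ^ 2 < M ^ 2 := sq_lt_sq' (abs_lt.mp h).1 (abs_lt.mp h).2

theorem M_pos (h : |a| < M) : 0 < M := (abs_nonneg a).trans_lt h

theorem rp_gt (h : |a| < M) : M < rp M a := by
  have := Real.sqrt_pos.mpr (sub_pos.mpr (sq_lt h))
  unfold rp; linarith

theorem De_eq (h : |a| < M) (r : ℝ) : De M a r = (r - rp M a) * (r + rp M a - 2 * M) := by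
  have := Real.sq_sqrt (sub_pos.mpr (sq_lt h)).le
  unfold De rp; linear_combination this

theorem De_rp (h : |a| < M) : De M a (rp M a) = 0 := by rw [De_eq h]; simp

theorem De_pos (h : |a| < M) (hr : rp M a < r) : 0 < De M a r := by
  have := rp_gt h
  rw [De_eq h]; exact mul_pos (by linarith) (by linarith)

theorem De_nonneg (h : |a| < M) (hr : rp M a ≤ r) : 0 ≤ De M a r := by
  have := rp_gt h
  rw [De_eq h]; exact mul_nonneg (by linarith) (by linarith)

theorem rp_le (h : |a| < M) : rp M a ≤ 2 * M := by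
  have : √(M ^ 2 - a ^ 2) ≤ M := by
    rw [Real.sqrt_le_left (M_pos h).le]; nlinarith [sq_nonneg a]
  unfold rp; linarith

theorem ka_K (M a r om m : ℝ) : ka M a r om m + (r - M) * K a r om m = 2 * r * om * De M a r := by
  unfold ka K De; ring

theorem el_nonneg (a om m : ℝ) : 0 ≤ el a om m := sq_nonneg _

theorem le_el {x : ℝ} (hx : 0 ≤ x) (h : x ≤ |m| - |a * om|) : x ^ 2 ≤ el a om m :=
  pow_le_pow_left₀ hx (h.trans (le_max_left _ _)) 2

theorem cont_el : Continuous fun z : Z => el z.1.2.1 z.2.1 z.2.2 := by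
  unfold el; fun_prop

theorem el_neg (a om m : ℝ) : el a (-om) (-m) = el a om m := by simp [el]

theorem el_hom (a om m t : ℝ) : el a (t * om) (t * m) = t ^ 2 * el a om m := by
  have : |t * m| - |a * (t * om)| = |t| * (|m| - |a * om|) := by
    rw [abs_mul, mul_left_comm, abs_mul t]; ring
  rw [el, this, ← mul_zero |t|, ← mul_max_of_nonneg _ _ (abs_nonneg t), mul_pow, sq_abs, el]

theorem hdK (a om m r : ℝ) : HasDerivAt (fun s => K a s om m) (2 * r * om) r := by
  unfold K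
  have := (((hasDerivAt_id r).pow 2).add_const (a ^ 2)).const_mul om |>.sub_const (a * m)
  simpa [mul_comm, mul_left_comm, mul_assoc] using this

theorem hdDe (M a r : ℝ) : HasDerivAt (fun s => De M a s) (2 * r - 2 * M) r := by
  unfold De
  have := ((((hasDerivAt_id r).pow 2).sub ((hasDerivAt_id r).const_mul (2 * M))).add_const (a ^ 2))
  simpa [mul_comm] using this

theorem cK (a om m : ℝ) : ContDiff ℝ (⊤ : ℕ∞) fun s => K a s om m := by unfold K; fun_prop

theorem cDe (M a : ℝ) : ContDiff ℝ (⊤ : ℕ∞) fun s => De M a s := by unfold De; fun_prop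

theorem cka (M a om m : ℝ) : ContDiff ℝ (⊤ : ℕ∞) fun s => ka M a s om m := by unfold ka; fun_prop

/-- If om K ≤ 0 then |K| ≤ |a m| and |om| (r ^ 2 + a ^ 2) ≤ |a m|. -/
theorem of_nonpos (hu : om ^ 2 + m ^ 2 = 1) (hr : 0 < r) (h : om * K a r om m ≤ 0) :
    m ≠ 0 ∧ K a r om m ^ 2 ≤ (a * m) ^ 2 ∧ |om| * (r ^ 2 + a ^ 2) ≤ |a * m| := by
  have hp : 0 < r ^ 2 + a ^ 2 := by positivity
  unfold K at *
  have h1 : om ^ 2 * (r ^ 2 + a ^ 2) ≤ a * m * om := by nlinarith
  refine ⟨?_, ?_, ?_⟩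
  · rintro rfl
    have : om ^ 2 = 1 := by linarith
    rw [this] at h1; linarith
  · nlinarith [mul_le_mul_of_nonneg_right h1 hp.le, mul_nonneg (sq_nonneg om) hp.le,
      mul_nonneg (mul_nonneg (sq_nonneg om) hp.le) hp.le]
  · rcases eq_or_ne om 0 with rfl | h0
    · simp only [abs_zero, zero_mul]; exact abs_nonneg _
    · have h2 : |om| * (|om| * (r ^ 2 + a ^ 2)) ≤ |om| * |a * m| := by
        rw [← mul_assoc, abs_mul_abs_self, ← abs_mul]
        calc om * om * (r ^ 2 + a ^ 2) ≤ om * (a * m) := by nlinarith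
          _ ≤ _ := le_abs_self _
      exact le_of_mul_le_mul_left h2 (abs_pos.mpr h0)

theorem el_pos (hu : om ^ 2 + m ^ 2 = 1) (hr : 0 < r) (h : om * K a r om m ≤ 0) :
    0 < el a om m := by
  obtain ⟨hm, -, h3⟩ := of_nonpos hu hr h
  have hp : 0 < r ^ 2 + a ^ 2 := by positivity
  have h4 : |a * om| * (r ^ 2 + a ^ 2) < |m| * (r ^ 2 + a ^ 2) := by
    have := mul_le_mul_of_nonneg_left h3 (abs_nonneg a)
    rw [abs_mul a m, ← mul_assoc, ← mul_assoc, abs_mul_abs_self, ← abs_mul] at this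
    have := mul_pos (abs_pos.mpr hm) (pow_pos hr 2)
    nlinarith
  have h5 := sub_pos.mpr (lt_of_mul_lt_mul_right h4 hp.le)
  exact (pow_pos h5 2).trans_le (le_el h5.le le_rfl)

/-- Far from the hole the set om K ≤ 0 is forbidden. -/
theorem far_forb (h : |a| < M) (hu : om ^ 2 + m ^ 2 = 1) (hr : 10 * M ≤ r)
    (hK : om * K a r om m ≤ 0) : K a r om m ^ 2 < De M a r * el a om m := by
  have hM := M_pos h
  have ha := sq_lt h
  have hr0 : 0 < r := by linarith
  obtain ⟨hm, h2, h3⟩ := of_nonpos hu hr0 hK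
  have hp : 0 < r ^ 2 + a ^ 2 := by positivity
  have hm0 := abs_pos.mpr hm
  have hr2 : 100 * M ^ 2 ≤ r ^ 2 := by nlinarith
  have h4 : |a * om| * (r ^ 2 + a ^ 2) ≤ |m| / 2 * (r ^ 2 + a ^ 2) := by
    have := mul_le_mul_of_nonneg_left h3 (abs_nonneg a)
    rw [abs_mul a m, ← mul_assoc, ← mul_assoc, abs_mul_abs_self, ← abs_mul] at this
    have : |m| * a ^ 2 ≤ |m| * r ^ 2 := mul_le_mul_of_nonneg_left (by nlinarith) hm0.le
    nlinarith
  have h5 := le_el (a := a) (om := om) (m := m) (x := |m| / 2) (by positivity)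
    (by linarith [le_of_mul_le_mul_right h4 hp])
  have h6 : 80 * M ^ 2 ≤ De M a r := by unfold De; nlinarith [sq_nonneg a]
  have h7 : 0 < m ^ 2 := by positivity
  rw [div_pow, sq_abs] at h5
  calc K a r om m ^ 2 ≤ (a * m) ^ 2 := h2
    _ < 80 * M ^ 2 * (m ^ 2 / 2 ^ 2) := by nlinarith
    _ ≤ De M a r * el a om m := by gcongr; linarith [sq_nonneg M]

/-- The cubic in ka. -/
def Pc (M a r : ℝ) : ℝ := r ^ 3 - 3 * M * r ^ 2 + a ^ 2 * r + a ^ 2 * M

theorem crit_forb (ha : a ≠ 0) (hu : om ^ 2 + m ^ 2 = 1) (hr : M < r) (hD : 0 < De M a r)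
    (hT : 0 < |Pc M a r| - a ^ 2 * (r - M))
    (h : 4 * a ^ 2 * r ^ 2 * De M a r < (|Pc M a r| - a ^ 2 * (r - M)) ^ 2)
    (hk : ka M a r om m = 0) : K a r om m ^ 2 < De M a r * el a om m := by
  have hx : 0 < r - M := sub_pos.mpr hr
  have ha0 := abs_pos.mpr ha
  have e1 : (r - M) * K a r om m = 2 * r * om * De M a r := by rw [← ka_K, hk, zero_add]
  have e2 : a * m * (r - M) = -(om * Pc M a r) := by unfold ka at hk; unfold Pc; linarith
  have h0 : om ≠ 0 := by
    rintro rfl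
    have : m = 0 := by simpa [ha, hx.ne'] using e2
    rw [this] at hu; norm_num at hu
  have e3 : |a| * |m| * (r - M) = |om| * |Pc M a r| := by
    have := congrArg abs e2
    rwa [abs_neg, abs_mul, abs_mul, abs_mul, abs_of_pos hx] at this
  generalize |Pc M a r| = P at *
  obtain ⟨x, hx0, e4⟩ : ∃ x : ℝ, 0 ≤ x ∧ x * (|a| * (r - M)) = |om| * (P - a ^ 2 * (r - M)) :=
    ⟨|om| * (P - a ^ 2 * (r - M)) / (|a| * (r - M)), by positivity, by field_simp⟩
  have hp : 0 < |a| * (r - M) := by positivity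
  have h5 : x ≤ |m| - |a * om| := by
    refine le_of_mul_le_mul_right (le_of_eq ?_) hp
    rw [e4, abs_mul, ← sq_abs a]; linear_combination -e3
  have h6 := le_el hx0 h5
  refine lt_of_lt_of_le ?_ (mul_le_mul_of_nonneg_left h6 hD.le)
  refine lt_of_mul_lt_mul_right ?_ (sq_nonneg (|a| * (r - M)))
  have e5 : De M a r * x ^ 2 * (|a| * (r - M)) ^ 2 =
      De M a r * om ^ 2 * (P - a ^ 2 * (r - M)) ^ 2 := by
    rw [mul_assoc, ← mul_pow, e4, mul_pow, sq_abs]; ring
  have e6 : K a r om m ^ 2 * (|a| * (r - M)) ^ 2 =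
      De M a r * om ^ 2 * (4 * a ^ 2 * r ^ 2 * De M a r) := by
    rw [mul_pow, sq_abs]
    linear_combination a ^ 2 * ((r - M) * K a r om m + 2 * r * om * De M a r) * e1
  rw [e5, e6]
  exact mul_lt_mul_of_pos_left h (by positivity)

theorem crit_far (h : |a| < M) (ha : a ≠ 0) (hu : om ^ 2 + m ^ 2 = 1) (hr : 10 * M ≤ r)
    (hk : ka M a r om m = 0) : K a r om m ^ 2 < De M a r * el a om m := by
  have hM := M_pos h
  have h2 := sq_lt h
  have hr0 : 0 < r := by linarith
  have h3 : 7 / 10 * r ^ 3 ≤ |Pc M a r| - a ^ 2 * (r - M) := by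
    have := le_abs_self (Pc M a r)
    unfold Pc at *
    nlinarith [mul_nonneg (sq_nonneg a) hM.le, mul_nonneg (sq_nonneg r) (sub_nonneg.mpr hr)]
  have h4 : De M a r ≤ r ^ 2 := by unfold De; nlinarith
  have hD := De_pos h (r := r) (by linarith [rp_le h])
  have h5 : 100 * a ^ 2 ≤ r ^ 2 := by nlinarith
  refine crit_forb ha hu (by linarith) hD (lt_of_lt_of_le (by positivity) h3) ?_ hk
  calc 4 * a ^ 2 * r ^ 2 * De M a r ≤ 4 * (r ^ 2 / 100) * r ^ 2 * r ^ 2 := by gcongr; linarith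
    _ < (7 / 10 * r ^ 3) ^ 2 := by nlinarith [pow_pos hr0 6]
    _ ≤ _ := by gcongr

theorem crit_near (h : |a| < M) (ha : a ≠ 0) : ∃ ra, rp M a < ra ∧ ra ≤ 10 * M ∧
    ∀ r ∈ Ioc (rp M a) ra, ∀ om m : ℝ, om ^ 2 + m ^ 2 = 1 → ka M a r om m = 0 →
      K a r om m ^ 2 < De M a r * el a om m := by
  have hM := M_pos h
  have h1 := rp_gt h
  have e : |Pc M a (rp M a)| - a ^ 2 * (rp M a - M) = rp M a ^ 2 * (rp M a - M) := by
    have := ka_K M a (rp M a) 1 0
    rw [De_rp h] at this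
    have e' : Pc M a (rp M a) = -((rp M a ^ 2 + a ^ 2) * (rp M a - M)) := by
      unfold ka K at this; unfold Pc; linarith
    rw [e', abs_neg, abs_of_nonneg (mul_nonneg (by positivity) (by linarith))]; ring
  have hT : 0 < rp M a ^ 2 * (rp M a - M) := mul_pos (pow_pos (by linarith) 2) (by linarith)
  have c1 : Continuous fun r => |Pc M a r| - a ^ 2 * (r - M) := by unfold Pc; fun_prop
  have c2 : Continuous fun r => 4 * a ^ 2 * r ^ 2 * De M a r := by unfold De; fun_prop
  have v1 := (continuous_const.continuousAt (x := rp M a)).eventually_lt c1.continuousAt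
    (show (0 : ℝ) < _ by rw [e]; exact hT)
  have v2 := (c2.continuousAt (x := rp M a)).eventually_lt (c1.pow 2).continuousAt
    (by rw [Pi.pow_apply, e, De_rp h, mul_zero]; positivity)
  obtain ⟨ε, hε, hb⟩ := Metric.eventually_nhds_iff.mp (v1.and v2)
  refine ⟨min (rp M a + ε / 2) (10 * M), lt_min (by linarith) (by linarith [rp_le h]),
    min_le_right _ _, fun r hr om m hu hk => ?_⟩
  have := hb (y := r) (by
    rw [Real.dist_eq, abs_lt]; constructor <;> linarith [hr.1, hr.2.trans (min_le_left _ _)])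
  exact crit_forb ha hu (by linarith [hr.1]) (De_pos h hr.1) this.1 this.2 hk

/-- ka / (r - M) is om p + a m with p increasing. -/
theorem ka_sub {s : ℝ} (hr : r ≠ M) (hs : s ≠ M) :
    ka M a r om m / (r - M) - ka M a s om m / (s - M) =
      om * (r - s) * ((r - M) + (s - M) + 2 * M * (M ^ 2 - a ^ 2) / ((r - M) * (s - M))) := by
  have := sub_ne_zero.mpr hr
  have := sub_ne_zero.mpr hs
  unfold ka; field_simp; ring

theorem hdA (hr : r ≠ M) : HasDerivAt (fun s => ka M a s om m / (s - M))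
    (om * (2 * (r - M) + 2 * M * (M ^ 2 - a ^ 2) / (r - M) ^ 2)) r := by
  have h0 := sub_ne_zero.mpr hr
  have h1 : HasDerivAt (fun s => ka M a s om m) (om * (3 * r ^ 2 - 6 * M * r + a ^ 2) + a * m) r := by
    unfold ka
    have := ((((((hasDerivAt_id r).pow 3).sub (((hasDerivAt_id r).pow 2).const_mul (3 * M))).add
      ((hasDerivAt_id r).const_mul (a ^ 2))).add_const (a ^ 2 * M)).const_mul om).add
      (((hasDerivAt_id r).sub_const M).const_mul (a * m))
    refine (this.congr_deriv ?_)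
    simp; ring_nf; simp
  refine (h1.div ((hasDerivAt_id r).sub_const M) h0).congr_deriv ?_
  simp only [id]
  unfold ka; field_simp; ring

end Vale.Agent.P354XH
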