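import Vale.Agent.P354XH.Arc

/-! Local inequalities for polynomial families near a point (M, a, r, om, m). -/

open Set Filter Topology
open scoped ContDiff

namespace Vale.Agent.P354XH

open Vale.Agent.P354BF (De rp)

def zD (z : Z) : ℝ := De z.1.1 z.1.2.1 z.1.2.2
def zK (z : Z) : ℝ := K z.1.2.1 z.1.2.2 z.2.1 z.2.2
def zk (z : Z) : ℝ := ka z.1.1 z.1.2.1 z.1.2.2 z.2.1 z.2.2
noncomputable def zl (z : Z) : ℝ := el z.1.2.1 z.2.1 z.2.2
noncomputable def zW (ra rb : ℝ) (z : Z) : ℝ := zk z ^ 2 + th ra rb z.1.2.2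
noncomputable def zB (b ch h : Fm) (z : Z) (x L : ℝ) : ℝ :=
  Bk b ch h z.1.1 z.1.2.1 z.1.2.2 z.2.1 z.2.2 x L
def zQ (b ch : Fm) (z : Z) (x L : ℝ) : ℝ := Qf b ch z.1.1 z.1.2.1 z.1.2.2 z.2.1 z.2.2 x L
def zE (f : ℝ × ℝ × ℝ → ℝ) (b ch mu : Fm) (z : Z) (x s L : ℝ) : ℝ :=
  En f b ch mu z.1.1 z.1.2.1 z.1.2.2 z.2.1 z.2.2 x s L
noncomputable def NB (ra rb : ℝ) (z : Z) (x L : ℝ) : ℝ :=
  (zD z * x - zK z) ^ 2 + zW ra rb z * (x ^ 2 + 1 + L)

theorem c_zD : Continuous zD := by unfold zD De; fun_prop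
theorem c_zK : Continuous zK := by unfold zK K; fun_prop
theorem c_zk : Continuous zk := by unfold zk ka; fun_prop
theorem c_zl : Continuous zl := cont_el
theorem c_zW (ra rb : ℝ) : Continuous (zW ra rb) := by
  have := (th_smooth ra rb).continuous
  have := c_zk
  unfold zW; fun_prop

theorem zl_nonneg (z : Z) : 0 ≤ zl z := el_nonneg _ _ _

theorem zW_nonneg (ra rb : ℝ) (z : Z) : 0 ≤ zW ra rb z :=
  add_nonneg (sq_nonneg _) (th_nonneg _ _ _)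

theorem NB_nonneg (ra rb : ℝ) (z : Z) (x : ℝ) {L : ℝ} (hL : 0 ≤ L) : 0 ≤ NB ra rb z x L := by
  have := zW_nonneg ra rb z
  unfold NB; positivity

variable {b ch h mu : Fm} {d1 d2 d3 d4 : ℕ} {f : ℝ × ℝ × ℝ → ℝ} {ra rb : ℝ} {z0 : Z}

theorem zB_eq (z : Z) (x s L : ℝ) : zB b ch h z x L =
    qf (ev (dr b) z * zD z - ev b z * (2 * z.1.2.2 - 2 * z.1.1) + ev h z * zD z)
      (ev b z * (2 * z.1.2.2 * z.2.1) - ev h z * zK z - ev (dr ch) z * zD z)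
      (2 * ev (dr ch) z * zK z) (ev h z - ev (dr b) z) 0 0 x s L := by
  simp only [zB, Bk, qf, ev, zD, zK]; ring

theorem zE_eq (z : Z) (x s L : ℝ) : zE f b ch mu z x s L =
    qf (-(ev b z * (z.1.2.2 ^ 2 + z.1.2.1 ^ 2 - f z.1 * zD z)) + ev mu z * zD z)
      ((ev ch z * (z.1.2.2 ^ 2 + z.1.2.1 ^ 2 - f z.1 * zD z) - ev b z * f z.1 * zK z) / 2 -
        ev mu z * zK z) (ev ch z * f z.1 * zK z) (ev mu z) (z.1.2.1 * ev b z)
      (-(z.1.2.1 * ev ch z)) x s L := by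
  simp only [zE, En, qf, ev, zD, zK]; ring

theorem zQ_eq (z : Z) (hz : zD z ≤ 0) (x s L : ℝ) : zQ b ch z x L =
    qf (-ev b z) (ev ch z * √(-zD z)) (2 * ev ch z * zK z) (-ev b z) 0 0 (√(-zD z) * x) s L := by
  have := Real.sq_sqrt (neg_nonneg.mpr hz)
  simp only [zQ, Qf, qf, ev, zK]
  simp only [zD] at this ⊢
  linear_combination (b z.1.1 z.1.2.1 z.1.2.2 z.2.1 z.2.2 * x ^ 2 -
    2 * ch z.1.1 z.1.2.1 z.1.2.2 z.2.1 z.2.2 * x) * this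

theorem sq_x (z : Z) (hz : zD z ≤ 0) (x : ℝ) : (√(-zD z) * x) ^ 2 = -zD z * x ^ 2 := by
  rw [mul_pow, Real.sq_sqrt (neg_nonneg.mpr hz)]

theorem NB_bdd (ra rb : ℝ) (z0 : Z) : ∃ C, 0 < C ∧ ∀ᶠ z in 𝓝 z0, ∀ x L : ℝ, 0 ≤ L →
    NB ra rb z x L ≤ C * (x ^ 2 + 1 + L) := by
  have := c_zD; have := c_zK; have := c_zW ra rb
  obtain ⟨C, hC, H⟩ := bdd_near (y0 := z0) (α := fun z => zD z ^ 2 + zW ra rb z)
    (β := fun z => -(zD z * zK z)) (γ := fun z => zK z ^ 2 + zW ra rb z) (g := zW ra rb)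
    (u := fun _ => 0) (v := fun _ => 0) (by fun_prop) (by fun_prop) (by fun_prop) (by fun_prop)
    (by fun_prop) (by fun_prop)
  refine ⟨C, hC, H.mono fun z hz x L hL => ?_⟩
  have := (le_abs_self _).trans (hz x 0 L (by simpa using hL))
  unfold qf at this; unfold NB; linarith

theorem B_on (hb : HP d1 b) (hch : HP d2 ch) (hh : HP d3 h) {c : ℝ} (hc : 0 < c)
    (P : PBv c (zD z0) (2 * z0.1.2.2 - 2 * z0.1.1) (zK z0) (2 * z0.1.2.2 * z0.2.1) (ev b z0)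
      (ev (dr b) z0) (ev (dr ch) z0) (ev h z0) (zl z0)) : ∃ c, 0 < c ∧ ∀ᶠ z in 𝓝 z0,
      ∀ x L, zl z ≤ L → c * NB ra rb z x L ≤ zB b ch h z x L := by
  have := c_zD; have := c_zK; have := c_zl
  have := hb.cont; have := hb.dr.cont; have := hch.dr.cont; have := hh.cont
  have H := Pos.near (y0 := z0)
    (α := fun z => ev (dr b) z * zD z - ev b z * (2 * z.1.2.2 - 2 * z.1.1) + ev h z * zD z)
    (β := fun z => ev b z * (2 * z.1.2.2 * z.2.1) - ev h z * zK z - ev (dr ch) z * zD z)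
    (γ := fun z => 2 * ev (dr ch) z * zK z) (g := fun z => ev h z - ev (dr b) z)
    (u := fun _ => 0) (v := fun _ => 0) (l := zl) hc (by fun_prop) (by fun_prop) (by fun_prop)
    (by fun_prop) (by fun_prop) (by fun_prop) (by fun_prop) P
  obtain ⟨C, hC, H'⟩ := NB_bdd ra rb z0
  refine ⟨c / 2 / C, by positivity, ?_⟩
  filter_upwards [H, H'] with z h1 h2 x L hL
  have hL0 := (zl_nonneg z).trans hL
  rw [zB_eq z x 0 L]
  refine le_trans ?_ (h1 x 0 L hL (by simpa using hL0))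
  calc c / 2 / C * NB ra rb z x L ≤ c / 2 / C * (C * (x ^ 2 + 1 + L)) := by
        gcongr; exact h2 x L hL0
    _ = _ := by field_simp

theorem B_bdd (hb : HP d1 b) (hch : HP d2 ch) (hh : HP d3 h) (z0 : Z) : ∃ C, 0 < C ∧
    ∀ᶠ z in 𝓝 z0, ∀ x L : ℝ, 0 ≤ L → |zB b ch h z x L| ≤ C * (x ^ 2 + 1 + L) := by
  have := c_zD; have := c_zK
  have := hb.cont; have := hb.dr.cont; have := hch.dr.cont; have := hh.cont
  obtain ⟨C, hC, H⟩ := bdd_near (y0 := z0)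
    (α := fun z => ev (dr b) z * zD z - ev b z * (2 * z.1.2.2 - 2 * z.1.1) + ev h z * zD z)
    (β := fun z => ev b z * (2 * z.1.2.2 * z.2.1) - ev h z * zK z - ev (dr ch) z * zD z)
    (γ := fun z => 2 * ev (dr ch) z * zK z) (g := fun z => ev h z - ev (dr b) z)
    (u := fun _ => 0) (v := fun _ => 0) (by fun_prop) (by fun_prop) (by fun_prop)
    (by fun_prop) (by fun_prop) (by fun_prop)
  refine ⟨C, hC, H.mono fun z hz x L hL => ?_⟩
  rw [zB_eq z x 0 L]; exact hz x 0 L (by simpa using hL)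

theorem E_on (hb : HP d1 b) (hch : HP d2 ch) (hmu : HP d4 mu) (hf : Continuous f) {c : ℝ}
    (hc : 0 < c) (P : PEv c (zD z0) (zK z0) (z0.1.2.2 ^ 2 + z0.1.2.1 ^ 2) (f z0.1) z0.1.2.1
      (ev b z0) (ev ch z0) (ev mu z0) (zl z0)) : ∀ᶠ z in 𝓝 z0,
      ∀ x s L, zl z ≤ L → s ^ 2 ≤ L → c / 2 * (x ^ 2 + 1 + L) ≤ zE f b ch mu z x s L := by
  have := c_zD; have := c_zK; have := c_zl
  have := hb.cont; have := hch.cont; have := hmu.cont
  refine (Pos.near (y0 := z0)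
    (α := fun z => -(ev b z * (z.1.2.2 ^ 2 + z.1.2.1 ^ 2 - f z.1 * zD z)) + ev mu z * zD z)
    (β := fun z => (ev ch z * (z.1.2.2 ^ 2 + z.1.2.1 ^ 2 - f z.1 * zD z) -
      ev b z * f z.1 * zK z) / 2 - ev mu z * zK z)
    (γ := fun z => ev ch z * f z.1 * zK z) (g := ev mu)
    (u := fun z => z.1.2.1 * ev b z) (v := fun z => -(z.1.2.1 * ev ch z)) (l := zl) hc
    (by fun_prop) (by fun_prop) (by fun_prop)
    (by fun_prop) (by fun_prop) (by fun_prop) (by fun_prop) P).mono fun z hz x s L h1 h2 => ?_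
  rw [zE_eq]; exact hz x s L h1 h2

theorem E_bdd (hb : HP d1 b) (hch : HP d2 ch) (hmu : HP d4 mu) (hf : Continuous f) (z0 : Z) :
    ∃ C, 0 < C ∧ ∀ᶠ z in 𝓝 z0, ∀ x s L : ℝ, s ^ 2 ≤ L →
      |zE f b ch mu z x s L| ≤ C * (x ^ 2 + 1 + L) := by
  have := c_zD; have := c_zK
  have := hb.cont; have := hch.cont; have := hmu.cont
  obtain ⟨C, hC, H⟩ := bdd_near (y0 := z0)
    (α := fun z => -(ev b z * (z.1.2.2 ^ 2 + z.1.2.1 ^ 2 - f z.1 * zD z)) + ev mu z * zD z)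
    (β := fun z => (ev ch z * (z.1.2.2 ^ 2 + z.1.2.1 ^ 2 - f z.1 * zD z) -
      ev b z * f z.1 * zK z) / 2 - ev mu z * zK z)
    (γ := fun z => ev ch z * f z.1 * zK z) (g := ev mu)
    (u := fun z => z.1.2.1 * ev b z) (v := fun z => -(z.1.2.1 * ev ch z))
    (by fun_prop) (by fun_prop) (by fun_prop) (by fun_prop) (by fun_prop) (by fun_prop)
  refine ⟨C, hC, H.mono fun z hz x s L hL => ?_⟩
  rw [zE_eq]; exact hz x s L hL

theorem Q_on (hb : HP d1 b) (hch : HP d2 ch) {c : ℝ} (hc : 0 < c) (h0 : zD z0 = 0)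
    (P : Pos c (-ev b z0) 0 (2 * ev ch z0 * zK z0) (-ev b z0) 0 0 (zl z0)) : ∀ᶠ z in 𝓝 z0,
      zD z ≤ 0 → ∀ x L, zl z ≤ L → c / 2 * (-zD z * x ^ 2 + 1 + L) ≤ zQ b ch z x L := by
  have := c_zD; have := c_zK; have := c_zl
  have := hb.cont; have := hch.cont
  refine (Pos.near (y0 := z0) (α := fun z => -ev b z) (β := fun z => ev ch z * √(-zD z))
    (γ := fun z => 2 * ev ch z * zK z) (g := fun z => -ev b z)
    (u := fun _ => 0) (v := fun _ => 0) (l := zl) hc (by fun_prop) (by fun_prop) (by fun_prop)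
    (by fun_prop) (by fun_prop) (by fun_prop) (by fun_prop)
    (P.of_eq le_rfl (by simp [h0]) rfl rfl rfl rfl)).mono fun z hz hD x L h1 => ?_
  rw [zQ_eq z hD x 0, ← sq_x z hD]
  exact hz _ 0 L h1 (by simpa using (zl_nonneg z).trans h1)

theorem Q_bdd (hb : HP d1 b) (hch : HP d2 ch) (z0 : Z) : ∃ C, 0 < C ∧ ∀ᶠ z in 𝓝 z0,
    zD z ≤ 0 → ∀ x L : ℝ, 0 ≤ L → |zQ b ch z x L| ≤ C * (-zD z * x ^ 2 + 1 + L) := by
  have := c_zD; have := c_zK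
  have := hb.cont; have := hch.cont
  obtain ⟨C, hC, H⟩ := bdd_near (y0 := z0) (α := fun z => -ev b z)
    (β := fun z => ev ch z * √(-zD z)) (γ := fun z => 2 * ev ch z * zK z) (g := fun z => -ev b z)
    (u := fun _ => 0) (v := fun _ => 0) (by fun_prop) (by fun_prop) (by fun_prop)
    (by fun_prop) (by fun_prop) (by fun_prop)
  refine ⟨C, hC, H.mono fun z hz hD x L hL => ?_⟩
  rw [zQ_eq z hD x 0, ← sq_x z hD]
  exact hz _ 0 L (by simpa using hL)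

theorem deg_on {D D1 A η κ θ C Dd c L x B Cx W1 : ℝ} (hD : 0 < D) (h1 : D ≤ D1) (hc : 0 < c)
    (hL : 0 ≤ L) (hθ : 0 ≤ θ) (e : D * B = A * η ^ 2 + κ ^ 2 * C + θ * Dd) (hA : c ≤ A)
    (hC : c * (1 + L) ≤ C) (hd : θ * (c * (1 + L)) ≤ θ * Dd) (hx : x ^ 2 ≤ Cx * (η ^ 2 + 1))
    (hCx : 0 ≤ Cx) (hW : κ ^ 2 + θ ≤ W1) :
    c / (D1 * (1 + Cx + W1 * Cx)) * (η ^ 2 + (κ ^ 2 + θ) * (x ^ 2 + 1 + L)) ≤ B := by
  have w0 : 0 ≤ κ ^ 2 + θ := by positivity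
  have w1 : 0 ≤ W1 := w0.trans hW
  have a1 : c * (η ^ 2 + (κ ^ 2 + θ) * (1 + L)) ≤ D * B := by
    nlinarith [mul_le_mul_of_nonneg_right hA (sq_nonneg η),
      mul_le_mul_of_nonneg_left hC (sq_nonneg κ)]
  have a0 : 0 ≤ η ^ 2 + (κ ^ 2 + θ) * (1 + L) := by positivity
  have hB : 0 ≤ B := nonneg_of_mul_nonneg_right (le_trans (by positivity) a1) hD
  have a2 : η ^ 2 + (κ ^ 2 + θ) * (x ^ 2 + 1 + L) ≤
      (1 + Cx + W1 * Cx) * (η ^ 2 + (κ ^ 2 + θ) * (1 + L)) := by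
    have b1 := mul_le_mul_of_nonneg_left hx w0
    have b2 := mul_le_mul_of_nonneg_right hW (mul_nonneg hCx (sq_nonneg η))
    have b3 : 0 ≤ Cx * η ^ 2 := by positivity
    have b4 : 0 ≤ Cx * ((κ ^ 2 + θ) * L) := by positivity
    have b5 : 0 ≤ W1 * Cx * ((κ ^ 2 + θ) * (1 + L)) := by positivity
    nlinarith
  have p : 0 < 1 + Cx + W1 * Cx := by positivity
  have p1 : 0 < D1 := hD.trans_le h1
  rw [div_mul_eq_mul_div, div_le_iff₀ (by positivity)]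
  calc c * (η ^ 2 + (κ ^ 2 + θ) * (x ^ 2 + 1 + L))
      ≤ c * ((1 + Cx + W1 * Cx) * (η ^ 2 + (κ ^ 2 + θ) * (1 + L))) := by gcongr
    _ = (1 + Cx + W1 * Cx) * (c * (η ^ 2 + (κ ^ 2 + θ) * (1 + L))) := by ring
    _ ≤ (1 + Cx + W1 * Cx) * (D1 * B) :=
        mul_le_mul_of_nonneg_left (a1.trans (mul_le_mul_of_nonneg_right h1 hB)) p.le
    _ = _ := by ring

theorem deg_off {D D0 A η κ θ C Dd p c L x B : ℝ} (hD0 : 0 < D0) (h1 : D0 ≤ D) (hc : 0 < c)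
    (hL : 0 ≤ L) (hθ : 0 ≤ θ) (e : D * B = A * η ^ 2 + κ ^ 2 * C + θ * Dd - 2 * p * κ * η)
    (hA : |A| ≤ c) (hC : |C| ≤ c * (1 + L)) (hd : |Dd| ≤ c * (1 + L)) (hp : |p| ≤ c) :
    -(η ^ 2 + (κ ^ 2 + θ) * (x ^ 2 + 1 + L)) ≤ D0 / (2 * c) * B := by
  have n0 : 0 ≤ η ^ 2 + (κ ^ 2 + θ) * (x ^ 2 + 1 + L) := by positivity
  rcases le_total 0 B with hB | hB
  · exact le_trans (neg_nonpos.mpr n0) (by positivity)
  · have a1 := mul_le_mul_of_nonneg_right (abs_le.mp hA).1 (sq_nonneg η)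
    have a2 := mul_le_mul_of_nonneg_left (abs_le.mp hC).1 (sq_nonneg κ)
    have a3 := mul_le_mul_of_nonneg_left (abs_le.mp hd).1 hθ
    have a4 : 2 * p * κ * η ≤ c * (κ ^ 2 + η ^ 2) := by
      obtain ⟨p1, p2⟩ := abs_le.mp hp
      nlinarith [mul_nonneg (sub_nonneg.mpr p2) (sq_nonneg (κ + η)),
        mul_nonneg (sub_nonneg.mpr p1) (sq_nonneg (κ - η))]
    have a5 := mul_le_mul_of_nonpos_right h1 hB
    have a6 : 0 ≤ c * (κ ^ 2 * L) := by positivity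
    have a7 : 0 ≤ c * (θ * (1 + L)) := by positivity
    have a8 : 0 ≤ c * ((κ ^ 2 + θ) * x ^ 2) := by positivity
    rw [div_mul_eq_mul_div, le_div_iff₀ (by positivity)]
    nlinarith

end Vale.Agent.P354XH
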