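import Vale.Agent.P354XH.Loc

/-! The family of one direction is positive near that direction and bounded below everywhere. -/

open Set Filter Topology
open scoped ContDiff

namespace Vale.Agent.P354XH

open Vale.Agent.P354BF (De rp)

def On (c : ℝ) (f : ℝ × ℝ × ℝ → ℝ) (ra rb : ℝ) (b ch h mu : Fm) (z : Z) : Prop :=
  (∀ x L, zl z ≤ L → c * NB ra rb z x L ≤ zB b ch h z x L) ∧
  (zD z ≤ 0 → ∀ x L, zl z ≤ L → c * (-zD z * x ^ 2 + 1 + L) ≤ zQ b ch z x L) ∧
  ∀ x s L, zl z ≤ L → s ^ 2 ≤ L → c * (x ^ 2 + 1 + L) ≤ zE f b ch mu z x s L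

def Off (c : ℝ) (f : ℝ × ℝ × ℝ → ℝ) (ra rb : ℝ) (b ch h mu : Fm) (z : Z) : Prop :=
  (∀ x L, 0 ≤ L → -NB ra rb z x L ≤ c * zB b ch h z x L) ∧
  (zD z ≤ 0 → ∀ x L, 0 ≤ L → -(-zD z * x ^ 2 + 1 + L) ≤ c * zQ b ch z x L) ∧
  ∀ x s L, s ^ 2 ≤ L → -(x ^ 2 + 1 + L) ≤ c * zE f b ch mu z x s L

theorem NQ_nonneg {z : Z} (hz : zD z ≤ 0) (x : ℝ) {L : ℝ} (hL : 0 ≤ L) :
    0 ≤ -zD z * x ^ 2 + 1 + L := by
  have := neg_nonneg.mpr hz
  positivity

theorem On.mono {c c' ra rb : ℝ} {f : ℝ × ℝ × ℝ → ℝ} {b ch h mu : Fm} {z : Z} (hc : c' ≤ c)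
    (H : On c f ra rb b ch h mu z) : On c' f ra rb b ch h mu z :=
  ⟨fun x L hL => (mul_le_mul_of_nonneg_right hc
      (NB_nonneg _ _ _ _ ((zl_nonneg z).trans hL))).trans (H.1 x L hL),
    fun hz x L hL => (mul_le_mul_of_nonneg_right hc
      (NQ_nonneg hz _ ((zl_nonneg z).trans hL))).trans (H.2.1 hz x L hL),
    fun x s L hL hs => (mul_le_mul_of_nonneg_right hc (by
      have := (zl_nonneg z).trans hL
      positivity)).trans (H.2.2 x s L hL hs)⟩

theorem off_mono {N B c c' : ℝ} (h0 : 0 < c') (hc : c' ≤ c) (hN : 0 ≤ N) (h : -N ≤ c * B) :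
    -N ≤ c' * B := by
  rcases le_total 0 B with hB | hB
  · exact le_trans (neg_nonpos.mpr hN) (by positivity)
  · exact h.trans (mul_le_mul_of_nonpos_right hc hB)

theorem Off.mono {c c' ra rb : ℝ} {f : ℝ × ℝ × ℝ → ℝ} {b ch h mu : Fm} {z : Z} (h0 : 0 < c')
    (hc : c' ≤ c) (H : Off c f ra rb b ch h mu z) : Off c' f ra rb b ch h mu z :=
  ⟨fun x L hL => off_mono h0 hc (NB_nonneg _ _ _ _ hL) (H.1 x L hL),
    fun hz x L hL => off_mono h0 hc (NQ_nonneg hz _ hL) (H.2.1 hz x L hL),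
    fun x s L hs => off_mono h0 hc (by
      have := (sq_nonneg s).trans hs
      positivity) (H.2.2 x s L hs)⟩

theorem off_of_abs {N B C : ℝ} (hC : 0 < C) (h : |B| ≤ C * N) : -N ≤ C⁻¹ * B := by
  rw [le_inv_mul_iff₀ hC]; linarith [(abs_le.mp h).1]

variable {M0 a0 om0 m0 ra rb ta t2 R1 R2 : ℝ} {be gF f : ℝ × ℝ × ℝ → ℝ}
  {β g e G gt g1 q n μ : ℝ → ℝ} {βf gf ef : Fm}

theorem T_id (A : Arc M0 a0 om0 m0 ra rb t2 R1 be gF β g e G gt g1 q βf gf ef)
    (sn : ContDiff ℝ ∞ n) (n0 : ∀ r, ta ≤ r → n r = 0) (ht : ta < t2) (z : Z)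
    (hz : z.1.2.2 ∈ Ioo t2 (rb + 1 / 3)) (x L : ℝ) :
    zD z * zB (fb βf n) (fc βf ef) (fh βf gf) z x L =
      (ev gf z + 2 * zD z * ev (dr βf) z + ev βf z * (2 * z.1.2.2 - 2 * z.1.1)) *
        (zD z * x - zK z) ^ 2 +
      zk z ^ 2 * (-(gt z.1.2.2 * zK z ^ 2) + 2 * G z.1.2.2 * (om0 * z.2.1 + m0 * z.2.2) * zK z +
        gt z.1.2.2 * zD z * L) +
      th ra rb z.1.2.2 * (-(g1 z.1.2.2 * (z.2.1 ^ 2 + z.2.2 ^ 2) * zK z ^ 2) +
        g1 z.1.2.2 * (z.2.1 ^ 2 + z.2.2 ^ 2) * zD z * L) -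
      2 * (zD z * (z.2.1 ^ 2 + z.2.2 ^ 2) * q z.1.2.2) * zk z * (zD z * x - zK z) := by
  obtain ⟨⟨M, a, r⟩, om, m⟩ := z
  obtain ⟨e1, e2, e3⟩ := A.t1 M a r om m hz
  have d0 : deriv n r = 0 := by
    have : n =ᶠ[𝓝 r] fun _ => 0 := by
      filter_upwards [Ioi_mem_nhds (ht.trans hz.1)] with s hs using n0 s hs.le
    rw [this.deriv_eq, deriv_const]
  simp only [zB, Bk, ev, zD, zK, zk, dr_fb A.hβ sn, dr_fc A.hβ A.he]
  simp only [fb, fh, d0, n0 r (ht.trans hz.1).le, e1, e2, e3]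
  linear_combination (-2 * (G r * ((om0 * om + m0 * m) * ka M a r om m)) * K a r om m) *
    ka_K M a r om m

theorem on_loc (h : |a0| < M0) (hu : om0 ^ 2 + m0 ^ 2 = 1) (hf : Continuous f)
    (D : Dat M0 a0 om0 m0 ra rb ta R2 f β g e G gt g1 q n μ)
    (A : Arc M0 a0 om0 m0 ra rb t2 R1 be gF β g e G gt g1 q βf gf ef) (h0 : rp M0 a0 < ta)
    (ht : ta < t2) (ht' : t2 < ra) {r : ℝ} (hr : r ∈ Icc (rp M0 a0) R2) :
    ∃ c, 0 < c ∧ ∀ᶠ z in 𝓝 (((M0, a0, r), om0, m0) : Z),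
      On c f ra rb (fb βf n) (fc βf ef) (fh βf gf) (fm μ) z := by
  have hb := hp_fb A.hβ D.sn
  have hch := hp_fc A.hβ A.he
  have hh := hp_fh A.hβ A.hg
  have hmu := hp_fm D.sμ
  have d1 : dr βf M0 a0 r om0 m0 = deriv β r := by simp only [dr, A.c1]
  have d3 : dr ef M0 a0 r om0 m0 = deriv e r := by simp only [dr, A.c3]
  obtain ⟨c1, hc1, H1⟩ : ∃ c, 0 < c ∧ ∀ᶠ z in 𝓝 (((M0, a0, r), om0, m0) : Z),
      ∀ x L, zl z ≤ L → c * NB ra rb z x L ≤ zB (fb βf n) (fc βf ef) (fh βf gf) z x L := by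
    rcases D.B r hr with ⟨c, hc, P⟩ | ⟨p1, p2, p3, p4, p5, p6, p7⟩
    · refine B_on hb hch hh hc ?_
      simp only [ev, dr_fb A.hβ D.sn, dr_fc A.hβ A.he]
      simpa only [zD, zK, zl, fb, fh, d1, d3, A.c1, A.c2, hu, mul_one] using P
    · have := c_zD; have := c_zK; have := c_zl; have := c_zW ra rb
      have := A.hβ.cont; have := A.hβ.dr.cont; have := A.hg.cont
      have := D.sG.continuous; have := D.sgt.continuous; have := D.sg1.continuous
      have hD : 0 < zD ((M0, a0, r), om0, m0) := De_pos h (by linarith [p1.1])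
      have u' : om0 * om0 + m0 * m0 = 1 := by linarith
      have v0 : ∀ᶠ z : Z in 𝓝 ((M0, a0, r), om0, m0), z.1.2.2 ∈ Ioo t2 (rb + 1 / 3) :=
        (by fun_prop : ContinuousAt (fun z : Z => z.1.2.2) _).eventually
          (Ioo_mem_nhds (by linarith [p1.1]) (by linarith [p1.2]))
      have v1 := near (c_zD.continuousAt (x := ((M0, a0, r), om0, m0))) (half_pos hD)
      have v2 := near (y0 := ((M0, a0, r), om0, m0)) (f := fun z : Z =>
        ev gf z + 2 * zD z * ev (dr βf) z + ev βf z * (2 * z.1.2.2 - 2 * z.1.1)) (by fun_prop)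
        (half_pos p3)
      have eA : ev gf ((M0, a0, r), om0, m0) + 2 * zD ((M0, a0, r), om0, m0) *
          ev (dr βf) ((M0, a0, r), om0, m0) + ev βf ((M0, a0, r), om0, m0) * (2 * r - 2 * M0) =
          cA M0 a0 β g r := by simp only [ev, zD, cA, d1, A.c1, A.c2]
      have v3 := near ((c_zW ra rb).continuousAt (x := ((M0, a0, r), om0, m0))) one_pos
      have v4 := near (y0 := ((M0, a0, r), om0, m0)) (f := fun z : Z =>
        2 * (1 + zK z ^ 2) / zD z ^ 2)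
        (ContinuousAt.div (by fun_prop) (by fun_prop) (by positivity)) one_pos
      obtain ⟨k1, hk1, P1⟩ := posdef (A := 1) (e := 0) (Γ := -(gt r * K a0 r om0 m0 ^ 2) +
        2 * G r * (om0 * om0 + m0 * m0) * K a0 r om0 m0) (g := gt r * De M0 a0 r)
        (l := el a0 om0 m0) one_pos (mul_pos p4 hD) (by rw [u']; linarith) (el_nonneg _ _ _)
      have v5 := Pos.near (y0 := (((M0, a0, r), om0, m0) : Z)) (α := fun _ => 1) (β := fun _ => 0)
        (γ := fun z => -(gt z.1.2.2 * zK z ^ 2) + 2 * G z.1.2.2 * (om0 * z.2.1 + m0 * z.2.2) * zK z)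
        (g := fun z => gt z.1.2.2 * zD z) (u := fun _ => 0) (v := fun _ => 0) (l := zl) hk1
        (by fun_prop) (by fun_prop) (by fun_prop) (by fun_prop) (by fun_prop) (by fun_prop)
        (by fun_prop) P1
      obtain ⟨k2, hk2, v6⟩ : ∃ k, 0 < k ∧ ∀ᶠ z : Z in 𝓝 ((M0, a0, r), om0, m0), ∀ L, zl z ≤ L →
          th ra rb z.1.2.2 * (k * (1 + L)) ≤ th ra rb z.1.2.2 *
            (-(g1 z.1.2.2 * (z.2.1 ^ 2 + z.2.2 ^ 2) * zK z ^ 2) +
              g1 z.1.2.2 * (z.2.1 ^ 2 + z.2.2 ^ 2) * zD z * L) := by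
        rcases p7 with p7 | p7
        · refine ⟨1, one_pos, ((by fun_prop : ContinuousAt (fun z : Z => z.1.2.2) _).eventually
            (Ioo_mem_nhds p7.1 p7.2)).mono fun z hz L _ => ?_⟩
          rw [th_zero ⟨hz.1.le, hz.2.le⟩, zero_mul, zero_mul]
        · obtain ⟨k, hk, P⟩ := posdef (A := 1) (e := 0)
            (Γ := -(g1 r * (om0 ^ 2 + m0 ^ 2) * K a0 r om0 m0 ^ 2))
            (g := g1 r * (om0 ^ 2 + m0 ^ 2) * De M0 a0 r) (l := el a0 om0 m0) one_pos
            (by rw [hu, mul_one]; exact mul_pos p5 hD)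
            (by rw [hu]; linarith [mul_pos p5 (sub_pos.mpr p7)]) (el_nonneg _ _ _)
          refine ⟨k / 2, half_pos hk, (Pos.near (y0 := (((M0, a0, r), om0, m0) : Z))
            (α := fun _ => 1) (β := fun _ => 0)
            (γ := fun z => -(g1 z.1.2.2 * (z.2.1 ^ 2 + z.2.2 ^ 2) * zK z ^ 2))
            (g := fun z => g1 z.1.2.2 * (z.2.1 ^ 2 + z.2.2 ^ 2) * zD z) (u := fun _ => 0)
            (v := fun _ => 0) (l := zl) hk (by fun_prop) (by fun_prop) (by fun_prop) (by fun_prop)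
            (by fun_prop) (by fun_prop) (by fun_prop) P).mono fun z hz L hL => ?_⟩
          have := hz 0 0 L hL (by simpa using (zl_nonneg z).trans hL)
          unfold qf at this
          exact mul_le_mul_of_nonneg_left (by linarith) (th_nonneg _ _ _)
      obtain ⟨c, hc, c1, c2, c3⟩ : ∃ c, 0 < c ∧ c ≤ cA M0 a0 β g r / 2 ∧ c ≤ k1 / 2 ∧ c ≤ k2 :=
        ⟨min (cA M0 a0 β g r / 2) (min (k1 / 2) k2), lt_min (half_pos p3) (lt_min (half_pos hk1) hk2),
          min_le_left _ _, (min_le_right _ _).trans (min_le_left _ _),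
          (min_le_right _ _).trans (min_le_right _ _)⟩
      generalize zD ((M0, a0, r), om0, m0) = D0 at hD v1 v4 eA v2
      have w0 := zW_nonneg ra rb ((M0, a0, r), om0, m0)
      generalize zW ra rb ((M0, a0, r), om0, m0) = W0 at w0 v3
      have x0 : 0 ≤ 2 * (1 + zK ((M0, a0, r), om0, m0) ^ 2) / D0 ^ 2 := by positivity
      generalize 2 * (1 + zK ((M0, a0, r), om0, m0) ^ 2) / D0 ^ 2 = X0 at x0 v4
      refine ⟨c / (2 * D0 * (1 + (X0 + 1) + (W0 + 1) * (X0 + 1))), by positivity, ?_⟩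
      filter_upwards [v0, v1, v2, v3, v4, v5, v6] with z y0 y1 y2 y3 y4 y5 y6 x L hL
      have hL0 := (zl_nonneg z).trans hL
      have hz : 0 < zD z := by linarith [(abs_le.mp y1).1]
      have e := T_id A D.sn D.n0 ht z y0 x L
      rw [p2, mul_zero, mul_zero, zero_mul, zero_mul, sub_zero] at e
      have y7 := y5 0 0 L hL (by simpa using hL0)
      unfold qf at y7
      refine deg_on hz (by linarith [(abs_le.mp y1).2]) hc hL0 (th_nonneg _ _ _) e
        (by linarith [(abs_le.mp y2).1]) ?_ (le_trans ?_ (y6 L hL))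
        ((xi_le hz.ne').trans (mul_le_mul_of_nonneg_right (by linarith [(abs_le.mp y4).2])
          (by positivity))) (by linarith) (by have := (abs_le.mp y3).2; unfold zW at this; linarith)
      · linarith [mul_le_mul_of_nonneg_right c2 (show 0 ≤ 1 + L by linarith)]
      · have := th_nonneg ra rb z.1.2.2
        gcongr
  obtain ⟨c2, hc2, H2⟩ : ∃ c, 0 < c ∧ ∀ᶠ z in 𝓝 (((M0, a0, r), om0, m0) : Z), zD z ≤ 0 →
      ∀ x L, zl z ≤ L → c * (-zD z * x ^ 2 + 1 + L) ≤ zQ (fb βf n) (fc βf ef) z x L := by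
    rcases eq_or_lt_of_le hr.1 with h1 | h1
    · obtain ⟨c, hc, P⟩ := D.Q
      subst h1
      refine ⟨c / 2, half_pos hc, Q_on hb hch hc (De_rp h) ?_⟩
      simpa only [ev, zK, zl, fb, fc, A.c1, A.c3, hu, mul_one, De_rp h, zero_mul, zero_sub,
        neg_neg] using P
    · refine ⟨1, one_pos, ((continuous_const.continuousAt (x := (((M0, a0, r), om0, m0) : Z))).eventually_lt
        c_zD.continuousAt (De_pos h h1)).mono fun z hz hz' => absurd hz (not_lt.mpr hz')⟩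
  obtain ⟨c3, hc3, P⟩ := D.E r hr
  have H3 := E_on (z0 := ((M0, a0, r), om0, m0)) hb hch hmu hf hc3 (by
    simpa only [ev, zD, zK, zl, fb, fc, fm, A.c1, A.c3, hu, mul_one] using P)
  refine ⟨min c1 (min c2 (c3 / 2)), lt_min hc1 (lt_min hc2 (half_pos hc3)), ?_⟩
  filter_upwards [H1, H2, H3] with z y1 y2 y3
  refine ⟨fun x L hL => le_trans (mul_le_mul_of_nonneg_right (min_le_left _ _)
    (NB_nonneg _ _ _ _ ((zl_nonneg z).trans hL))) (y1 x L hL),
    fun hz x L hL => le_trans (mul_le_mul_of_nonneg_right ((min_le_right _ _).trans (min_le_left _ _))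
      (NQ_nonneg hz _ ((zl_nonneg z).trans hL))) (y2 hz x L hL),
    fun x s L hL hs => le_trans (mul_le_mul_of_nonneg_right
      ((min_le_right _ _).trans (min_le_right _ _)) ?_) (y3 x s L hL hs)⟩
  have := (zl_nonneg z).trans hL
  positivity

theorem off_loc (h : |a0| < M0) (hf : Continuous f)
    (D : Dat M0 a0 om0 m0 ra rb ta R2 f β g e G gt g1 q n μ)
    (A : Arc M0 a0 om0 m0 ra rb t2 R1 be gF β g e G gt g1 q βf gf ef) (h0 : rp M0 a0 < ta)
    (ht : ta < t2) (ht' : t2 < ra) (r om m : ℝ) :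
    ∃ c, 0 < c ∧ ∀ᶠ z in 𝓝 (((M0, a0, r), om, m) : Z),
      Off c f ra rb (fb βf n) (fc βf ef) (fh βf gf) (fm μ) z := by
  have hb := hp_fb A.hβ D.sn
  have hch := hp_fc A.hβ A.he
  have hh := hp_fh A.hβ A.hg
  have hmu := hp_fm D.sμ
  obtain ⟨c1, hc1, H1⟩ : ∃ c, 0 < c ∧ ∀ᶠ z in 𝓝 (((M0, a0, r), om, m) : Z),
      ∀ x L, 0 ≤ L → -NB ra rb z x L ≤ c * zB (fb βf n) (fc βf ef) (fh βf gf) z x L := by
    rcases eq_or_lt_of_le (zW_nonneg ra rb ((M0, a0, r), om, m)) with h1 | h1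
    · have p1 : r ∈ Icc ra rb := by
        by_contra hn
        have := th_pos hn
        unfold zW at h1
        linarith [sq_nonneg (zk ((M0, a0, r), om, m))]
      have := c_zD; have := c_zK
      have := A.hβ.cont; have := A.hβ.dr.cont; have := A.hg.cont
      have := D.sG.continuous; have := D.sgt.continuous; have := D.sg1.continuous
      have := D.sq.continuous
      have hD : 0 < zD ((M0, a0, r), om, m) := De_pos h (by linarith [p1.1])
      have v0 : ∀ᶠ z : Z in 𝓝 ((M0, a0, r), om, m), z.1.2.2 ∈ Ioo t2 (rb + 1 / 3) :=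
        (by fun_prop : ContinuousAt (fun z : Z => z.1.2.2) _).eventually
          (Ioo_mem_nhds (by linarith [p1.1]) (by linarith [p1.2]))
      have v1 := near (c_zD.continuousAt (x := ((M0, a0, r), om, m))) (half_pos hD)
      obtain ⟨C1, hC1, v2⟩ := bdd_near (y0 := (((M0, a0, r), om, m) : Z)) (α := fun _ => 0)
        (β := fun _ => 0) (γ := fun z => ev gf z + 2 * zD z * ev (dr βf) z +
          ev βf z * (2 * z.1.2.2 - 2 * z.1.1)) (g := fun _ => 0) (u := fun _ => 0)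
        (v := fun _ => 0) (by fun_prop) (by fun_prop) (by fun_prop) (by fun_prop) (by fun_prop)
        (by fun_prop)
      obtain ⟨C2, hC2, v3⟩ := bdd_near (y0 := (((M0, a0, r), om, m) : Z)) (α := fun _ => 0)
        (β := fun _ => 0) (γ := fun z => -(gt z.1.2.2 * zK z ^ 2) +
          2 * G z.1.2.2 * (om0 * z.2.1 + m0 * z.2.2) * zK z) (g := fun z => gt z.1.2.2 * zD z)
        (u := fun _ => 0) (v := fun _ => 0) (by fun_prop) (by fun_prop) (by fun_prop)
        (by fun_prop) (by fun_prop) (by fun_prop)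
      obtain ⟨C3, hC3, v4⟩ := bdd_near (y0 := (((M0, a0, r), om, m) : Z)) (α := fun _ => 0)
        (β := fun _ => 0) (γ := fun z => -(g1 z.1.2.2 * (z.2.1 ^ 2 + z.2.2 ^ 2) * zK z ^ 2))
        (g := fun z => g1 z.1.2.2 * (z.2.1 ^ 2 + z.2.2 ^ 2) * zD z)
        (u := fun _ => 0) (v := fun _ => 0) (by fun_prop) (by fun_prop) (by fun_prop)
        (by fun_prop) (by fun_prop) (by fun_prop)
      obtain ⟨C4, hC4, v5⟩ := bdd_near (y0 := (((M0, a0, r), om, m) : Z)) (α := fun _ => 0)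
        (β := fun _ => 0) (γ := fun z => zD z * (z.2.1 ^ 2 + z.2.2 ^ 2) * q z.1.2.2)
        (g := fun _ => 0) (u := fun _ => 0) (v := fun _ => 0) (by fun_prop) (by fun_prop)
        (by fun_prop) (by fun_prop) (by fun_prop) (by fun_prop)
      generalize zD ((M0, a0, r), om, m) = D0 at hD v1
      refine ⟨D0 / 2 / (2 * (C1 + C2 + C3 + C4)), by positivity, ?_⟩
      filter_upwards [v0, v1, v2, v3, v4, v5] with z y0 y1 y2 y3 y4 y5 x L hL
      have y2' := y2 0 0 0 (by simp)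
      have y3' := y3 0 0 L (by simpa using hL)
      have y4' := y4 0 0 L (by simpa using hL)
      have y5' := y5 0 0 0 (by simp)
      simp only [qf, mul_zero, zero_mul, add_zero, zero_add, ne_eq, OfNat.ofNat_ne_zero,
        not_false_eq_true, zero_pow, mul_one] at y2' y3' y4' y5'
      have p : 0 ≤ 1 + L := by linarith
      exact deg_off (half_pos hD) (by linarith [(abs_le.mp y1).1]) (by positivity) hL
        (th_nonneg _ _ _) (T_id A D.sn D.n0 ht z y0 x L) (by linarith)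
        (y3'.trans (mul_le_mul_of_nonneg_right (by linarith) p))
        (y4'.trans (mul_le_mul_of_nonneg_right (by linarith) p)) (by linarith)
    · obtain ⟨C, hC, H⟩ := B_bdd hb hch hh ((M0, a0, r), om, m)
      have v := near ((c_zW ra rb).continuousAt (x := ((M0, a0, r), om, m))) (half_pos h1)
      generalize zW ra rb ((M0, a0, r), om, m) = W0 at h1 v
      refine ⟨(C / (W0 / 2))⁻¹, by positivity, ?_⟩
      filter_upwards [H, v] with z y1 y2 x L hL
      refine off_of_abs (by positivity) ((y1 x L hL).trans ?_)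
      have a1 : W0 / 2 * (x ^ 2 + 1 + L) ≤ NB ra rb z x L := by
        have := mul_le_mul_of_nonneg_right (show W0 / 2 ≤ zW ra rb z by linarith [(abs_le.mp y2).1])
          (show 0 ≤ x ^ 2 + 1 + L by positivity)
        unfold NB; linarith [sq_nonneg (zD z * x - zK z)]
      calc C * (x ^ 2 + 1 + L) = C / (W0 / 2) * (W0 / 2 * (x ^ 2 + 1 + L)) := by field_simp
        _ ≤ _ := by gcongr
  obtain ⟨C2, hC2, H2⟩ := Q_bdd hb hch ((M0, a0, r), om, m)
  obtain ⟨C3, hC3, H3⟩ := E_bdd hb hch hmu hf ((M0, a0, r), om, m)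
  have p : 0 < min c1 (min C2⁻¹ C3⁻¹) := lt_min hc1 (lt_min (by positivity) (by positivity))
  refine ⟨_, p, ?_⟩
  filter_upwards [H1, H2, H3] with z y1 y2 y3
  refine ⟨fun x L hL => off_mono p (min_le_left _ _) (NB_nonneg _ _ _ _ hL) (y1 x L hL),
    fun hz x L hL => off_mono p ((min_le_right _ _).trans (min_le_left _ _)) (NQ_nonneg hz _ hL)
      (off_of_abs hC2 (y2 hz x L hL)),
    fun x s L hs => off_mono p ((min_le_right _ _).trans (min_le_right _ _)) ?_
      (off_of_abs hC3 (y3 x s L hs))⟩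
  have := (sq_nonneg s).trans hs
  positivity

end Vale.Agent.P354XH
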