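import Vale.Agent.P354XH.Gb

/-! The package of one direction and the sum over a finite cover. -/

open Set Filter Topology
open scoped ContDiff

namespace Vale.Agent.P354XH

open Vale.Agent.P354BF (De rp)

/-- The unit circle of directions. -/
def Ci : Set (ℝ × ℝ) := {d | d.1 ^ 2 + d.2 ^ 2 = 1}

theorem Ci_compact : IsCompact Ci := by
  refine (isCompact_Icc (a := ((-1, -1) : ℝ × ℝ)) (b := (1, 1))).of_isClosed_subset
    (isClosed_eq (by fun_prop) continuous_const) fun d hd => ?_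
  have hd' : d.1 ^ 2 + d.2 ^ 2 = 1 := hd
  refine ⟨⟨?_, ?_⟩, ⟨?_, ?_⟩⟩ <;> simp only <;> nlinarith [sq_nonneg d.1, sq_nonneg d.2]

/-- The package of one direction. -/
structure Pack (M0 a0 : ℝ) (be gF f : ℝ × ℝ × ℝ → ℝ) (ra R1 R2 : ℝ) (d0 : ℝ × ℝ) (b ch h mu : Fm)
    (c ε y : ℝ) : Prop where
  hb : HP 2 b
  hch : HP 3 ch
  hh : HP 2 h
  hmu : HP 2 mu
  cpos : 0 < c
  epos : 0 < ε
  y0 : 0 < y
  y1 : y < 1
  far : ∀ M a r om m, R1 ≤ r → b M a r om m = (om ^ 2 + m ^ 2) * (De M a r * be (M, a, r)) ∧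
    ch M a r om m = (om ^ 2 + m ^ 2) * (be (M, a, r) * K a r om m + om) ∧
    h M a r om m = (om ^ 2 + m ^ 2) * (gF (M, a, r) + deriv (fun s => De M a s * be (M, a, s)) r)
  ev : ∀ᶠ p : ℝ × ℝ in 𝓝 (M0, a0), ∀ r ∈ Icc (rp M0 a0 - ε) R2, ∀ d ∈ Ci,
    Off c f ra (10 * M0) b ch h mu ((p.1, p.2, r), d) ∧
    (y < (d0.1 * d.1 + d0.2 * d.2) ^ 2 → On c f ra (10 * M0) b ch h mu ((p.1, p.2, r), d))
  gb : ∀ᶠ p : ℝ × ℝ in 𝓝 (M0, a0), ∀ r ∈ Icc (rp M0 a0 - ε) R2, ∀ d ∈ Ci,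
    Gb c ra (10 * M0) b h ((p.1, p.2, r), d)

theorem Pack.mono {M0 a0 : ℝ} {be gF f : ℝ × ℝ × ℝ → ℝ} {ra R1 R2 : ℝ} {d0 : ℝ × ℝ}
    {b ch h mu : Fm} {c ε y c' ε' : ℝ} (P : Pack M0 a0 be gF f ra R1 R2 d0 b ch h mu c ε y)
    (h1 : 0 < c') (h2 : c' ≤ c) (h3 : 0 < ε') (h4 : ε' ≤ ε) :
    Pack M0 a0 be gF f ra R1 R2 d0 b ch h mu c' ε' y :=
  ⟨P.hb, P.hch, P.hh, P.hmu, h1, h3, P.y0, P.y1, P.far, P.ev.mono fun _ hp r hr d hd =>
    have := hp r ⟨by linarith [hr.1], hr.2⟩ d hd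
    ⟨this.1.mono h1 h2, fun hy => (this.2 hy).mono h2⟩,
    P.gb.mono fun _ hp r hr d hd => (hp r ⟨by linarith [hr.1], hr.2⟩ d hd).mono h1 h2⟩

theorem exists_pack {M0 a0 ra R1 R2 : ℝ} {be gF f : ℝ × ℝ × ℝ → ℝ} (h : |a0| < M0) (ha : a0 ≠ 0)
    (hF : Far M0 a0 be gF f R1 R2) (hra : rp M0 a0 < ra)
    (near : ∀ r ∈ Ioc (rp M0 a0) ra, ∀ om m : ℝ, om ^ 2 + m ^ 2 = 1 → ka M0 a0 r om m = 0 →
      K a0 r om m ^ 2 < De M0 a0 r * el a0 om m) (hr2 : ra ≤ 10 * M0) (d0 : ℝ × ℝ) (hd : d0 ∈ Ci) :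
    ∃ b ch h mu c ε y, Pack M0 a0 be gF f ra R1 R2 d0 b ch h mu c ε y := by
  obtain ⟨om0, m0⟩ := d0
  have hu : om0 ^ 2 + m0 ^ 2 = 1 := hd
  have hbig := hF.big
  have hle := hF.le
  have hR : rp M0 a0 ≤ R2 := by linarith
  have t0 : rp M0 a0 < (2 * rp M0 a0 + ra) / 3 := by linarith
  have t1 : (2 * rp M0 a0 + ra) / 3 < (rp M0 a0 + 2 * ra) / 3 := by linarith
  have t2 : (rp M0 a0 + 2 * ra) / 3 < ra := by linarith
  obtain ⟨β, g, e, G, gt, g1, q, n, μ, D, hf⟩ := exists_dat h ha hu hF t0 hra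
    fun r hr => near r hr om0 m0 hu
  obtain ⟨βf, gf, ef, A⟩ := exists_arc hu hF t1 D.toCore hf
  have hb := hp_fb A.hβ D.sn
  have hch := hp_fc A.hβ A.he
  have hh := hp_fh A.hβ A.hg
  have hmu := hp_fm D.sμ
  obtain ⟨c1, hc1, V1, hV1, H1⟩ := glob (isCompact_Icc (a := rp M0 a0) (b := R2))
    (w0 := (((M0, a0), om0, m0) : (ℝ × ℝ) × ℝ × ℝ))
    (P := fun c y => On c f ra (10 * M0) (fb βf n) (fc βf ef) (fh βf gf) (fm μ)
      ((y.2.1.1, y.2.1.2, y.1), y.2.2)) (fun c c' y _ hc H => H.mono hc) fun r hr => by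
      obtain ⟨c, hc, H⟩ := on_loc h hu hF.cf D A t0 t1 t2 hr
      exact ⟨c, hc, (by fun_prop : ContinuousAt (fun y : ℝ × (ℝ × ℝ) × ℝ × ℝ =>
        (((y.2.1.1, y.2.1.2, y.1), y.2.2) : Z)) (r, (M0, a0), om0, m0)).eventually H⟩
  obtain ⟨c2, hc2, V2, hV2, H2⟩ := glob
    ((isCompact_Icc (a := rp M0 a0 - 1) (b := R2)).prod Ci_compact) (w0 := ((M0, a0) : ℝ × ℝ))
    (P := fun c y => Off c f ra (10 * M0) (fb βf n) (fc βf ef) (fh βf gf) (fm μ)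
      ((y.2.1, y.2.2, y.1.1), y.1.2) ∧ Gb c ra (10 * M0) (fb βf n) (fh βf gf)
      ((y.2.1, y.2.2, y.1.1), y.1.2)) (fun c c' y h0 hc H => ⟨H.1.mono h0 hc, H.2.mono h0 hc⟩)
      fun t _ => by
      obtain ⟨c, hc, H⟩ := off_loc h hF.cf D A t0 t1 t2 t.1 t.2.1 t.2.2
      obtain ⟨c', hc', H'⟩ := gb_loc D A t1 t2 t.1 t.2.1 t.2.2
      have p := lt_min hc hc'
      exact ⟨min c c', p, ((by fun_prop : ContinuousAt (fun y : (ℝ × ℝ × ℝ) × ℝ × ℝ =>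
        (((y.2.1, y.2.2, y.1.1), y.1.2) : Z)) (t, M0, a0)).eventually (H.and H')).mono fun _ hz =>
          ⟨hz.1.mono p (min_le_left _ _), hz.2.mono p (min_le_right _ _)⟩⟩
  obtain ⟨ε, hε, hV⟩ := left_of_nhdsSet hR hV1
  rw [nhds_prod_eq, eventually_prod_iff] at H1
  obtain ⟨pa, Ha, pb, Hb, H1⟩ := H1
  obtain ⟨δ, hδ, hb'⟩ := Metric.eventually_nhds_iff.mp Hb
  obtain ⟨t, ht0, ht1, ht2⟩ : ∃ t : ℝ, 0 < t ∧ t < 1 ∧ 2 - 2 * t ≤ δ ^ 2 :=
    ⟨max (1 / 2) (1 - δ ^ 2 / 2), lt_max_of_lt_left (by norm_num),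
      max_lt (by norm_num) (by linarith [pow_pos hδ 2]), by linarith [le_max_right (1 / 2) (1 - δ ^ 2 / 2)]⟩
  have close : ∀ om m : ℝ, om ^ 2 + m ^ 2 = 1 → t < om0 * om + m0 * m → pb (om, m) :=
    fun om m h1 h2 => hb' (by
      rw [Prod.dist_eq, max_lt_iff, Real.dist_eq, Real.dist_eq]
      constructor <;> refine abs_lt_of_sq_lt_sq ?_ hδ.le <;>
        nlinarith [sq_nonneg (om - om0), sq_nonneg (m - m0)])
  refine ⟨fb βf n, fc βf ef, fh βf gf, fm μ, min c1 c2, min ε 1, t ^ 2, hb, hch, hh, hmu,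
    lt_min hc1 hc2, lt_min hε one_pos, by positivity, by nlinarith, fun M a r om m hr => ?_, ?_,
    H2.mono fun p p2 r hr d hd' => (p2 (r, d) (subset_of_mem_nhdsSet hV2
      ⟨⟨by linarith [hr.1, min_le_right ε 1], hr.2⟩, hd'⟩)).2.mono (lt_min hc1 hc2)
        (min_le_right _ _)⟩
  · obtain ⟨e1, e2, e3⟩ := A.far M a r om m (by linarith)
    have sb : ContDiff ℝ ∞ fun r => be (M, a, r) := hF.sb.comp (by fun_prop)
    have e4 : dr βf M a r om m = (om ^ 2 + m ^ 2) * deriv (fun s => be (M, a, s)) r := by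
      have : (fun s => βf M a s om m) =ᶠ[𝓝 r] fun s => (om ^ 2 + m ^ 2) * be (M, a, s) := by
        filter_upwards [Ioi_mem_nhds (show R1 - 1 / 2 < r by linarith)] with s hs
          using (A.far M a s om m hs.le).1
      exact this.deriv_eq.trans ((P354XH.hd sb r).const_mul _).deriv
    have e5 : deriv (fun s => De M a s * be (M, a, s)) r =
        (2 * r - 2 * M) * be (M, a, r) + De M a r * deriv (fun s => be (M, a, s)) r :=
      ((hdDe M a r).mul (P354XH.hd sb r)).deriv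
    simp only [fb, fc, fh, e1, e2, e3, e4, e5, D.n0 r (by linarith)]
    refine ⟨by ring, by ring, by ring⟩
  · filter_upwards [Ha, H2] with p p1 p2 r hr d hd'
    obtain ⟨om, m⟩ := d
    have hr1 : r ∈ V1 := hV ⟨by linarith [hr.1, min_le_left ε 1], hr.2⟩
    refine ⟨(p2 (r, om, m) (subset_of_mem_nhdsSet hV2
      ⟨⟨by linarith [hr.1, min_le_right ε 1], hr.2⟩, hd'⟩)).1.mono (lt_min hc1 hc2) (min_le_right _ _),
      fun hy => On.mono (min_le_left _ _) ?_⟩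
    have hu' : om ^ 2 + m ^ 2 = 1 := hd'
    rcases le_total 0 (om0 * om + m0 * m) with h3 | h3
    · exact H1 p1 (close om m hu' (lt_of_pow_lt_pow_left₀ 2 h3 hy)) r hr1
    · refine On.neg hb hch hh hmu (H1 p1 (close (-om) (-m) (by linarith) ?_) r hr1)
      exact lt_of_pow_lt_pow_left₀ 2 (by linarith) (by simp only at hy; linarith)

theorem polar (om m : ℝ) : ∃ t o n : ℝ, 0 ≤ t ∧ o ^ 2 + n ^ 2 = 1 ∧ om = t * o ∧ m = t * n := by
  rcases eq_or_lt_of_le (show 0 ≤ om ^ 2 + m ^ 2 by positivity) with h | h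
  · exact ⟨0, 1, 0, le_rfl, by simp, by nlinarith [sq_nonneg om, sq_nonneg m],
      by nlinarith [sq_nonneg om, sq_nonneg m]⟩
  · have h1 := Real.sqrt_pos.mpr h
    have h2 := Real.sq_sqrt h.le
    refine ⟨√(om ^ 2 + m ^ 2), om / √(om ^ 2 + m ^ 2), m / √(om ^ 2 + m ^ 2), h1.le, ?_,
      by field_simp, by field_simp⟩
    rw [div_pow, div_pow, h2]; field_simp

theorem fin_min {ι : Type} (J : Finset ι) {c : ι → ℝ} (h : ∀ j ∈ J, 0 < c j) :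
    ∃ c0, 0 < c0 ∧ ∀ j ∈ J, c0 ≤ c j := by
  rcases J.eq_empty_or_nonempty with rfl | hne
  · exact ⟨1, one_pos, by simp⟩
  · obtain ⟨j, hj, H⟩ := J.exists_min_image c hne
    exact ⟨c j, h j hj, H⟩

/-- The sum over a finite cover, on unit directions. -/
theorem unit {M0 a0 ra R1 R2 : ℝ} {be gF f : ℝ × ℝ × ℝ → ℝ}
    (H : ∀ d0 ∈ Ci, ∃ b ch h mu c ε y, Pack M0 a0 be gF f ra R1 R2 d0 b ch h mu c ε y) :
    ∃ (N : ℕ) (b ch h mu : Fm) (S : ℝ → ℝ → ℝ) (c ε : ℝ), HP (2 * N + 2) b ∧ HP (2 * N + 2 + 1) ch ∧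
      HP (2 * N + 2) h ∧ HP (2 * N + 2) mu ∧ HP (2 * N + 2) (fun _ _ _ => S) ∧ 0 < c ∧ 0 < ε ∧
      (∀ d ∈ Ci, 1 ≤ S d.1 d.2) ∧
      (∀ M a r om m, R1 ≤ r → b M a r om m = S om m * (De M a r * be (M, a, r)) ∧
        ch M a r om m = S om m * (be (M, a, r) * K a r om m + om) ∧
        h M a r om m = S om m * (gF (M, a, r) + deriv (fun s => De M a s * be (M, a, s)) r)) ∧
      (∀ᶠ p : ℝ × ℝ in 𝓝 (M0, a0), ∀ r ∈ Icc (rp M0 a0 - ε) R2, ∀ d ∈ Ci,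
        On c f ra (10 * M0) b ch h mu ((p.1, p.2, r), d)) ∧ 1 ≤ N ∧
      ∀ᶠ p : ℝ × ℝ in 𝓝 (M0, a0), ∀ r ∈ Icc (rp M0 a0 - ε) R2, ∀ d ∈ Ci,
        -(S d.1 d.2 * zW ra (10 * M0) ((p.1, p.2, r), d)) ≤
          c * (dr b p.1 p.2 r d.1 d.2 - h p.1 p.2 r d.1 d.2) := by
  choose b ch h mu c ε y P using fun j : Ci => H j.1 j.2
  obtain ⟨J, hJ⟩ := Ci_compact.elim_finite_subcover
    (fun j : Ci => {d : ℝ × ℝ | (1 + y j) / 2 < (j.1.1 * d.1 + j.1.2 * d.2) ^ 2})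
    (fun j => isOpen_lt continuous_const (by fun_prop)) fun d hd => mem_iUnion.mpr ⟨⟨d, hd⟩, by
      have h1 : d.1 * d.1 + d.2 * d.2 = 1 := by have : d.1 ^ 2 + d.2 ^ 2 = 1 := hd
                                                linarith
      have := (P ⟨d, hd⟩).y1
      simp only [mem_ofPred_eq, h1]; linarith⟩
  obtain ⟨c0, hc0, c1⟩ := fin_min J fun j _ => (P j).cpos
  obtain ⟨ε0, hε0, e1⟩ := fin_min J fun j _ => (P j).epos
  have τ0 : ∀ j, 0 < (1 + y j) / 2 := fun j => by linarith [(P j).y0]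
  obtain ⟨η, hη, η1⟩ : ∃ η : ℝ, 0 < η ∧ J.card * η ≤ c0 ^ 2 / 2 := by
    refine ⟨c0 ^ 2 / 2 / (J.card + 1), by positivity, ?_⟩
    rw [← mul_div_assoc, div_le_iff₀ (by positivity)]
    nlinarith [pow_pos hc0 2]
  obtain ⟨N, hN, hN1⟩ := (((Filter.eventually_all_finset J).mpr fun j _ =>
    (tendsto_pow_atTop_nhds_zero_of_lt_one (div_nonneg (P j).y0.le (τ0 j).le)
      ((div_lt_one (τ0 j)).mpr (by linarith [(P j).y1]))).eventually (ge_mem_nhds hη)).and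
      (eventually_ge_atTop 1)).exists
  obtain ⟨q, hq⟩ : ∃ q : Ci → ℝ → ℝ → ℝ,
    q = fun j om m => ((j.1.1 * om + j.1.2 * m) ^ 2 / ((1 + y j) / 2)) ^ N := ⟨_, rfl⟩
  have hpq : ∀ j, HP (2 * N) fun _ _ _ => q j := fun j =>
    ((((HP.lin j.1.1 j.1.2).pow 2).smul (k := fun _ => ((1 + y j) / 2)⁻¹) contDiff_const).pow N).congr
      fun M a r om m => by rw [hq, mul_comm, ← div_eq_mul_inv]
  have q0 : ∀ j om m, 0 ≤ q j om m := fun j om m => by have := τ0 j; rw [hq]; positivity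
  have cov : ∀ d ∈ Ci, ∃ j ∈ J, 1 ≤ q j d.1 d.2 ∧ y j < (j.1.1 * d.1 + j.1.2 * d.2) ^ 2 :=
    fun d hd => by
      obtain ⟨j, hj, h1⟩ := mem_iUnion₂.mp (hJ hd)
      have h2 : (1 + y j) / 2 < (j.1.1 * d.1 + j.1.2 * d.2) ^ 2 := h1
      refine ⟨j, hj, ?_, by linarith [(P j).y1]⟩
      rw [hq]; exact one_le_pow₀ ((one_le_div (τ0 j)).mpr h2.le)
  have sm : ∀ j ∈ J, ∀ d : ℝ × ℝ, ¬y j < (j.1.1 * d.1 + j.1.2 * d.2) ^ 2 → q j d.1 d.2 ≤ η :=
    fun j hj d hd => by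
      refine le_trans ?_ (hN j hj)
      have := τ0 j
      rw [hq]; simp only; gcongr; exact not_lt.mp hd
  refine ⟨N, cmb J q b, cmb J q ch, cmb J q h, cmb J q mu,
    fun om m => ∑ j ∈ J, q j om m * (om ^ 2 + m ^ 2), c0 / 2, ε0,
    HP.sum J fun j _ => (hpq j).mul (P j).hb, HP.sum J fun j _ => (hpq j).mul (P j).hch,
    HP.sum J fun j _ => (hpq j).mul (P j).hh, HP.sum J fun j _ => (hpq j).mul (P j).hmu,
    HP.sum J fun j _ => (hpq j).mul HP.lam, half_pos hc0, hε0, fun d hd => ?_,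
    fun M a r om m hr => ?_, ?_, hN1, ?_⟩
  · obtain ⟨j, hj, h1, -⟩ := cov d hd
    have hd' : d.1 ^ 2 + d.2 ^ 2 = 1 := hd
    simp only [hd', mul_one]
    exact h1.trans (Finset.single_le_sum (f := fun j => q j d.1 d.2) (fun j _ => q0 j _ _) hj)
  · simp only [cmb, Finset.sum_mul]
    refine ⟨?_, ?_, ?_⟩ <;> refine Finset.sum_congr rfl fun j _ => ?_
    · rw [((P j).far M a r om m hr).1]; ring
    · rw [((P j).far M a r om m hr).2.1]; ring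
    · rw [((P j).far M a r om m hr).2.2]; ring
  · filter_upwards [(Filter.eventually_all_finset J).mpr fun j hj =>
      ((P j).mono hc0 (c1 j hj) hε0 (e1 j hj)).ev] with p hp r hr d hd
    obtain ⟨j0, hj0, h1, h2⟩ := cov d hd
    have on0 := (hp j0 hj0 r hr d hd).2 h2
    refine ⟨fun x L hL => ?_, fun hz x L hL => ?_, fun x s L hL hs => ?_⟩
    · have hL0 := (zl_nonneg _).trans hL
      rw [zB, Bk_cmb (fun j => (P j).hb) fun j => (P j).hch]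
      refine sum_pos (NB_nonneg _ _ _ _ hL0) hc0 hη.le (fun j _ => q0 j _ _) (fun j hj => ?_) hj0 h1
        (on0.1 x L hL) η1
      by_cases h3 : y j < (j.1.1 * d.1 + j.1.2 * d.2) ^ 2
      · exact Or.inl (((hp j hj r hr d hd).2 h3).1 x L hL)
      · exact Or.inr ⟨sm j hj d h3, (hp j hj r hr d hd).1.1 x L hL0⟩
    · have hL0 := (zl_nonneg _).trans hL
      rw [zQ, Qf_cmb]
      refine sum_pos (NQ_nonneg hz _ hL0) hc0 hη.le (fun j _ => q0 j _ _) (fun j hj => ?_) hj0 h1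
        (on0.2.1 hz x L hL) η1
      by_cases h3 : y j < (j.1.1 * d.1 + j.1.2 * d.2) ^ 2
      · exact Or.inl (((hp j hj r hr d hd).2 h3).2.1 hz x L hL)
      · exact Or.inr ⟨sm j hj d h3, (hp j hj r hr d hd).1.2.1 hz x L hL0⟩
    · have hL0 := (zl_nonneg _).trans hL
      rw [zE, En_cmb]
      refine sum_pos (by positivity) hc0 hη.le (fun j _ => q0 j _ _) (fun j hj => ?_) hj0 h1
        (on0.2.2 x s L hL hs) η1
      by_cases h3 : y j < (j.1.1 * d.1 + j.1.2 * d.2) ^ 2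
      · exact Or.inl (((hp j hj r hr d hd).2 h3).2.2 x s L hL hs)
      · exact Or.inr ⟨sm j hj d h3, (hp j hj r hr d hd).1.2.2 x s L hs⟩
  · filter_upwards [(Filter.eventually_all_finset J).mpr fun j hj =>
      ((P j).mono (half_pos hc0) ((half_le_self hc0.le).trans (c1 j hj)) hε0 (e1 j hj)).gb]
      with p hp r hr d hd
    have hd' : d.1 ^ 2 + d.2 ^ 2 = 1 := hd
    rw [dr_cmb fun j => (P j).hb]
    simp only [cmb, hd', mul_one]
    rw [← Finset.sum_sub_distrib, Finset.mul_sum, Finset.sum_mul, ← Finset.sum_neg_distrib]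
    refine Finset.sum_le_sum fun j hj => ?_
    have := mul_le_mul_of_nonneg_left (hp j hj r hr d hd) (q0 j d.1 d.2)
    simp only [ev] at this
    linarith

end Vale.Agent.P354XH
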