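import Vale.Agent.P354XH.HP

/-! Positive forms: openness, bounds and compactness. -/

open Set Filter Topology

namespace Vale.Agent.P354XH

/-- The general form in (x, s, L). -/
def qf (α β γ g u v x s L : ℝ) : ℝ := α * x ^ 2 + 2 * β * x + γ + g * L + s * (u * x + v)

/-- Positivity with the constant c. -/
def Pos (c α β γ g u v l : ℝ) : Prop :=
  ∀ x s L : ℝ, l ≤ L → s ^ 2 ≤ L → c * (x ^ 2 + 1 + L) ≤ qf α β γ g u v x s L

theorem qf_abs {α β γ g u v x s L A : ℝ} (h1 : |α| ≤ A) (h2 : |β| ≤ A) (h3 : |γ| ≤ A)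
    (h4 : |g| ≤ A) (h5 : |u| ≤ A) (h6 : |v| ≤ A) (hs : s ^ 2 ≤ L) :
    |qf α β γ g u v x s L| ≤ 3 * A * (x ^ 2 + 1 + L) := by
  have hL : 0 ≤ L := (sq_nonneg s).trans hs
  have hA : 0 ≤ A := (abs_nonneg _).trans h1
  have e1 : |α * x ^ 2| ≤ A * x ^ 2 := by
    rw [abs_mul, abs_of_nonneg (sq_nonneg x)]; gcongr
  have e2 : |2 * β * x| ≤ A * (x ^ 2 + 1) := by
    have : 2 * |x| ≤ x ^ 2 + 1 := by nlinarith [sq_nonneg (|x| - 1), sq_abs x]
    calc |2 * β * x| = |β| * (2 * |x|) := by rw [abs_mul, abs_mul, abs_two]; ring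
      _ ≤ A * (x ^ 2 + 1) := by gcongr
  have e4 : |g * L| ≤ A * L := by rw [abs_mul, abs_of_nonneg hL]; gcongr
  have e5 : |s * (u * x)| ≤ A * ((L + x ^ 2) / 2) := by
    have : |s| * |x| ≤ (L + x ^ 2) / 2 := by
      nlinarith [sq_nonneg (|s| - |x|), sq_abs x, sq_abs s]
    calc |s * (u * x)| = |u| * (|s| * |x|) := by rw [abs_mul, abs_mul]; ring
      _ ≤ A * ((L + x ^ 2) / 2) := by gcongr
  have e6 : |s * v| ≤ A * ((L + 1) / 2) := by
    have : |s| ≤ (L + 1) / 2 := by nlinarith [sq_nonneg (|s| - 1), sq_abs s]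
    calc |s * v| = |v| * |s| := by rw [abs_mul]; ring
      _ ≤ A * ((L + 1) / 2) := by gcongr
  have := abs_le.mp e1; have := abs_le.mp e2; have := abs_le.mp h3; have := abs_le.mp e4
  have := abs_le.mp e5; have := abs_le.mp e6
  have := mul_nonneg hA hL; have := mul_nonneg hA (sq_nonneg x)
  unfold qf
  rw [abs_le]
  constructor <;> nlinarith

theorem Pos.mono {c c' α β γ g u v l : ℝ} (h : Pos c α β γ g u v l) (hc : c' ≤ c) :
    Pos c' α β γ g u v l := fun x s L h1 h2 =>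
  le_trans (mul_le_mul_of_nonneg_right hc (by nlinarith [sq_nonneg x, sq_nonneg s])) (h x s L h1 h2)

theorem near {Y : Type} [TopologicalSpace Y] {y0 : Y} {f : Y → ℝ} (hf : ContinuousAt f y0)
    {ε : ℝ} (hε : 0 < ε) : ∀ᶠ y in 𝓝 y0, |f y - f y0| ≤ ε := by
  have := Metric.tendsto_nhds.mp hf ε hε
  exact this.mono fun y hy => by rw [Real.dist_eq] at hy; exact hy.le

theorem Pos.near {Y : Type} [TopologicalSpace Y] {y0 : Y} {α β γ g u v l : Y → ℝ} {c : ℝ}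
    (hc : 0 < c) (h1 : ContinuousAt α y0) (h2 : ContinuousAt β y0) (h3 : ContinuousAt γ y0)
    (h4 : ContinuousAt g y0) (h5 : ContinuousAt u y0) (h6 : ContinuousAt v y0)
    (h7 : ContinuousAt l y0) (h : Pos c (α y0) (β y0) (γ y0) (g y0) (u y0) (v y0) (l y0)) :
    ∀ᶠ y in 𝓝 y0, Pos (c / 2) (α y) (β y) (γ y) (g y) (u y) (v y) (l y) := by
  have hg := abs_nonneg (g y0)
  obtain ⟨ε, hε, he⟩ : ∃ ε : ℝ, 0 < ε ∧ ε * (3 + |g y0|) = c / 2 :=
    ⟨c / 2 / (3 + |g y0|), by positivity, by field_simp⟩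
  filter_upwards [P354XH.near h1 hε, P354XH.near h2 hε, P354XH.near h3 hε, P354XH.near h4 hε,
    P354XH.near h5 hε, P354XH.near h6 hε, P354XH.near h7 hε] with y e1 e2 e3 e4 e5 e6 e7
  intro x s L hl hs
  have hL : 0 ≤ L := (sq_nonneg s).trans hs
  have a1 := h x s (L + ε) (by linarith [(abs_le.mp e7).1]) (by linarith)
  have a2 := (abs_le.mp (qf_abs (x := x) e1 e2 e3 e4 e5 e6 hs)).1
  have a3 : g y0 * ε ≤ ε * |g y0| * (x ^ 2 + 1 + L) := by
    have : g y0 * ε ≤ ε * |g y0| := by rw [mul_comm]; gcongr; exact le_abs_self _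
    have h' : 0 ≤ ε * |g y0| := by positivity
    nlinarith [sq_nonneg x, mul_nonneg h' hL, mul_nonneg h' (sq_nonneg x)]
  have a4 : c / 2 * (x ^ 2 + 1 + L) =
      3 * ε * (x ^ 2 + 1 + L) + ε * |g y0| * (x ^ 2 + 1 + L) := by rw [← he]; ring
  have a5 : 0 ≤ c * ε := by positivity
  unfold qf at *
  nlinarith

theorem bdd_near {Y : Type} [TopologicalSpace Y] {y0 : Y} {α β γ g u v : Y → ℝ}
    (h1 : ContinuousAt α y0) (h2 : ContinuousAt β y0) (h3 : ContinuousAt γ y0)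
    (h4 : ContinuousAt g y0) (h5 : ContinuousAt u y0) (h6 : ContinuousAt v y0) :
    ∃ C : ℝ, 0 < C ∧ ∀ᶠ y in 𝓝 y0, ∀ x s L : ℝ, s ^ 2 ≤ L →
      |qf (α y) (β y) (γ y) (g y) (u y) (v y) x s L| ≤ C * (x ^ 2 + 1 + L) := by
  obtain ⟨A, hA⟩ : ∃ A : ℝ, A = |α y0| + |β y0| + |γ y0| + |g y0| + |u y0| + |v y0| + 1 := ⟨_, rfl⟩
  have := abs_nonneg (α y0); have := abs_nonneg (β y0); have := abs_nonneg (γ y0)
  have := abs_nonneg (g y0); have := abs_nonneg (u y0); have := abs_nonneg (v y0)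
  have key : ∀ p q : ℝ, |p - q| ≤ 1 → |p| ≤ |q| + 1 := fun p q h => by
    have := abs_sub_abs_le_abs_sub p q; linarith
  refine ⟨3 * A, by linarith, ?_⟩
  filter_upwards [near h1 one_pos, near h2 one_pos, near h3 one_pos, near h4 one_pos,
    near h5 one_pos, near h6 one_pos] with y e1 e2 e3 e4 e5 e6 x s L hs
  have := key _ _ e1; have := key _ _ e2; have := key _ _ e3; have := key _ _ e4
  have := key _ _ e5; have := key _ _ e6
  exact qf_abs (by linarith) (by linarith) (by linarith) (by linarith) (by linarith)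
    (by linarith) hs

/-- From local constants to one constant on a compact set. -/
theorem glob {T W : Type} [TopologicalSpace T] [TopologicalSpace W] {A : Set T}
    (hA : IsCompact A) {w0 : W} {P : ℝ → T × W → Prop}
    (hm : ∀ c c' y, 0 < c' → c' ≤ c → P c y → P c' y)
    (h : ∀ t ∈ A, ∃ c, 0 < c ∧ ∀ᶠ y in 𝓝 (t, w0), P c y) :
    ∃ c, 0 < c ∧ ∃ V ∈ 𝓝ˢ A, ∀ᶠ w in 𝓝 w0, ∀ t ∈ V, P c (t, w) := by
  refine hA.induction_on (p := fun s => ∃ c, 0 < c ∧ ∃ V ∈ 𝓝ˢ s, ∀ᶠ w in 𝓝 w0, ∀ t ∈ V, P c (t, w))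
    ⟨1, one_pos, ∅, by simp, by simp⟩ ?_ ?_ ?_
  · rintro s t hst ⟨c, hc, V, hV, hP⟩
    exact ⟨c, hc, V, nhdsSet_mono hst hV, hP⟩
  · rintro s t ⟨c, hc, V, hV, hP⟩ ⟨c', hc', V', hV', hP'⟩
    refine ⟨min c c', lt_min hc hc', V ∪ V', union_mem_nhdsSet hV hV', ?_⟩
    filter_upwards [hP, hP'] with w h1 h2 t ht
    rcases ht with ht | ht
    · exact hm _ _ _ (lt_min hc hc') (min_le_left _ _) (h1 t ht)
    · exact hm _ _ _ (lt_min hc hc') (min_le_right _ _) (h2 t ht)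
  · intro t ht
    obtain ⟨c, hc, hP⟩ := h t ht
    rw [nhds_prod_eq, eventually_prod_iff] at hP
    obtain ⟨pa, ha, pb, hb, hP⟩ := hP
    obtain ⟨U, hU, hUo, htU⟩ := mem_nhds_iff.mp ha
    refine ⟨U, mem_nhdsWithin_of_mem_nhds (hUo.mem_nhds htU), c, hc, U,
      hUo.mem_nhdsSet_self, hb.mono fun w hw t' ht' => hP (hU ht') hw⟩

theorem left_of_nhdsSet {x y : ℝ} (hxy : x ≤ y) {V : Set ℝ} (hV : V ∈ 𝓝ˢ (Icc x y)) :
    ∃ ε, 0 < ε ∧ Icc (x - ε) y ⊆ V := by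
  have h1 : V ∈ 𝓝 x := mem_nhdsSet_iff_forall.mp hV x ⟨le_rfl, hxy⟩
  obtain ⟨ε, hε, hb⟩ := Metric.mem_nhds_iff.mp h1
  refine ⟨ε / 2, by positivity, fun r hr => ?_⟩
  rcases le_total x r with h | h
  · exact subset_of_mem_nhdsSet hV ⟨h, hr.2⟩
  · exact hb (by rw [Metric.mem_ball, Real.dist_eq, abs_lt]; constructor <;> linarith [hr.1])

/-- A positive continuous function has a positive lower bound on a compact set. -/
theorem lower {T : Type} [TopologicalSpace T] {A : Set T} (hA : IsCompact A) {f : T → ℝ}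
    (hf : ContinuousOn f A) (hp : ∀ t ∈ A, 0 < f t) : ∃ c, 0 < c ∧ ∀ t ∈ A, c ≤ f t := by
  rcases A.eq_empty_or_nonempty with rfl | hne
  · exact ⟨1, one_pos, by simp⟩
  · obtain ⟨t, ht, hmin⟩ := hA.exists_isMinOn hne hf
    exact ⟨f t, hp t ht, fun s hs => hmin hs⟩

theorem upper {T : Type} [TopologicalSpace T] {A : Set T} (hA : IsCompact A) {f : T → ℝ}
    (hf : ContinuousOn f A) : ∃ C, 0 < C ∧ ∀ t ∈ A, |f t| ≤ C := by
  obtain ⟨C, hC⟩ := hA.exists_bound_of_continuousOn hf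
  exact ⟨max C 1, lt_max_of_lt_right one_pos, fun t ht => (hC t ht).trans (le_max_left _ _)⟩

end Vale.Agent.P354XH
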