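import Vale.Agent.P354XH.DirN
import Vale.Agent.P354XH.Ene

/-! The red shift term and the Lagrangian of the energy, in one direction. -/

open Set Filter Topology
open scoped ContDiff

namespace Vale.Agent.P354XH

open Vale.Agent.P354BF (De rp)

variable {M a om m : ℝ}

/-- Positivity of the bulk from the values of b, b', ch', h. -/
def PBv (c D D' K K' b b' ch' h l : ℝ) : Prop :=
  Pos c (b' * D - b * D' + h * D) (b * K' - h * K - ch' * D) (2 * ch' * K) (h - b') 0 0 l

/-- Positivity of the energy from the values. -/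
def PEv (c D K W f a b ch μ l : ℝ) : Prop :=
  Pos c (-(b * (W - f * D)) + μ * D) ((ch * (W - f * D) - b * f * K) / 2 - μ * K)
    (ch * f * K) μ (a * b) (-(a * ch)) l

theorem pb_hor {c D D' K K' β β' g e' A n n' C l : ℝ} (hA : D * A = g + 2 * D * β' + β * D')
    (P : Pos c A (-e') (2 * K * (β' * K + β * K') - A * K ^ 2) g 0 0 l) (hD : 0 ≤ D)
    (hD' : 0 < D') (hn : 0 < n) (hn' : n' ≤ 0) (h1 : n * (2 * K' ^ 2 / D') ≤ C) (h2 : -n' ≤ C)
    (hC : C < c) : ∃ c', 0 < c' ∧ PBv c' D D' K K' (D * β - n) (D' * β + D * β' - n')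
      (β' * K + β * K' + e') (g + (D' * β + D * β')) l := by
  refine ⟨min (c - C) (n * D' / 2), lt_min (by linarith) (by positivity), fun x s L a1 a2 => ?_⟩
  have hL : 0 ≤ L := (sq_nonneg s).trans a2
  have m1 := min_le_left (c - C) (n * D' / 2)
  have m2 := min_le_right (c - C) (n * D' / 2)
  generalize min (c - C) (n * D' / 2) = c' at *
  have b1 := P (D * x - K) s L a1 a2
  have b2 : 0 ≤ n * (D' * x ^ 2 / 2 - 2 * K' * x + 2 * K' ^ 2 / D') := by
    have : D' * x ^ 2 / 2 - 2 * K' * x + 2 * K' ^ 2 / D' = (D' * x - 2 * K') ^ 2 / (2 * D') := by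
      field_simp; ring
    rw [this]; positivity
  have b3 := mul_le_mul_of_nonneg_right m2 (sq_nonneg x)
  have b4 := mul_le_mul_of_nonneg_right m1 hL
  have b5 := mul_le_mul_of_nonneg_right h2 hL
  have b6 : 0 ≤ -n' * D * x ^ 2 := by have := neg_nonneg.mpr hn'; positivity
  have b7 : 0 ≤ c * (D * x - K) ^ 2 := by have : 0 ≤ c := by linarith
                                          positivity
  have b8 := congrArg (· * (D * x ^ 2 - 2 * K * x)) hA
  unfold qf at *
  linarith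

theorem pb_mid {c D D' K K' β β' g e' k l : ℝ} (hc : 0 < c) (hD : 0 < D)
    (hk : 2 * k + D' * K = 2 * K' * D)
    (P : Pos c (g + 2 * D * β' + β * D') (-(D * e')) (-(g * K ^ 2) + 2 * β * K * k) (g * D) 0 0 l) :
    ∃ c', 0 < c' ∧ PBv c' D D' K K' (D * β - 0) (D' * β + D * β' - 0)
      (β' * K + β * K' + e') (g + (D' * β + D * β')) l := by
  obtain ⟨C, hC⟩ : ∃ C, C = 2 * (1 + K ^ 2) / D ^ 2 := ⟨_, rfl⟩
  have hC0 : 0 ≤ C := by rw [hC]; positivity
  obtain ⟨c', hc', e⟩ : ∃ c' : ℝ, 0 < c' ∧ c' * (D * (1 + C)) = c :=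
    ⟨c / (D * (1 + C)), by positivity, by field_simp⟩
  refine ⟨c', hc', fun x s L a1 a2 => ?_⟩
  have hL : 0 ≤ L := (sq_nonneg s).trans a2
  have b1 := P (D * x - K) s L a1 a2
  have b2 := xi_le (K := K) (x := x) hD.ne'
  rw [← hC] at b2
  refine le_of_mul_le_mul_left ?_ hD
  have b3 : D * (c' * (x ^ 2 + 1 + L)) ≤ c * ((D * x - K) ^ 2 + 1 + L) := by
    have : x ^ 2 + 1 + L ≤ (1 + C) * ((D * x - K) ^ 2 + 1 + L) := by
      nlinarith [sq_nonneg (D * x - K), mul_nonneg hC0 hL]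
    calc D * (c' * (x ^ 2 + 1 + L)) ≤ D * (c' * ((1 + C) * ((D * x - K) ^ 2 + 1 + L))) := by gcongr
      _ = _ := by rw [← e]; ring
  have b8 := congrArg (· * (β * K)) hk
  unfold qf at *
  linarith

structure Dat (M a om m ra rb ta R : ℝ) (f : ℝ × ℝ × ℝ → ℝ) (β g e G gt g1 q n μ : ℝ → ℝ) : Prop
    extends Core M a om m ra rb ta R β g e G gt g1 q where
  sn : ContDiff ℝ ∞ n
  sμ : ContDiff ℝ ∞ μ
  n0 : ∀ r, ta ≤ r → n r = 0
  B : ∀ r ∈ Icc (rp M a) R, (∃ c, 0 < c ∧ PBv c (De M a r) (2 * r - 2 * M) (K a r om m)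
    (2 * r * om) (De M a r * β r - n r) ((2 * r - 2 * M) * β r + De M a r * deriv β r - deriv n r)
    (deriv β r * K a r om m + β r * (2 * r * om) + deriv e r)
    (g r + ((2 * r - 2 * M) * β r + De M a r * deriv β r)) (el a om m)) ∨
    Deg M a om m ra rb β g G gt g1 q r
  Q : ∃ c, 0 < c ∧ Pos c (n (rp M a)) 0
    (2 * (β (rp M a) * K a (rp M a) om m + e (rp M a)) * K a (rp M a) om m) (n (rp M a)) 0 0
    (el a om m)
  E : ∀ r ∈ Icc (rp M a) R, ∃ c, 0 < c ∧ PEv c (De M a r) (K a r om m) (r ^ 2 + a ^ 2)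
    (f (M, a, r)) a (De M a r * β r - n r) (β r * K a r om m + e r) (μ r) (el a om m)

theorem shift {ra rb ta R : ℝ} {β g e G gt g1 q : ℝ → ℝ} (h : |a| < M) (hta : rp M a < ta)
    (C : Core M a om m ra rb ta R β g e G gt g1 q) : ∃ n : ℝ → ℝ, ContDiff ℝ ∞ n ∧
      (∀ r, ta ≤ r → n r = 0) ∧ (∀ r, 0 ≤ n r) ∧ 0 < n (rp M a) ∧
      ∀ r ∈ Icc (rp M a) R, (∃ c, 0 < c ∧ PBv c (De M a r) (2 * r - 2 * M) (K a r om m)
      (2 * r * om) (De M a r * β r - n r) ((2 * r - 2 * M) * β r + De M a r * deriv β r - deriv n r)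
      (deriv β r * K a r om m + β r * (2 * r * om) + deriv e r)
      (g r + ((2 * r - 2 * M) * β r + De M a r * deriv β r)) (el a om m)) ∨
      Deg M a om m ra rb β g G gt g1 q r := by
  have h1 := rp_gt h
  obtain ⟨A, cA', eA, c, hc, P⟩ := C.hor
  have cK' := (cK a om m).continuous
  have cβ := C.sβ.continuous
  have cβ' := cd C.sβ
  have ce := cd C.se
  have cg := C.sg.continuous
  have ev := (Pos.near (y0 := rp M a) (α := A) (β := fun r => -deriv e r)
    (γ := fun r => 2 * K a r om m * (deriv β r * K a r om m + β r * (2 * r * om)) -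
      A r * K a r om m ^ 2) (g := g) (u := fun _ => 0) (v := fun _ => 0)
    (l := fun _ => el a om m) hc cA' (by fun_prop) (by fun_prop) (by fun_prop) (by fun_prop)
    (by fun_prop) (by fun_prop) P).and (eA.and (Iio_mem_nhds hta))
  obtain ⟨ε, hε, hb⟩ := Metric.eventually_nhds_iff.mp ev
  have hb' : ∀ r ∈ Icc (rp M a) (rp M a + ε / 2), _ := fun r hr => hb (y := r) (by
    rw [Real.dist_eq, abs_lt]; constructor <;> linarith [hr.1, hr.2])
  obtain ⟨k, sk, k0, k1, kn, kl, kd, klt⟩ := step (x := rp M a + ε / 4) (y := rp M a + ε / 2)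
    (by linarith)
  have cI := isCompact_Icc (a := rp M a) (b := rp M a + ε / 2)
  obtain ⟨C1, hC1, b1⟩ := upper cI (f := fun r => 2 * (2 * r * om) ^ 2 / (2 * r - 2 * M))
    (ContinuousOn.div (by fun_prop) (by fun_prop) fun r hr => by linarith [hr.1])
  obtain ⟨C2, hC2, b2⟩ := upper cI (cd sk).continuousOn
  obtain ⟨δ, hδ, hd'⟩ := small (add_pos hC1 hC2) (half_pos hc)
  have dn : ∀ r, deriv (fun r => δ * (1 - k r)) r = -(δ * deriv k r) := fun r => by
    simp
  have lt : rp M a + ε / 2 < ta := (hb' _ ⟨by linarith, le_rfl⟩).2.2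
  refine ⟨fun r => δ * (1 - k r), contDiff_const.mul (contDiff_const.sub sk),
    fun r hr => by simp [k1 r (by linarith)],
    fun r => mul_nonneg hδ.le (sub_nonneg.mpr (kl r)),
    mul_pos hδ (sub_pos.mpr (klt _ (by linarith))), fun r hr => ?_⟩
  rcases lt_or_ge r (rp M a + ε / 2) with h2 | h2
  · have hr' : r ∈ Icc (rp M a) (rp M a + ε / 2) := ⟨hr.1, h2.le⟩
    obtain ⟨p1, p2, -⟩ := hb' r hr'
    have q1 := (le_abs_self _).trans (b1 r hr')
    have q2 := (le_abs_self _).trans (b2 r hr')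
    have q0 : 0 < 2 * r - 2 * M := by linarith [hr.1]
    refine Or.inl (pb_hor (C := δ * (C1 + C2)) p2 p1 (De_nonneg h hr.1) q0
      (mul_pos hδ (sub_pos.mpr (klt r h2))) ?_ ?_ ?_ hd')
    · rw [dn]; exact neg_nonpos.mpr (mul_nonneg hδ.le (kd r))
    · have : 0 ≤ 2 * (2 * r * om) ^ 2 / (2 * r - 2 * M) := by positivity
      rw [mul_assoc]
      refine mul_le_mul_of_nonneg_left ?_ hδ.le
      nlinarith [mul_nonneg (kn r) this]
    · rw [dn, neg_neg]; exact mul_le_mul_of_nonneg_left (by linarith) hδ.le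
  · have h3 : rp M a < r := by linarith
    rcases C.mid r ⟨h3, hr.2⟩ with ⟨c', hc', P'⟩ | h4
    · have d0 : deriv k r = 0 :=
        IsLocalMax.deriv_eq_zero (Eventually.of_forall fun s => by rw [k1 r h2]; exact kl s)
      left
      simp only [dn, d0, k1 r h2, sub_self, mul_zero, neg_zero]
      exact pb_mid hc' (De_pos h h3) (by linear_combination 2 * ka_K M a r om m) P'
    · exact Or.inr h4

theorem dat {ra rb ta R1 R2 : ℝ} {β g e G gt g1 q : ℝ → ℝ} {be gF f : ℝ × ℝ × ℝ → ℝ}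
    (h : |a| < M) (hu : om ^ 2 + m ^ 2 = 1) (hF : Far M a be gF f R1 R2) (hta : rp M a < ta)
    (C : Core M a om m ra rb ta R2 β g e G gt g1 q) :
    ∃ n μ, Dat M a om m ra rb ta R2 f β g e G gt g1 q n μ := by
  have h1 := rp_gt h
  have hM := M_pos h
  have hl := el_nonneg a om m
  obtain ⟨n, sn, n0, nn, np, hB⟩ := shift h hta C
  have tl : ∀ r ∈ Icc (rp M a) R2, De M a r * el a om m ≤ K a r om m ^ 2 → K a r om m ≠ 0 →
      0 < (β r * K a r om m + e r) * K a r om m ∧
      0 < e r * K a r om m - β r * K a r om m ^ 2 := fun r hr h2 h3 => by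
    have := C.tl r hr h2 h3
    have a1 := mul_le_mul_of_nonneg_right (le_abs_self (β r)) (sq_nonneg (K a r om m))
    have a2 := mul_le_mul_of_nonneg_right (neg_abs_le (β r)) (sq_nonneg (K a r om m))
    constructor <;> linarith
  have lp : ∀ r, rp M a ≤ r → K a r om m = 0 → 0 < el a om m := fun r hr hK =>
    el_pos (r := r) hu (by linarith) (by rw [hK, mul_zero])
  have loc : ∀ r ∈ Icc (rp M a) R2, ∃ μ c, 0 < c ∧ PEv c (De M a r) (K a r om m) (r ^ 2 + a ^ 2)
      (f (M, a, r)) a (De M a r * β r - n r) (β r * K a r om m + e r) μ (el a om m) := by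
    intro r hr
    obtain ⟨f1, f2⟩ := hF.slope r hr
    have tm : De M a r * el a om m ≤ K a r om m ^ 2 → K a r om m ≠ 0 →
        (0 < De M a r ∨ 0 < n r) → ∃ μ c, 0 < c ∧ PEv c (De M a r) (K a r om m) (r ^ 2 + a ^ 2)
        (f (M, a, r)) a (De M a r * β r - n r) (β r * K a r om m + e r) μ (el a om m) :=
      fun h2 h3 h4 => by
        obtain ⟨t1, t2⟩ := tl r hr h2 h3
        have hK2 : 0 < K a r om m ^ 2 := by positivity
        refine ene_time h3 f1 f2 t1 ?_
        rcases h4 with h4 | h4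
        · linarith [mul_pos h4 t2, mul_nonneg (nn r) hK2.le]
        · linarith [mul_nonneg (De_nonneg h hr.1) t2.le, mul_pos h4 hK2]
    rcases eq_or_lt_of_le hr.1 with h2 | h2
    · have D0 : De M a r = 0 := by rw [← h2, De_rp h]
      have np' : 0 < n r := h2 ▸ np
      rcases eq_or_ne (K a r om m) 0 with hK | hK
      · have hW : 0 < r ^ 2 + a ^ 2 := by have : 0 < r := by linarith
                                          positivity
        obtain ⟨μ, c, hc, P⟩ := ene_thr (α := n r * (r ^ 2 + a ^ 2)) (β := e r * (r ^ 2 + a ^ 2) / 2)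
          (γ := 0) (u := a * -n r) (v := -(a * e r)) (mul_pos np' hW) (lp r hr.1 hK)
        refine ⟨μ, c, hc, ?_⟩
        rw [PEv, D0, hK]
        exact P.of_eq (le_of_eq (by ring)) (by ring) (by ring) rfl (by ring) (by ring)
      · exact tm (by rw [D0, zero_mul]; positivity) hK (Or.inr np')
    · have hD := De_pos h h2
      rcases lt_or_ge (K a r om m ^ 2) (De M a r * el a om m) with h3 | h3
      · exact ene_forb hD hl h3
      · refine tm h3 (fun hK => ?_) (Or.inl hD)
        have := mul_pos hD (lp r hr.1 hK)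
        rw [hK] at h3; linarith
  have cK' := (cK a om m).continuous
  have cD := (cDe M a).continuous
  have cβ := C.sβ.continuous
  have ce := C.se.continuous
  have cn := sn.continuous
  have cf := hF.cf
  obtain ⟨μ, sμ, hμ⟩ := sel (x0 := rp M a) (x1 := R2)
    (P := fun r μ => ∃ c, 0 < c ∧ PEv c (De M a r) (K a r om m) (r ^ 2 + a ^ 2)
      (f (M, a, r)) a (De M a r * β r - n r) (β r * K a r om m + e r) μ (el a om m))
    (fun r => by
      rintro x ⟨c, hc, P⟩ y ⟨c', hc', P'⟩ u v hu hv huv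
      obtain rfl : v = 1 - u := by linarith
      refine ⟨_, lt_min hc hc', (Pos.comb P P' hu hv huv).of_eq (le_of_eq ?_) ?_ ?_ ?_ ?_ ?_⟩ <;>
        (try simp only [smul_eq_mul]) <;> ring)
    (fun r hr => by
      obtain ⟨μ, c, hc, P⟩ := loc r hr
      refine ⟨μ, (Pos.near (y0 := r)
        (α := fun r => -((De M a r * β r - n r) * (r ^ 2 + a ^ 2 - f (M, a, r) * De M a r)) +
          μ * De M a r)
        (β := fun r => ((β r * K a r om m + e r) * (r ^ 2 + a ^ 2 - f (M, a, r) * De M a r) -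
          (De M a r * β r - n r) * f (M, a, r) * K a r om m) / 2 - μ * K a r om m)
        (γ := fun r => (β r * K a r om m + e r) * f (M, a, r) * K a r om m) (g := fun _ => μ)
        (u := fun r => a * (De M a r * β r - n r)) (v := fun r => -(a * (β r * K a r om m + e r)))
        (l := fun _ => el a om m) hc (by fun_prop)
        (by fun_prop) (by fun_prop) (by fun_prop) (by fun_prop) (by fun_prop) (by fun_prop)
        P).mono fun r hr => ⟨c / 2, by positivity, hr⟩⟩)
  refine ⟨n, μ, C, sn, sμ, n0, hB, posdef np np ?_ hl, hμ⟩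
  have hr : rp M a ∈ Icc (rp M a) R2 := ⟨le_rfl, by linarith [rp_le h, hF.big, hF.le]⟩
  rw [sq, zero_mul]
  refine mul_pos np ?_
  rcases eq_or_ne (K a (rp M a) om m) 0 with hK | hK
  · rw [hK, mul_zero, zero_add]; exact mul_pos np (lp _ le_rfl hK)
  · have := (tl _ hr (by rw [De_rp h, zero_mul]; positivity) hK).1
    linarith [mul_nonneg np.le hl]

/-- The data in every direction. -/
theorem exists_dat {ra ta R1 R2 : ℝ} {be gF f : ℝ × ℝ × ℝ → ℝ} (h : |a| < M) (ha : a ≠ 0)
    (hu : om ^ 2 + m ^ 2 = 1) (hF : Far M a be gF f R1 R2) (hta : rp M a < ta)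
    (hra : rp M a < ra)
    (near : ∀ r ∈ Ioc (rp M a) ra, ka M a r om m = 0 → K a r om m ^ 2 < De M a r * el a om m) :
    ∃ β g e G gt g1 q n μ, Dat M a om m ra (10 * M) ta R2 f β g e G gt g1 q n μ ∧
      ∀ r, R1 - 1 ≤ r → β r = be (M, a, r) ∧ g r = gF (M, a, r) := by
  obtain ⟨β, g, e, G, gt, g1, q, C, hb⟩ : ∃ β g e G gt g1 q,
      Core M a om m ra (10 * M) ta (R1 - 1) β g e G gt g1 q ∧
      ∀ r ∈ Icc (R1 - 2) (R1 - 1), β r ≤ be (M, a, r) := by
    rcases le_or_gt (om * K a (rp M a) om m) 0 with h1 | h1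
    · exact dirS h ha hu hF hta h1
    · exact dirN h ha hu hF hta hra near h1
  obtain ⟨β', g', C', hf⟩ := glue h hu hF C hb
  obtain ⟨n, μ, D⟩ := dat h hu hF hta C'
  exact ⟨β', g', e, G, gt, g1, q, n, μ, D, hf⟩

end Vale.Agent.P354XH
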