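import Vale.Agent.P354XH.Pos

/-! Tools: positive forms, smooth selections, cut-off functions, primitives. -/

open Set Filter Topology
open scoped ContDiff Manifold

namespace Vale.Agent.P354XH

theorem posdef {A e Γ g l : ℝ} (hA : 0 < A) (hg : 0 < g) (h : e ^ 2 < A * (Γ + g * l))
    (hl : 0 ≤ l) : ∃ c, 0 < c ∧ Pos c A e Γ g 0 0 l := by
  obtain ⟨G, hG⟩ : ∃ G, G = Γ + g * l := ⟨_, rfl⟩
  rw [← hG] at h
  have hG0 : 0 < G := by
    by_contra hn
    nlinarith [sq_nonneg e, mul_nonneg hA.le (neg_nonneg.mpr (not_lt.mp hn))]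
  obtain ⟨c1, hc1, e1⟩ : ∃ c1 : ℝ, 0 < c1 ∧ c1 * (A + G) = A * G - e ^ 2 :=
    ⟨(A * G - e ^ 2) / (A + G), div_pos (by linarith) (by linarith), by field_simp⟩
  have key : ∀ x : ℝ, c1 * (x ^ 2 + 1) ≤ A * x ^ 2 + 2 * e * x + G := fun x => by
    have : 0 ≤ (A + G) * (A * x ^ 2 + 2 * e * x + G - c1 * (x ^ 2 + 1)) := by
      have : (A + G) * (A * x ^ 2 + 2 * e * x + G - c1 * (x ^ 2 + 1)) =
          (A * x + e) ^ 2 + (e * x + G) ^ 2 := by linear_combination (-(x ^ 2 + 1)) * e1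
      rw [this]; positivity
    by_contra hn
    nlinarith [mul_pos (add_pos hA hG0) (sub_pos.mpr (not_le.mp hn))]
  refine ⟨min g (c1 / (1 + l)), lt_min hg (by positivity), fun x s L hL _ => ?_⟩
  have m1 := min_le_left g (c1 / (1 + l))
  have m2 : min g (c1 / (1 + l)) * (1 + l) ≤ c1 := (le_div_iff₀ (by linarith)).mp (min_le_right _ _)
  have m0 : 0 < min g (c1 / (1 + l)) := lt_min hg (by positivity)
  generalize min g (c1 / (1 + l)) = c at *
  have := key x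
  have := mul_le_mul_of_nonneg_right m1 (sub_nonneg.mpr hL)
  have := mul_le_mul_of_nonneg_right m2 (sq_nonneg x)
  have := mul_nonneg (mul_nonneg m0.le hl) (sq_nonneg x)
  unfold qf
  nlinarith

theorem Pos.comb {c α β γ g u v c' α' β' γ' g' u' v' l x y : ℝ} (h : Pos c α β γ g u v l)
    (h' : Pos c' α' β' γ' g' u' v' l) (hx : 0 ≤ x) (hy : 0 ≤ y) (hxy : x + y = 1) :
    Pos (min c c') (x * α + y * α') (x * β + y * β') (x * γ + y * γ') (x * g + y * g')
      (x * u + y * u') (x * v + y * v') l := fun ξ s L h1 h2 => by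
  have a1 := mul_le_mul_of_nonneg_left (h.mono (min_le_left c c') ξ s L h1 h2) hx
  have a2 := mul_le_mul_of_nonneg_left (h'.mono (min_le_right c c') ξ s L h1 h2) hy
  have : min c c' * (ξ ^ 2 + 1 + L) =
      x * (min c c' * (ξ ^ 2 + 1 + L)) + y * (min c c' * (ξ ^ 2 + 1 + L)) := by
    rw [← add_mul, hxy, one_mul]
  unfold qf at *
  linarith

theorem Pos.smul {c α β γ g u v l k : ℝ} (h : Pos c α β γ g u v l) (hk : 0 ≤ k) :
    Pos (k * c) (k * α) (k * β) (k * γ) (k * g) (k * u) (k * v) l := fun ξ s L h1 h2 => by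
  have a1 := mul_le_mul_of_nonneg_left (h ξ s L h1 h2) hk
  unfold qf at *
  linarith

theorem Pos.of_eq {c α β γ g u v α' β' γ' g' u' v' l : ℝ} (h : Pos c α β γ g u v l)
    (h1 : α ≤ α') (h2 : β = β') (h3 : γ = γ') (h4 : g = g') (h5 : u = u') (h6 : v = v') :
    Pos c α' β' γ' g' u' v' l := fun ξ s L a1 a2 => by
  have := h ξ s L a1 a2
  have := mul_le_mul_of_nonneg_right h1 (sq_nonneg ξ)
  subst h2 h3 h4 h5 h6
  unfold qf at *
  linarith

theorem xi_le {D K x : ℝ} (hD : D ≠ 0) :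
    x ^ 2 ≤ 2 * (1 + K ^ 2) / D ^ 2 * ((D * x - K) ^ 2 + 1) := by
  have hD2 : 0 < D ^ 2 := by positivity
  rw [div_mul_eq_mul_div, le_div_iff₀ hD2]
  nlinarith [sq_nonneg (D * x - 2 * K), mul_nonneg (sq_nonneg K) (sq_nonneg (D * x - K))]

/-- Smooth selection on a compact interval. -/
theorem sel {P : ℝ → ℝ → Prop} {x0 x1 : ℝ} (hc : ∀ r, Convex ℝ {A | P r A})
    (h : ∀ r ∈ Icc x0 x1, ∃ A, ∀ᶠ s in 𝓝 r, P s A) :
    ∃ A : ℝ → ℝ, ContDiff ℝ ∞ A ∧ ∀ r ∈ Icc x0 x1, P r (A r) := by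
  obtain ⟨g, hg⟩ := exists_contMDiffMap_forall_mem_convex_of_local_const (n := (⊤ : ℕ∞)) 𝓘(ℝ, ℝ)
    (t := fun r => {A | r ∈ Icc x0 x1 → P r A}) (fun r => by
      intro x hx y hy s t hs ht hst hr
      exact hc r (hx hr) (hy hr) hs ht hst) (fun r => by
      by_cases hr : r ∈ Icc x0 x1
      · obtain ⟨A, hA⟩ := h r hr
        exact ⟨A, hA.mono fun s hs _ => hs⟩
      · refine ⟨0, ?_⟩
        filter_upwards [isClosed_Icc.isOpen_compl.mem_nhds hr] with s hs hs'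
        exact absurd hs' hs)
  exact ⟨g, g.contMDiff.contDiff, fun r hr => hg r hr⟩

/-- A smooth step from 0 on the left of x to 1 on the right of y. -/
theorem step {x y : ℝ} (hxy : x < y) : ∃ k : ℝ → ℝ, ContDiff ℝ ∞ k ∧ (∀ r, r ≤ x → k r = 0) ∧
    (∀ r, y ≤ r → k r = 1) ∧ (∀ r, 0 ≤ k r) ∧ (∀ r, k r ≤ 1) ∧ (∀ r, 0 ≤ deriv k r) ∧
    ∀ r, r < y → k r < 1 := by
  have hd : 0 < y - x := sub_pos.mpr hxy
  refine ⟨fun r => Real.smoothTransition ((r - x) / (y - x)),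
    Real.smoothTransition.contDiff.comp (by fun_prop), fun r hr => ?_, fun r hr => ?_,
    fun r => Real.smoothTransition.nonneg _, fun r => Real.smoothTransition.le_one _,
    fun r => ?_, fun r hr => ?_⟩
  · exact Real.smoothTransition.zero_of_nonpos (div_nonpos_of_nonpos_of_nonneg (by linarith) hd.le)
  · exact Real.smoothTransition.one_of_one_le ((one_le_div hd).mpr (by linarith))
  · refine Monotone.deriv_nonneg fun s t hst => Real.smoothTransition.monotone ?_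
    gcongr
  · exact Real.smoothTransition.lt_one_of_lt_one ((div_lt_one hd).mpr (by linarith))

theorem smooth_mul {u v : ℝ → ℝ} {y z : ℝ} (hyz : y < z) (hu : ContDiff ℝ ∞ u)
    (h0 : ∀ r, r < z → u r = 0) (hv : ContDiffOn ℝ ∞ v (Ioi y)) :
    ContDiff ℝ ∞ fun r => u r * v r := by
  refine contDiff_iff_contDiffAt.mpr fun r => ?_
  rcases lt_or_ge r z with h | h
  · refine (contDiffAt_const (c := (0 : ℝ))).congr_of_eventuallyEq ?_
    filter_upwards [Iio_mem_nhds h] with s hs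
    rw [h0 s hs, zero_mul]
  · exact hu.contDiffAt.mul (hv.contDiffAt (Ioi_mem_nhds (hyz.trans_le h)))

theorem globalize {v : ℝ → ℝ} {y z : ℝ} (hyz : y < z) (hv : ContDiffOn ℝ ∞ v (Ioi y)) :
    ∃ w : ℝ → ℝ, ContDiff ℝ ∞ w ∧ ∀ r, z ≤ r → w r = v r := by
  obtain ⟨k, hk, h0, h1, -⟩ := step (x := (y + z) / 2) (y := z) (by linarith)
  exact ⟨fun r => k r * v r, smooth_mul (y := y) (z := (y + z) / 2) (by linarith) hk
    (fun r hr => h0 r hr.le) hv, fun r hr => by simp only [h1 r hr, one_mul]⟩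

theorem prim {q : ℝ → ℝ} (hq : ContDiff ℝ ∞ q) :
    ∃ Q : ℝ → ℝ, ContDiff ℝ ∞ Q ∧ ∀ r, HasDerivAt Q (q r) r := by
  have h : ∀ r, HasDerivAt (fun u => ∫ s in (0 : ℝ)..u, q s) (q r) r := fun r =>
    (hq.continuous.integral_hasStrictDerivAt 0 r).hasDerivAt
  refine ⟨fun u => ∫ s in (0 : ℝ)..u, q s, ?_, h⟩
  rw [contDiff_infty_iff_deriv]
  refine ⟨fun r => (h r).differentiableAt, ?_⟩
  have : deriv (fun u => ∫ s in (0 : ℝ)..u, q s) = q := funext fun r => (h r).deriv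
  rwa [this]

theorem hd {f : ℝ → ℝ} (hf : ContDiff ℝ ∞ f) (r : ℝ) : HasDerivAt f (deriv f r) r :=
  (hf.differentiable (by simp) r).hasDerivAt

theorem cd {f : ℝ → ℝ} (hf : ContDiff ℝ ∞ f) : Continuous (deriv f) :=
  hf.continuous_deriv (by simp)

theorem sd {f : ℝ → ℝ} (hf : ContDiff ℝ ∞ f) : ContDiff ℝ ∞ (deriv f) :=
  (contDiff_infty_iff_deriv.mp hf).2

/-- The weight: zero on [x, y], positive outside. -/
noncomputable def th (x y r : ℝ) : ℝ := expNegInvGlue (x - r) + expNegInvGlue (r - y)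

theorem th_smooth (x y : ℝ) : ContDiff ℝ ∞ (th x y) :=
  (expNegInvGlue.contDiff.comp (by fun_prop)).add (expNegInvGlue.contDiff.comp (by fun_prop))

theorem th_nonneg (x y r : ℝ) : 0 ≤ th x y r :=
  add_nonneg (expNegInvGlue.nonneg _) (expNegInvGlue.nonneg _)

theorem th_zero {x y r : ℝ} (h : r ∈ Icc x y) : th x y r = 0 := by
  rw [th, expNegInvGlue.zero_of_nonpos (by linarith [h.1]),
    expNegInvGlue.zero_of_nonpos (by linarith [h.2]), add_zero]

theorem th_pos {x y r : ℝ} (h : r ∉ Icc x y) : 0 < th x y r := by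
  rcases not_and_or.mp h with h | h
  · exact add_pos_of_pos_of_nonneg (expNegInvGlue.pos_of_pos (by linarith [not_le.mp h]))
      (expNegInvGlue.nonneg _)
  · exact add_pos_of_nonneg_of_pos (expNegInvGlue.nonneg _)
      (expNegInvGlue.pos_of_pos (by linarith [not_le.mp h]))

end Vale.Agent.P354XH
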