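import Vale.Agent.P354XH.OnOff

/-! Scaling, sums, and the lower bound of the weight. -/

open Set Filter Topology
open scoped ContDiff

namespace Vale.Agent.P354XH

open Vale.Agent.P354BF (De rp)

variable {b ch h mu : Fm} {d : ℕ}

theorem K_hom (a r om m t : ℝ) : K a r (t * om) (t * m) = t * K a r om m := by unfold K; ring

theorem ka_hom (M a r om m t : ℝ) : ka M a r (t * om) (t * m) = t * ka M a r om m := by
  unfold ka; ring

theorem Bk_hom (hb : HP d b) (hch : HP (d + 1) ch) (hh : HP d h) (M a r om m x L t : ℝ) :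
    Bk b ch h M a r (t * om) (t * m) (t * x) (t ^ 2 * L) = t ^ (d + 2) * Bk b ch h M a r om m x L := by
  simp only [Bk, hb.hom, hb.dr.hom, hch.dr.hom, hh.hom, K_hom]; ring

theorem Qf_hom (hb : HP d b) (hch : HP (d + 1) ch) (M a r om m x L t : ℝ) :
    Qf b ch M a r (t * om) (t * m) (t * x) (t ^ 2 * L) = t ^ (d + 2) * Qf b ch M a r om m x L := by
  simp only [Qf, hb.hom, hch.hom, K_hom]; ring

theorem En_hom (f : ℝ × ℝ × ℝ → ℝ) (hb : HP d b) (hch : HP (d + 1) ch) (hmu : HP d mu)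
    (M a r om m x s L t : ℝ) : En f b ch mu M a r (t * om) (t * m) (t * x) (t * s) (t ^ 2 * L) =
      t ^ (d + 2) * En f b ch mu M a r om m x s L := by
  simp only [En, hb.hom, hch.hom, hmu.hom, K_hom]; ring

theorem On.neg {c ra rb M a r om m : ℝ} {f : ℝ × ℝ × ℝ → ℝ} (hb : HP 2 b) (hch : HP 3 ch)
    (hh : HP 2 h) (hmu : HP 2 mu) (H : On c f ra rb b ch h mu ((M, a, r), -om, -m)) :
    On c f ra rb b ch h mu ((M, a, r), om, m) := by
  have e1 := fun x L => Bk_hom hb hch hh M a r om m x L (-1)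
  have e2 := fun x L => Qf_hom hb hch M a r om m x L (-1)
  have e3 := fun x s L => En_hom f hb hch hmu M a r om m x s L (-1)
  have e4 := K_hom a r om m (-1)
  have e5 := ka_hom M a r om m (-1)
  norm_num at e1 e2 e3 e4 e5
  obtain ⟨h1, h2, h3⟩ := H
  simp only [On, NB, zW, zB, zQ, zE, zl, zD, zK, zk, el_neg, e4, e5] at h1 h2 h3 ⊢
  refine ⟨fun x L hL => ?_, fun hz x L hL => ?_, fun x s L hL hs => ?_⟩
  · have := h1 (-x) L hL
    rw [e1] at this; linarith
  · have := h2 hz (-x) L hL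
    rw [e2] at this; linarith
  · have := h3 (-x) (-s) L hL (by simpa using hs)
    rw [e3] at this; linarith

/-- A combination of families with weights which depend on the frequency only. -/
def cmb {ι : Type} (J : Finset ι) (q : ι → ℝ → ℝ → ℝ) (F : ι → Fm) : Fm :=
  fun M a r om m => ∑ j ∈ J, q j om m * F j M a r om m

variable {ι : Type} {J : Finset ι} {q : ι → ℝ → ℝ → ℝ} {bs cs hs ms : ι → Fm}

theorem dr_cmb (H : ∀ j, HP d (bs j)) (M a r om m : ℝ) :
    dr (cmb J q bs) M a r om m = ∑ j ∈ J, q j om m * dr (bs j) M a r om m :=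
  (HasDerivAt.fun_sum fun j _ => ((H j).hd M a r om m).const_mul _).deriv

theorem Bk_cmb {e : ℕ} (H : ∀ j, HP d (bs j)) (H' : ∀ j, HP e (cs j)) (M a r om m x L : ℝ) :
    Bk (cmb J q bs) (cmb J q cs) (cmb J q hs) M a r om m x L =
      ∑ j ∈ J, q j om m * Bk (bs j) (cs j) (hs j) M a r om m x L := by
  simp only [Bk, dr_cmb H, dr_cmb H']
  simp only [cmb, Finset.sum_mul, Finset.mul_sum, ← Finset.sum_add_distrib,
    ← Finset.sum_sub_distrib]
  exact Finset.sum_congr rfl fun j _ => by ring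

theorem Qf_cmb (M a r om m x L : ℝ) : Qf (cmb J q bs) (cmb J q cs) M a r om m x L =
    ∑ j ∈ J, q j om m * Qf (bs j) (cs j) M a r om m x L := by
  simp only [Qf, cmb, Finset.sum_mul, Finset.mul_sum, ← Finset.sum_sub_distrib]
  exact Finset.sum_congr rfl fun j _ => by ring

theorem En_cmb (f : ℝ × ℝ × ℝ → ℝ) (M a r om m x s L : ℝ) :
    En f (cmb J q bs) (cmb J q cs) (cmb J q ms) M a r om m x s L =
      ∑ j ∈ J, q j om m * En f (bs j) (cs j) (ms j) M a r om m x s L := by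
  simp only [En, cmb, Finset.sum_mul, ← Finset.sum_add_distrib, ← Finset.sum_sub_distrib]
  exact Finset.sum_congr rfl fun j _ => by ring

theorem sum_pos {w B : ι → ℝ} {N c η : ℝ} (hN : 0 ≤ N) (hc : 0 < c) (hη : 0 ≤ η)
    (hw : ∀ j ∈ J, 0 ≤ w j) (H : ∀ j ∈ J, c * N ≤ B j ∨ (w j ≤ η ∧ -N ≤ c * B j))
    {j0 : ι} (h0 : j0 ∈ J) (h1 : 1 ≤ w j0) (h2 : c * N ≤ B j0) (h3 : J.card * η ≤ c ^ 2 / 2) :
    c / 2 * N ≤ ∑ j ∈ J, w j * B j := by
  have a1 : ∀ j ∈ J, 0 ≤ c * (w j * B j) + η * N := fun j hj => by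
    have := hw j hj
    rcases H j hj with h | h
    · have : 0 ≤ B j := le_trans (by positivity) h
      positivity
    · nlinarith [mul_le_mul_of_nonneg_left h.2 this, mul_le_mul_of_nonneg_right h.1 hN]
  have a2 := Finset.single_le_sum a1 h0
  rw [Finset.sum_add_distrib, ← Finset.mul_sum, Finset.sum_const, nsmul_eq_mul] at a2
  have a3 : c * N ≤ w j0 * B j0 := by
    have : 0 ≤ B j0 := le_trans (by positivity) h2
    nlinarith
  refine le_of_mul_le_mul_left ?_ hc
  nlinarith [mul_le_mul_of_nonneg_right h3 hN, mul_le_mul_of_nonneg_left a3 hc.le,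
    mul_nonneg hη hN]

theorem incr_zero {U : ℝ → ℝ} {x y k : ℝ} (hxy : x ≤ y) (hU : ContinuousOn U (Icc x y))
    (h : ∀ r ∈ Icc x y, ∀ s ∈ Icc x y, s ≤ r → k * (r - s) ≤ U r - U s) :
    ∃ s ∈ Icc x y, ∀ r ∈ Icc x y, k * |r - s| ≤ |U r| := by
  rcases le_total 0 (U x) with h1 | h1
  · refine ⟨x, ⟨le_rfl, hxy⟩, fun r hr => ?_⟩
    rw [abs_of_nonneg (sub_nonneg.mpr hr.1)]
    linarith [h r hr x ⟨le_rfl, hxy⟩ hr.1, le_abs_self (U r)]
  · rcases le_total (U y) 0 with h2 | h2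
    · refine ⟨y, ⟨hxy, le_rfl⟩, fun r hr => ?_⟩
      rw [abs_of_nonpos (sub_nonpos.mpr hr.2)]
      linarith [h y ⟨hxy, le_rfl⟩ r hr hr.2, neg_abs_le (U r)]
    · obtain ⟨s, hs, e⟩ := intermediate_value_Icc hxy hU ⟨h1, h2⟩
      refine ⟨s, hs, fun r hr => ?_⟩
      rcases le_total s r with h3 | h3
      · rw [abs_of_nonneg (sub_nonneg.mpr h3)]
        linarith [h r hr s hs h3, le_abs_self (U r)]
      · rw [abs_of_nonpos (sub_nonpos.mpr h3)]
        linarith [h s hs r hr h3, neg_abs_le (U r)]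

theorem weight {M0 a0 r0 ra rb x y R : ℝ} (h : |a0| < M0) (ha : a0 ≠ 0) (h0 : M0 < r0)
    (h1 : r0 ≤ x) (h2 : x < ra) (h3 : ra ≤ rb) (h4 : rb < y) (h5 : y ≤ R) :
    ∃ c, 0 < c ∧ ∀ᶠ p : ℝ × ℝ in 𝓝 (M0, a0), ∀ om m : ℝ, om ^ 2 + m ^ 2 = 1 →
      ∃ rs ∈ Icc x y, ∀ r ∈ Icc r0 R, c * (r - rs) ^ 2 ≤ ka p.1 p.2 r om m ^ 2 + th ra rb r := by
  have hM := M_pos h
  have ha0 := abs_pos.mpr ha
  have hR : 0 < R := by linarith
  obtain ⟨η, hη, eη⟩ : ∃ η, 0 < η ∧ r0 = M0 + 2 * η := ⟨(r0 - M0) / 2, by linarith, by ring⟩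
  obtain ⟨C, hC, bC⟩ := upper ((isCompact_Icc (a := (M0 - 1, a0 - 1)) (b := (M0 + 1, a0 + 1))).prod
    (isCompact_Icc (a := r0) (b := R))) (f := fun z : (ℝ × ℝ) × ℝ => Pc z.1.1 z.1.2 z.2)
    (by unfold Pc; fun_prop)
  obtain ⟨θ, hθ, bθ⟩ := lower (A := Icc r0 R ∩ (Ioo x y)ᶜ)
    (isCompact_Icc.inter_right isOpen_Ioo.isClosed_compl) (th_smooth ra rb).continuous.continuousOn
    fun r hr => th_pos fun h => hr.2 ⟨by linarith [h.1], by linarith [h.2]⟩
  obtain ⟨k, hk, k1, k2⟩ : ∃ k : ℝ, 0 < k ∧ k ≤ 1 / 2 ∧ k * C ≤ |a0| * η / 8 :=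
    ⟨min (1 / 2) (|a0| * η / 8 / C), lt_min (by norm_num) (by positivity), min_le_left _ _,
      (le_div_iff₀ hC).mp (min_le_right _ _)⟩
  obtain ⟨c, hc, c1, c2, c3⟩ : ∃ c : ℝ, 0 < c ∧ c * R ^ 2 ≤ (|a0| * η / 8) ^ 2 ∧
      c ≤ (η * (k ^ 2 * (2 * η))) ^ 2 ∧ c * R ^ 2 ≤ θ :=
    ⟨min ((|a0| * η / 8) ^ 2 / R ^ 2) (min ((η * (k ^ 2 * (2 * η))) ^ 2) (θ / R ^ 2)),
      lt_min (by positivity) (lt_min (by positivity) (by positivity)),
      (le_div_iff₀ (by positivity)).mp (min_le_left _ _),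
      (min_le_right _ _).trans (min_le_left _ _),
      (le_div_iff₀ (by positivity)).mp ((min_le_right _ _).trans (min_le_right _ _))⟩
  have sq : ∀ r ∈ Icc r0 R, ∀ s ∈ Icc x y, c * (r - s) ^ 2 ≤ c * R ^ 2 := fun r hr s hs =>
    mul_le_mul_of_nonneg_left (sq_le_sq' (by linarith [hr.1, hs.2]) (by linarith [hr.2, hs.1])) hc.le
  refine ⟨c, hc, ?_⟩
  filter_upwards [near (continuous_fst.continuousAt (x := (M0, a0))) (lt_min hη one_pos),
    near (continuous_snd.continuousAt (x := (M0, a0))) (lt_min (half_pos ha0) one_pos),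
    ((continuous_snd.abs.continuousAt (x := (M0, a0))).eventually_lt continuous_fst.continuousAt h)]
    with p p1 p2 p3 om m hu
  obtain ⟨M, a⟩ := p
  simp only at p1 p2 p3 ⊢
  have q1 := abs_le.mp (p1.trans (min_le_left _ _))
  have q2 := abs_le.mp (p1.trans (min_le_right _ _))
  have q3 := abs_le.mp (p2.trans (min_le_right _ _))
  have q4 : |a0| / 2 ≤ |a| := by
    have := abs_sub_abs_le_abs_sub a0 a
    rw [abs_sub_comm] at this
    linarith [p2.trans (min_le_left _ _)]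
  have xp : ∀ r ∈ Icc r0 R, η ≤ r - M := fun r hr => by linarith [hr.1, q1.2]
  rcases le_total |om| k with h6 | h6
  · refine ⟨x, ⟨le_rfl, by linarith⟩, fun r hr => ?_⟩
    have m1 : 1 / 2 ≤ |m| := by
      have : om ^ 2 ≤ (1 / 2) ^ 2 := by rw [← sq_abs]; gcongr; linarith
      exact (pow_le_pow_iff_left₀ (by norm_num) (abs_nonneg m) two_ne_zero).mp
        (by rw [sq_abs]; linarith)
    have b1 : |om * Pc M a r| ≤ k * C := by
      rw [abs_mul]; gcongr
      exact bC ((M, a), r) ⟨⟨⟨by linarith, by linarith⟩, ⟨by linarith, by linarith⟩⟩, hr⟩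
    have b2 : |a0| / 2 * (1 / 2) * η ≤ |a * m * (r - M)| := by
      rw [abs_mul, abs_mul, abs_of_pos (hη.trans_le (xp r hr))]; gcongr; exact xp r hr
    have b3 : |a0| * η / 8 ≤ |ka M a r om m| := by
      have := abs_sub (ka M a r om m) (om * Pc M a r)
      rw [show ka M a r om m - om * Pc M a r = a * m * (r - M) by unfold ka Pc; ring] at this
      linarith
    have := pow_le_pow_left₀ (by positivity) b3 2
    rw [sq_abs] at this
    linarith [sq r hr x ⟨le_rfl, by linarith⟩, th_nonneg ra rb r]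
  · have hM' := M_pos p3
    have hd := sub_pos.mpr (sq_lt p3)
    have ne : ∀ r ∈ Icc r0 R, r ≠ M := fun r hr => by linarith [xp r hr] |> fun h : M < r => h.ne'
    obtain ⟨s, hs, H⟩ := incr_zero (U := fun r => om * (ka M a r om m / (r - M)))
      (k := k ^ 2 * (2 * η)) (show r0 ≤ R by linarith)
      (continuousOn_const.mul ((cka M a om m).continuous.continuousOn.div (by fun_prop)
        fun r hr => sub_ne_zero.mpr (ne r hr))) fun r hr s hs hsr => by
        rw [← mul_sub, ka_sub (ne r hr) (ne s hs)]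
        have a1 := hη.trans_le (xp r hr)
        have a2 := hη.trans_le (xp s hs)
        have a3 : 2 * η ≤ r - M + (s - M) + 2 * M * (M ^ 2 - a ^ 2) / ((r - M) * (s - M)) := by
          have : 0 ≤ 2 * M * (M ^ 2 - a ^ 2) / ((r - M) * (s - M)) := by positivity
          linarith [xp r hr, xp s hs]
        have a4 : k ^ 2 ≤ om ^ 2 := by rw [← sq_abs om]; gcongr
        have a5 := sub_nonneg.mpr hsr
        calc k ^ 2 * (2 * η) * (r - s) ≤ om ^ 2 * (r - M + (s - M) +
              2 * M * (M ^ 2 - a ^ 2) / ((r - M) * (s - M))) * (r - s) := by gcongr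
          _ = _ := by ring
    have hxy : x ≤ y := by linarith
    have mem : max x (min s y) ∈ Icc x y := ⟨le_max_left _ _, max_le hxy (min_le_right _ _)⟩
    refine ⟨max x (min s y), mem, fun r hr => ?_⟩
    by_cases h7 : r ∈ Ioo x y
    · have a1 : |r - max x (min s y)| ≤ |r - s| := by
        rcases le_total s x with h8 | h8
        · rw [min_eq_left (h8.trans hxy), max_eq_left h8, abs_of_pos (sub_pos.mpr h7.1)]
          linarith [le_abs_self (r - s)]
        · rcases le_total s y with h9 | h9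
          · rw [min_eq_left h9, max_eq_right h8]
          · rw [min_eq_right h9, max_eq_right hxy, abs_of_neg (sub_neg.mpr h7.2)]
            linarith [neg_abs_le (r - s)]
      have a2 := hη.trans_le (xp r hr)
      have a3 : |om| ≤ 1 := abs_le_one_iff_mul_self_le_one.mpr (by nlinarith [sq_nonneg m])
      have a4 : η * (k ^ 2 * (2 * η)) * |r - max x (min s y)| ≤ |ka M a r om m| := by
        calc η * (k ^ 2 * (2 * η)) * |r - max x (min s y)|
            ≤ (r - M) * (k ^ 2 * (2 * η) * |r - s|) := by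
              rw [mul_assoc]; gcongr; exact xp r hr
          _ ≤ (r - M) * (1 * (|ka M a r om m| / (r - M))) := by
              refine mul_le_mul_of_nonneg_left ((H r hr).trans ?_) a2.le
              rw [abs_mul, abs_div, abs_of_pos a2]; gcongr
          _ = _ := by field_simp
      have := pow_le_pow_left₀ (by positivity) a4 2
      rw [mul_pow, sq_abs, sq_abs] at this
      linarith [mul_le_mul_of_nonneg_right c2 (sq_nonneg (r - max x (min s y))), th_nonneg ra rb r]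
    · linarith [sq r hr _ mem, bθ r ⟨hr, h7⟩, sq_nonneg (ka M a r om m)]

end Vale.Agent.P354XH
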